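import Vale.Agent.P011.Arith.Places

/-!
Algebra of a quadratic extension.
-/

open NumberField IsDedekindDomain

namespace Vale.Agent.P011.Arith

section alg

variable {F : Type} [Field F] [CharZero F] {E : Type} [Field E] [Algebra F E]

/-- The data of a quadratic extension. -/
structure QD (a : Fˣ) (θ : E) (σ : E ≃ₐ[F] E) : Prop where
  h2 : Module.finrank F E = 2
  sq : θ ^ 2 = algebraMap F E a
  conj : σ θ = -θ
  ns : ¬ IsSquare (a : F)

omit [CharZero F] in
theorem coords_zero {a : Fˣ} {θ : E} (hθ : θ ^ 2 = algebraMap F E a) (ha : ¬ IsSquare (a : F))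
    {p q : F} (h : algebraMap F E p + algebraMap F E q * θ = 0) : p = 0 ∧ q = 0 := by
  by_cases ht : q = 0
  · subst ht
    rw [map_zero, zero_mul, add_zero] at h
    exact ⟨(algebraMap F E).injective (h.trans (map_zero _).symm), rfl⟩
  · exfalso
    apply ha
    refine ⟨p / q, ?_⟩
    apply (algebraMap F E).injective
    have h3 : θ = -algebraMap F E (p / q) := by
      rw [map_div₀]
      have ht' : algebraMap F E q ≠ 0 := (map_ne_zero _).mpr ht
      field_simp
      linear_combination h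
    rw [← hθ, h3, map_mul]
    ring

omit [CharZero F] in
theorem coords (h2 : Module.finrank F E = 2) {a : Fˣ} {θ : E} (hθ : θ ^ 2 = algebraMap F E a)
    (ha : ¬ IsSquare (a : F)) (z : E) :
    ∃ p q : F, z = algebraMap F E p + algebraMap F E q * θ := by
  have hli : LinearIndependent F ![1, θ] := by
    rw [LinearIndependent.pair_iff]
    intro s t hst
    rw [Algebra.smul_def, Algebra.smul_def, mul_one] at hst
    exact coords_zero hθ ha hst
  have : FiniteDimensional F E := Module.finite_of_finrank_pos (by omega)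
  have hb : Submodule.span F (Set.range ![1, θ]) = ⊤ := by
    apply hli.span_eq_top_of_card_eq_finrank'
    simp [h2]
  have hz' : z ∈ Submodule.span F (Set.range ![1, θ]) := hb ▸ Submodule.mem_top
  rw [Matrix.range_cons, Matrix.range_cons, Matrix.range_empty, Set.union_empty,
    Set.singleton_union, Submodule.mem_span_pair] at hz'
  obtain ⟨p, q, rfl⟩ := hz'
  exact ⟨p, q, by rw [Algebra.smul_def, Algebra.smul_def, mul_one]⟩

theorem exists_QD (h2 : Module.finrank F E = 2) {a : Fˣ} {θ : E}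
    (hθ : θ ^ 2 = algebraMap F E a) (ha : ¬ IsSquare (a : F)) :
    ∃ σ : E ≃ₐ[F] E, QD a θ σ := by
  have : Algebra.IsQuadraticExtension F E := ⟨h2⟩
  have h1 : Nat.card (E ≃ₐ[F] E) = 2 := by
    rw [← h2]
    exact IsGalois.card_aut_eq_finrank F E
  have : Finite (E ≃ₐ[F] E) := Nat.finite_of_card_ne_zero (by rw [h1]; norm_num)
  have : Nontrivial (E ≃ₐ[F] E) := Finite.one_lt_card_iff_nontrivial.mp (by rw [h1]; norm_num)
  obtain ⟨σ, hσ⟩ := exists_ne (1 : E ≃ₐ[F] E)
  refine ⟨σ, h2, hθ, ?_, ha⟩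
  have h3 : (σ θ) ^ 2 = θ ^ 2 := by rw [← map_pow, hθ, AlgEquiv.commutes]
  rcases sq_eq_sq_iff_eq_or_eq_neg.mp h3 with h4 | h4
  · exfalso
    apply hσ
    ext z
    obtain ⟨p, q, rfl⟩ := coords h2 hθ ha z
    rw [map_add, map_mul, AlgEquiv.commutes, AlgEquiv.commutes, h4]
    rfl
  · exact h4

variable {a : Fˣ} {θ : E} {σ : E ≃ₐ[F] E} (Q : QD a θ σ)

include Q

omit [CharZero F] in
theorem QD.conj_coords (p q : F) : σ (algebraMap F E p + algebraMap F E q * θ) =
    algebraMap F E p - algebraMap F E q * θ := by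
  rw [map_add, map_mul, AlgEquiv.commutes, AlgEquiv.commutes, Q.conj]
  ring

omit [CharZero F] in
theorem QD.conj_conj (z : E) : σ (σ z) = z := by
  obtain ⟨p, q, rfl⟩ := coords Q.h2 Q.sq Q.ns z
  rw [Q.conj_coords, map_sub, map_mul, AlgEquiv.commutes, AlgEquiv.commutes, Q.conj]
  ring

omit [CharZero F] in
theorem QD.norm_coords (p q : F) : (algebraMap F E p + algebraMap F E q * θ) *
    σ (algebraMap F E p + algebraMap F E q * θ) = algebraMap F E (p ^ 2 - a * q ^ 2) := by
  rw [Q.conj_coords, map_sub, map_mul, map_pow, map_pow, ← Q.sq]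
  ring

theorem QD.fixed {z : E} (h : σ z = z) : ∃ p : F, z = algebraMap F E p := by
  obtain ⟨p, q, rfl⟩ := coords Q.h2 Q.sq Q.ns z
  rw [Q.conj_coords] at h
  have h1 : algebraMap F E 0 + algebraMap F E (2 * q) * θ = 0 := by
    rw [map_zero, map_mul, map_ofNat]
    linear_combination -h
  obtain ⟨_, h2⟩ := coords_zero Q.sq Q.ns h1
  have h3 : q = 0 := by
    have : (2 : F) ≠ 0 := two_ne_zero
    exact (mul_eq_zero.mp h2).resolve_left this
  exact ⟨p, by rw [h3, map_zero, zero_mul, add_zero]⟩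

omit [CharZero F] in
theorem QD.theta_ne : θ ≠ 0 := by
  rintro rfl
  have := Q.sq
  rw [zero_pow two_ne_zero] at this
  exact a.ne_zero ((algebraMap F E).injective (this.symm.trans (map_zero _).symm))

end alg

variable {F : Type} [Field F] [NumberField F]

/-- Elements with prescribed orders outside `S`. -/
theorem exists_ord {S : Set (HeightOneSpectrum (𝓞 F))} (hS : Pr S)
    (n : HeightOneSpectrum (𝓞 F) → ℤ) (hn : {v | v ∉ S ∧ n v ≠ 0}.Finite) :
    ∃ f : Fˣ, ∀ v ∉ S, v.valuation F (f : F) = WithZero.exp (n v) := by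
  classical
  have hπ : ∀ v : HeightOneSpectrum (𝓞 F), ∃ π : Fˣ, v ∉ S →
      v.valuation F (π : F) = WithZero.exp (-1) ∧
      ∀ v' ∉ S, v' ≠ v → v'.valuation F (π : F) = 1 := by
    intro v
    by_cases hv : v ∈ S
    · exact ⟨1, fun h => absurd hv h⟩
    · obtain ⟨β, h2⟩ := hS.2 v hv
      exact ⟨β, fun _ => h2⟩
  choose π hπ using hπ
  refine ⟨∏ v ∈ hn.toFinset, π v ^ (-n v), ?_⟩
  intro v hv
  have e1 : ((∏ v ∈ hn.toFinset, π v ^ (-n v) : Fˣ) : F) =
      ∏ v ∈ hn.toFinset, (π v : F) ^ (-n v) := by simp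
  rw [e1, map_prod]
  by_cases hvT : v ∈ hn.toFinset
  · rw [Finset.prod_eq_single_of_mem v hvT]
    · rw [map_zpow₀, (hπ v hv).1, ← WithZero.exp_zsmul]
      congr 1
      simp
    · intro v' hv' hne
      have hv'S : v' ∉ S := (hn.mem_toFinset.mp hv').1
      rw [map_zpow₀, (hπ v' hv'S).2 v hv hne.symm, one_zpow]
  · rw [Finset.prod_eq_one]
    · have : n v = 0 := by
        by_contra h1
        exact hvT (hn.mem_toFinset.mpr ⟨hv, h1⟩)
      rw [this, WithZero.exp_zero]
    · intro v' hv'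
      have hv'S : v' ∉ S := (hn.mem_toFinset.mp hv').1
      have hne : v ≠ v' := fun h => hvT (h ▸ hv')
      rw [map_zpow₀, (hπ v' hv'S).2 v hv hne, one_zpow]

/-- The order of an element. -/
noncomputable def ordv (v : HeightOneSpectrum (𝓞 F)) (x : F) : ℤ :=
  WithZero.log (v.valuation F x)

theorem exp_ordv (v : HeightOneSpectrum (𝓞 F)) (x : Fˣ) :
    v.valuation F (x : F) = WithZero.exp (ordv v (x : F)) :=
  (WithZero.exp_log ((Valuation.ne_zero_iff _).mpr x.ne_zero)).symm

theorem ordv_finite (x : Fˣ) : {v : HeightOneSpectrum (𝓞 F) | ordv v (x : F) ≠ 0}.Finite := by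
  refine (finite_ne_one x).subset ?_
  intro v hv h
  apply hv
  have h' : v.valuation F (x : F) = 1 := h
  rw [ordv, h', ← WithZero.exp_zero, WithZero.log_exp]

end Vale.Agent.P011.Arith
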