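import Vale.Agent.P011.Arith.LocalA

/-!
Finite places of a number field: the unramified extension, units as norms, the index of the
local squares.
-/

open NumberField IsDedekindDomain

namespace Vale.Agent.P011.Arith

variable {F : Type} [Field F] [NumberField F]

theorem exists_residue (v : HeightOneSpectrum (𝓞 F)) {x : F} (hx : v.valuation F x ≤ 1) :
    ∃ a : 𝓞 F, v.valuation F (algebraMap (𝓞 F) F a - x) < 1 :=
  v.exists_valuation_sub_lt_of_integer hx 1

instance finite_residue (v : HeightOneSpectrum (𝓞 F)) : Finite (𝓞 F ⧸ v.asIdeal) :=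
  Ideal.finiteQuotientOfFreeOfNeBot _ v.ne_bot

theorem mk_eq_zero_iff (v : HeightOneSpectrum (𝓞 F)) (r : 𝓞 F) :
    Ideal.Quotient.mk v.asIdeal r = 0 ↔ v.valuation F (algebraMap (𝓞 F) F r) < 1 := by
  rw [Ideal.Quotient.eq_zero_iff_mem, HeightOneSpectrum.valuation_lt_one_iff_mem]

/-- A4: the residue field of a finite place is finite -/
theorem exists_admC (v : HeightOneSpectrum (𝓞 F)) : ∃ c : F, AdmC (v.valuation F) c := by
  have : v.asIdeal.IsPrime := v.isPrime
  have : Finite (𝓞 F ⧸ v.asIdeal) := finite_residue v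
  have hni : ¬ Function.Injective (fun t : 𝓞 F ⧸ v.asIdeal => t ^ 2 + t) := by
    intro h
    have h1 : (0 : 𝓞 F ⧸ v.asIdeal) = -1 := h (by simp)
    have h2 : (1 : 𝓞 F ⧸ v.asIdeal) = 0 := by
      rw [← neg_eq_zero]; exact h1.symm
    exact one_ne_zero h2
  have hns : ¬ Function.Surjective (fun t : 𝓞 F ⧸ v.asIdeal => t ^ 2 + t) := fun h =>
    hni (Finite.injective_iff_surjective.mpr h)
  rw [Function.Surjective] at hns
  push Not at hns
  obtain ⟨c0, hc0⟩ := hns
  obtain ⟨c, rfl⟩ := Ideal.Quotient.mk_surjective c0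
  have key : ∀ t : F, v.valuation F t ≤ 1 →
      v.valuation F (t ^ 2 + t - algebraMap (𝓞 F) F c) = 1 := by
    intro t ht
    obtain ⟨t0, ht0⟩ := exists_residue v ht
    have hc1 := v.valuation_le_one (K := F) c
    refine le_antisymm ?_ ?_
    · refine (v.valuation F).map_sub_le ((v.valuation F).map_add_le ?_ ht) hc1
      rw [map_pow]; exact pow_le_one' ht 2
    · by_contra hlt
      rw [not_le] at hlt
      apply hc0 (Ideal.Quotient.mk _ t0)
      rw [← sub_eq_zero, ← map_pow, ← map_add, ← map_sub, mk_eq_zero_iff]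
      have e : algebraMap (𝓞 F) F (t0 ^ 2 + t0 - c) =
          (algebraMap (𝓞 F) F t0 - t) * (algebraMap (𝓞 F) F t0 + t + 1) +
            (t ^ 2 + t - algebraMap (𝓞 F) F c) := by
        rw [map_sub, map_add, map_pow]; ring
      rw [e]
      refine (v.valuation F).map_add_lt ?_ hlt
      rw [map_mul]
      have h1 : v.valuation F (algebraMap (𝓞 F) F t0 + t + 1) ≤ 1 :=
        (v.valuation F).map_add_le ((v.valuation F).map_add_le (v.valuation_le_one t0) ht)
          (by rw [map_one])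
      calc _ ≤ v.valuation F (algebraMap (𝓞 F) F t0 - t) * 1 := mul_le_mul_right h1 _
        _ < 1 := by rwa [mul_one]
  refine ⟨algebraMap (𝓞 F) F c, v.valuation_le_one c, fun p q => ?_⟩
  rcases le_or_gt (v.valuation F p) (v.valuation F q) with h | h
  · rw [max_eq_right h]
    by_cases hq : q = 0
    · subst hq
      rw [map_zero, le_zero_iff, map_eq_zero] at h
      subst h
      simp
    · have hq0 : v.valuation F q ≠ 0 := (Valuation.ne_zero_iff _).mpr hq
      have e : p ^ 2 + p * q - algebraMap (𝓞 F) F c * q ^ 2 =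
          ((p / q) ^ 2 + p / q - algebraMap (𝓞 F) F c) * q ^ 2 := by
        field_simp
      rw [e, map_mul, key, one_mul, map_pow]
      rw [map_div₀]
      exact (div_le_one₀ (zero_lt_iff.mpr hq0)).mpr h
  · rw [max_eq_left h.le, ← map_pow]
    have hp0 : 0 < v.valuation F p := lt_of_le_of_lt zero_le h
    have hc1 := v.valuation_le_one (K := F) c
    have e : p ^ 2 + p * q - algebraMap (𝓞 F) F c * q ^ 2 =
        p ^ 2 + (p * q - algebraMap (𝓞 F) F c * q ^ 2) := by ring
    rw [e]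
    apply Valuation.map_add_eq_of_lt_left
    refine (v.valuation F).map_sub_lt ?_ ?_
    · rw [map_mul, map_pow, sq]
      exact mul_lt_mul_of_pos_left h hp0
    · rw [map_mul, map_pow, map_pow]
      calc v.valuation F (algebraMap (𝓞 F) F c) * v.valuation F q ^ 2 ≤
            1 * v.valuation F q ^ 2 := mul_le_mul_left hc1 _
        _ < v.valuation F p ^ 2 := by
          rw [one_mul]; exact pow_lt_pow_left₀ h zero_le two_ne_zero

theorem residue_ringChar (v : HeightOneSpectrum (𝓞 F)) (h2 : v.valuation F 2 = 1) :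
    (2 : 𝓞 F ⧸ v.asIdeal) ≠ 0 := by
  intro h
  have h' : Ideal.Quotient.mk v.asIdeal (2 : 𝓞 F) = 0 := by rw [map_ofNat]; exact h
  rw [mk_eq_zero_iff, map_ofNat, h2] at h'
  exact lt_irrefl _ h'

/-- A unit at a nondyadic place which is a square modulo the place is a local square. -/
theorem LS_of_residue (v : HeightOneSpectrum (𝓞 F)) (h2 : v.valuation F 2 = 1) (a : Fˣ)
    (ha : v.valuation F (a : F) = 1) (s : 𝓞 F)
    (h : v.valuation F ((a : F) - algebraMap (𝓞 F) F s ^ 2) < 1) : a ∈ LS (v.valuation F) := by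
  have hs1 : v.valuation F (algebraMap (𝓞 F) F s ^ 2) = 1 := by
    have e : algebraMap (𝓞 F) F s ^ 2 = (a : F) + -((a : F) - algebraMap (𝓞 F) F s ^ 2) := by
      ring
    rw [e, Valuation.map_add_eq_of_lt_left, ha]
    rw [Valuation.map_neg, ha]; exact h
  have hs0 : algebraMap (𝓞 F) F s ≠ 0 := by
    intro h0
    rw [h0] at hs1
    simp at hs1
  refine ⟨Units.mk0 _ hs0, ?_⟩
  rw [Units.val_mk0, div_sub_one (pow_ne_zero 2 hs0), map_div₀, hs1, div_one, val_four_eq, h2,
    one_pow]
  exact h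

theorem ff_norm {k : Type} [Field k] [Finite k] (h2 : (2 : k) ≠ 0) (a b : k) (ha : a ≠ 0) :
    ∃ x y : k, x ^ 2 - a * y ^ 2 = b := by
  let _ : Fintype k := Fintype.ofFinite k
  have hchar : ringChar k ≠ 2 := by
    intro h
    apply h2
    have : ((2 : ℕ) : k) = 0 := (ringChar.spec k 2).mpr (by rw [h])
    simpa using this
  have hf : (Polynomial.X ^ 2 - Polynomial.C b : Polynomial k).degree = 2 :=
    Polynomial.degree_X_pow_sub_C (by norm_num) b
  have hg : (Polynomial.C (-a) * Polynomial.X ^ 2 : Polynomial k).degree = 2 :=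
    Polynomial.degree_C_mul_X_pow 2 (neg_ne_zero.mpr ha)
  obtain ⟨x, y, hxy⟩ := FiniteField.exists_root_sum_quadratic hf hg
    (FiniteField.odd_card_of_char_ne_two hchar)
  refine ⟨x, y, ?_⟩
  simp only [Polynomial.eval_sub, Polynomial.eval_pow, Polynomial.eval_X, Polynomial.eval_C,
    Polynomial.eval_mul] at hxy
  linear_combination hxy

theorem ff_mul {k : Type} [Field k] [Finite k] {a b : k} (ha : ¬ IsSquare a)
    (hb : ¬ IsSquare b) : IsSquare (a * b) := by
  classical
  let _ : Fintype k := Fintype.ofFinite k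
  have ha0 : a ≠ 0 := by rintro rfl; exact ha ⟨0, by simp⟩
  have hb0 : b ≠ 0 := by rintro rfl; exact hb ⟨0, by simp⟩
  rw [← quadraticChar_one_iff_isSquare (mul_ne_zero ha0 hb0), map_mul,
    quadraticChar_neg_one_iff_not_isSquare.mpr ha, quadraticChar_neg_one_iff_not_isSquare.mpr hb]
  norm_num

/-- A5 -/
theorem unit_norm (v : HeightOneSpectrum (𝓞 F)) (h2 : v.valuation F 2 = 1) (a b : Fˣ)
    (ha : v.valuation F (a : F) = 1) (hb : v.valuation F (b : F) = 1) :
    b ∈ NF a ⊔ LS (v.valuation F) := by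
  have : v.asIdeal.IsPrime := v.isPrime
  have : v.asIdeal.IsMaximal := v.isMaximal
  have : Finite (𝓞 F ⧸ v.asIdeal) := finite_residue v
  let _ : Field (𝓞 F ⧸ v.asIdeal) := Ideal.Quotient.field v.asIdeal
  obtain ⟨a0, ha0⟩ := exists_residue v ha.le
  obtain ⟨b0, hb0⟩ := exists_residue v hb.le
  have h20 := residue_ringChar v h2
  have ha0' : Ideal.Quotient.mk v.asIdeal a0 ≠ 0 := by
    rw [Ne, mk_eq_zero_iff]
    intro h
    have e : (a : F) = algebraMap (𝓞 F) F a0 - (algebraMap (𝓞 F) F a0 - a) := by ring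
    have : v.valuation F (a : F) < 1 := by
      rw [e]; exact (v.valuation F).map_sub_lt h ha0
    rw [ha] at this
    exact lt_irrefl _ this
  obtain ⟨x, y, hxy⟩ := ff_norm h20 (Ideal.Quotient.mk v.asIdeal a0)
    (Ideal.Quotient.mk v.asIdeal b0) ha0'
  obtain ⟨x, rfl⟩ := Ideal.Quotient.mk_surjective x
  obtain ⟨y, rfl⟩ := Ideal.Quotient.mk_surjective y
  rw [← sub_eq_zero, ← map_pow, ← map_pow, ← map_mul, ← map_sub, ← map_sub, mk_eq_zero_iff]
    at hxy
  have hn : v.valuation F ((algebraMap (𝓞 F) F x ^ 2 - a * algebraMap (𝓞 F) F y ^ 2) - b) < 1 := by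
    have e : (algebraMap (𝓞 F) F x ^ 2 - a * algebraMap (𝓞 F) F y ^ 2) - b =
        algebraMap (𝓞 F) F (x ^ 2 - a0 * y ^ 2 - b0) + (algebraMap (𝓞 F) F b0 - b) +
          (algebraMap (𝓞 F) F a0 - a) * algebraMap (𝓞 F) F y ^ 2 := by
      rw [map_sub, map_sub, map_mul, map_pow, map_pow]; ring
    rw [e]
    refine (v.valuation F).map_add_lt ((v.valuation F).map_add_lt hxy hb0) ?_
    rw [map_mul]
    have h1 : v.valuation F (algebraMap (𝓞 F) F y ^ 2) ≤ 1 := by
      rw [map_pow]; exact pow_le_one' (v.valuation_le_one y) 2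
    calc _ ≤ v.valuation F (algebraMap (𝓞 F) F a0 - a) * 1 := mul_le_mul_right h1 _
      _ < 1 := by rwa [mul_one]
  set n : F := algebraMap (𝓞 F) F x ^ 2 - a * algebraMap (𝓞 F) F y ^ 2 with hndef
  have hb00 : (b : F) ≠ 0 := b.ne_zero
  have hwn : v.valuation F (n / b - 1) < 1 := by
    rw [div_sub_one hb00, map_div₀, hb, div_one]; exact hn
  have h1 : v.valuation F (n / b) = 1 := by
    have := (v.valuation F).map_one_add_of_lt hwn
    rwa [add_sub_cancel] at this
  have hne : n / b ≠ 0 := by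
    intro h
    rw [h, map_zero] at h1
    exact zero_ne_one h1
  rw [mem_sup_iff_exists]
  refine ⟨Units.mk0 _ hne, LS_of_close ?_, algebraMap (𝓞 F) F x, algebraMap (𝓞 F) F y, ?_⟩
  · rw [Units.val_mk0, val_four_eq, h2, one_pow]; exact hwn
  · rw [Units.val_mk0, mul_div_cancel₀ _ hb00]

/-- A nondyadic unit that is not a local square is not a square in the residue field. -/
theorem not_isSquare_residue (v : HeightOneSpectrum (𝓞 F)) (h2 : v.valuation F 2 = 1) (a : Fˣ)
    (ha : v.valuation F (a : F) = 1) (hna : a ∉ LS (v.valuation F)) (a0 : 𝓞 F)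
    (ha0 : v.valuation F (algebraMap (𝓞 F) F a0 - a) < 1) :
    ¬ IsSquare (Ideal.Quotient.mk v.asIdeal a0) := by
  rintro ⟨s, hs⟩
  obtain ⟨s, rfl⟩ := Ideal.Quotient.mk_surjective s
  rw [← sub_eq_zero, ← map_mul, ← map_sub, mk_eq_zero_iff] at hs
  apply hna
  apply LS_of_residue v h2 a ha s
  have e : (a : F) - algebraMap (𝓞 F) F s ^ 2 =
      algebraMap (𝓞 F) F (a0 - s * s) - (algebraMap (𝓞 F) F a0 - a) := by
    rw [map_sub, map_mul]; ring
  rw [e]
  exact (v.valuation F).map_sub_lt hs ha0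

/-- A6 -/
theorem unit_sq_mul (v : HeightOneSpectrum (𝓞 F)) (h2 : v.valuation F 2 = 1) (a b : Fˣ)
    (ha : v.valuation F (a : F) = 1) (hb : v.valuation F (b : F) = 1)
    (hna : a ∉ LS (v.valuation F)) (hnb : b ∉ LS (v.valuation F)) :
    a * b ∈ LS (v.valuation F) := by
  have : v.asIdeal.IsPrime := v.isPrime
  have : v.asIdeal.IsMaximal := v.isMaximal
  have : Finite (𝓞 F ⧸ v.asIdeal) := finite_residue v
  let _ : Field (𝓞 F ⧸ v.asIdeal) := Ideal.Quotient.field v.asIdeal
  obtain ⟨a0, ha0⟩ := exists_residue v ha.le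
  obtain ⟨b0, hb0⟩ := exists_residue v hb.le
  obtain ⟨s, hs⟩ := ff_mul (not_isSquare_residue v h2 a ha hna a0 ha0)
    (not_isSquare_residue v h2 b hb hnb b0 hb0)
  obtain ⟨s, rfl⟩ := Ideal.Quotient.mk_surjective s
  rw [← sub_eq_zero, ← map_mul, ← map_mul, ← map_sub, mk_eq_zero_iff] at hs
  apply LS_of_residue v h2 (a * b) (by rw [Units.val_mul, map_mul, ha, hb, one_mul]) s
  have e : ((a * b : Fˣ) : F) - algebraMap (𝓞 F) F s ^ 2 =
      algebraMap (𝓞 F) F (a0 * b0 - s * s) - (algebraMap (𝓞 F) F a0 - a) *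
        algebraMap (𝓞 F) F b0 - (algebraMap (𝓞 F) F b0 - b) * a := by
    rw [map_sub, map_mul, map_mul, Units.val_mul]; ring
  rw [e]
  refine (v.valuation F).map_sub_lt ((v.valuation F).map_sub_lt hs ?_) ?_
  · rw [map_mul]
    calc _ ≤ v.valuation F (algebraMap (𝓞 F) F a0 - a) * 1 :=
          mul_le_mul_right (v.valuation_le_one b0) _
      _ < 1 := by rwa [mul_one]
  · rw [map_mul, ha, mul_one]; exact hb0

end Vale.Agent.P011.Arith
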