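import Vale.Agent.P011.Arith.Defs

/-!
S-units of a number field: class group, squares, weak approximation.
-/

open NumberField IsDedekindDomain nonZeroDivisors

namespace Vale.Agent.P011.Arith

variable {F : Type} [Field F] [NumberField F]

theorem finite_dvd {I : Ideal (𝓞 F)} (hI : I ≠ ⊥) :
    {v : HeightOneSpectrum (𝓞 F) | v.asIdeal ∣ I}.Finite := Ideal.finite_factors hI

theorem valuation_eq_one_of_not_dvd {v : HeightOneSpectrum (𝓞 F)} {x : 𝓞 F}
    (h : ¬ v.asIdeal ∣ Ideal.span {x}) : v.valuation F (x : F) = 1 := by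
  rw [HeightOneSpectrum.valuation_of_algebraMap]
  exact le_antisymm (v.intValuation_le_one x)
    (not_lt.mp (fun h' => h ((v.intValuation_lt_one_iff_dvd x).mp h')))

theorem finite_valuation_ne_one (x : F) (hx : x ≠ 0) :
    {v : HeightOneSpectrum (𝓞 F) | v.valuation F x ≠ 1}.Finite := by
  obtain ⟨a, b, hb, rfl⟩ := IsFractionRing.div_surjective (A := 𝓞 F) x
  have hb0 : b ≠ 0 := nonZeroDivisors.ne_zero hb
  have ha0 : a ≠ 0 := by
    rintro rfl
    simp at hx
  refine ((finite_dvd (I := Ideal.span {a}) (by simpa using ha0)).union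
    (finite_dvd (I := Ideal.span {b}) (by simpa using hb0))).subset ?_
  intro v hv
  by_contra hcon
  simp only [Set.mem_union, Set.mem_ofPred_eq, not_or] at hcon
  apply hv
  rw [map_div₀, valuation_eq_one_of_not_dvd hcon.1, valuation_eq_one_of_not_dvd hcon.2, div_one]

/-- B1' -/
theorem Pr.mono {S T : Set (HeightOneSpectrum (𝓞 F))} (h : Pr S) (hST : S ⊆ T) : Pr T := by
  refine ⟨fun v hv => hST (h.1 v hv), fun v hv => ?_⟩
  obtain ⟨π, h1, h2⟩ := h.2 v (fun h' => hv (hST h'))
  exact ⟨π, h1, fun v' hv' hne => h2 v' (fun h' => hv' (hST h')) hne⟩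

theorem exists_gen (v : HeightOneSpectrum (𝓞 F)) (hv0 : v.asIdeal ∈ (Ideal (𝓞 F))⁰)
    (I : (Ideal (𝓞 F))⁰) (hI : ClassGroup.mk0 I = (ClassGroup.mk0 ⟨v.asIdeal, hv0⟩)⁻¹)
    (hvI : ¬ v.asIdeal ∣ (I : Ideal (𝓞 F))) :
    ∃ x : 𝓞 F, x ≠ 0 ∧ v.asIdeal * (I : Ideal (𝓞 F)) = Ideal.span {x} ∧
      v.intValuation x = WithZero.exp (-1) := by
  obtain ⟨x, hx0, hx⟩ := ClassGroup.mk0_eq_mk0_inv_iff.mp hI
  rw [mul_comm] at hx
  refine ⟨x, hx0, hx, ?_⟩
  have h1 : v.intValuation x ≤ WithZero.exp (-((1 : ℕ) : ℤ)) := by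
    rw [HeightOneSpectrum.intValuation_le_pow_iff_dvd, pow_one, ← hx]
    exact dvd_mul_right _ _
  have h2 : ¬ v.intValuation x ≤ WithZero.exp (-((2 : ℕ) : ℤ)) := by
    rw [HeightOneSpectrum.intValuation_le_pow_iff_dvd, ← hx, pow_two]
    intro hd
    exact hvI ((mul_dvd_mul_iff_left (a := v.asIdeal) v.ne_bot).mp hd)
  rw [HeightOneSpectrum.intValuation_if_neg _ hx0] at h1 h2 ⊢
  rw [WithZero.exp_le_exp] at h1 h2
  rw [WithZero.exp_inj]
  push_cast at h1 h2
  omega

/-- B1 -/
theorem exists_Pr (S₀ : Set (HeightOneSpectrum (𝓞 F))) (h : S₀.Finite) :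
    ∃ S : Set (HeightOneSpectrum (𝓞 F)), S₀ ⊆ S ∧ S.Finite ∧ Pr S := by
  have hex : ∀ c : ClassGroup (𝓞 F), ∃ I : (Ideal (𝓞 F))⁰, ClassGroup.mk0 I = c :=
    ClassGroup.mk0_surjective
  choose I hI using hex
  have hI0 : ∀ c, (I c : Ideal (𝓞 F)) ≠ ⊥ := fun c => nonZeroDivisors.coe_ne_zero (I c)
  refine ⟨S₀ ∪ {v | v.valuation F 2 ≠ 1} ∪ ⋃ c : ClassGroup (𝓞 F), {v | v.asIdeal ∣ (I c : Ideal (𝓞 F))},
    ?_, ?_, ?_, ?_⟩
  · intro v hv
    exact Or.inl (Or.inl hv)
  · exact (h.union (finite_valuation_ne_one 2 two_ne_zero)).union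
      (Set.finite_iUnion (fun c => finite_dvd (hI0 c)))
  · intro v hv
    exact Or.inl (Or.inr hv)
  · intro v hv
    have hv1 : ∀ c, ¬ v.asIdeal ∣ (I c : Ideal (𝓞 F)) := fun c hd =>
      hv (Or.inr (Set.mem_iUnion.mpr ⟨c, hd⟩))
    have hv0 : v.asIdeal ∈ (Ideal (𝓞 F))⁰ := mem_nonZeroDivisors_of_ne_zero v.ne_bot
    obtain ⟨x, hx0, hx, hval⟩ := exists_gen v hv0 (I (ClassGroup.mk0 ⟨v.asIdeal, hv0⟩)⁻¹) (hI _)
      (hv1 _)
    have hxF : (x : F) ≠ 0 := by
      intro h0
      exact hx0 (RingOfIntegers.coe_eq_zero_iff.mp h0)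
    refine ⟨Units.mk0 (x : F) hxF, ?_, ?_⟩
    · change v.valuation F (x : F) = _
      rw [HeightOneSpectrum.valuation_of_algebraMap]
      exact hval
    · intro v' hv' hne
      have hv'1 : ∀ c, ¬ v'.asIdeal ∣ (I c : Ideal (𝓞 F)) := fun c hd =>
        hv' (Or.inr (Set.mem_iUnion.mpr ⟨c, hd⟩))
      change v'.valuation F (x : F) = 1
      apply valuation_eq_one_of_not_dvd
      rw [← hx]
      intro hd
      rcases (v'.prime.dvd_mul).mp hd with hd | hd
      · apply hne
        have hle : v.asIdeal ≤ v'.asIdeal := Ideal.dvd_iff_le.mp hd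
        have := v.isMaximal.eq_of_le v'.isPrime.ne_top hle
        exact HeightOneSpectrum.ext this.symm
      · exact hv'1 _ hd

section group

/-- The index of the subgroup of squares. -/
noncomputable def sqIdx (G : Type) [CommGroup G] : ℕ := (powMonoidHom 2 : G →* G).range.index

variable {G H : Type} [CommGroup G] [CommGroup H]

theorem sqIdx_congr (e : G ≃* H) : sqIdx G = sqIdx H := by
  unfold sqIdx
  have h : (powMonoidHom 2 : G →* G).range.map e.toMonoidHom = (powMonoidHom 2 : H →* H).range := by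
    ext y
    constructor
    · rintro ⟨_, ⟨x, rfl⟩, rfl⟩
      exact ⟨e x, by simp⟩
    · rintro ⟨y, rfl⟩
      refine ⟨(e.symm y) ^ 2, ⟨e.symm y, rfl⟩, by simp⟩
  rw [← h]
  exact ((powMonoidHom 2 : G →* G).range.index_map_equiv e).symm

theorem sqIdx_prod : sqIdx (G × H) = sqIdx G * sqIdx H := by
  unfold sqIdx
  rw [← Subgroup.index_prod]
  congr 1
  ext ⟨x, y⟩
  rw [Subgroup.mem_prod]
  constructor
  · rintro ⟨⟨a, b⟩, h⟩
    have h' := Prod.mk.inj h
    exact ⟨⟨a, h'.1⟩, ⟨b, h'.2⟩⟩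
  · rintro ⟨⟨a, ha⟩, ⟨b, hb⟩⟩
    exact ⟨(a, b), Prod.ext ha hb⟩

theorem sqIdx_pi {ι : Type} [Fintype ι] : sqIdx (ι → G) = sqIdx G ^ Fintype.card ι := by
  unfold sqIdx
  have : (powMonoidHom 2 : (ι → G) →* (ι → G)).range =
      Subgroup.pi Set.univ (fun _ : ι => (powMonoidHom 2 : G →* G).range) := by
    ext x
    rw [Subgroup.mem_pi]
    constructor
    · rintro ⟨a, rfl⟩ i _
      exact ⟨a i, rfl⟩
    · intro h
      choose a ha using fun i => h i (Set.mem_univ i)
      exact ⟨a, funext ha⟩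
  rw [this, Subgroup.index_pi, Finset.prod_const, Finset.card_univ]

theorem sqIdx_int : sqIdx (Multiplicative ℤ) = 2 := by
  unfold sqIdx
  have : (powMonoidHom 2 : Multiplicative ℤ →* Multiplicative ℤ).range =
      AddSubgroup.toSubgroup (AddSubgroup.zmultiples (2 : ℤ)) := by
    ext x
    constructor
    · rintro ⟨a, rfl⟩
      refine ⟨Multiplicative.toAdd a, ?_⟩
      change Multiplicative.toAdd a • (2 : ℤ) = Multiplicative.toAdd (a ^ 2)
      rw [toAdd_pow, smul_eq_mul]
      simp [mul_comm]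
    · rintro ⟨a, ha⟩
      refine ⟨Multiplicative.ofAdd a, ?_⟩
      change (Multiplicative.ofAdd a) ^ 2 = x
      have ha' : a • (2 : ℤ) = Multiplicative.toAdd x := ha
      apply Multiplicative.toAdd.injective
      rw [toAdd_pow, ← ha']
      simp [mul_comm]
  rw [this, AddSubgroup.index_toSubgroup, Int.index_zmultiples]
  rfl

theorem sqIdx_extend {B : Subgroup G} (f : G →* Multiplicative ℤ) (hf : f.ker = B)
    (hne : ∃ x, f x ≠ 1) : sqIdx G = sqIdx B * 2 := by
  -- a generator of the range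
  obtain ⟨g, hg⟩ : ∃ g, Subgroup.zpowers g = f.range := (Subgroup.isCyclic_iff_exists_zpowers_eq_top f.range).mp inferInstance
  have hg' : g ∈ f.range := hg ▸ Subgroup.mem_zpowers g
  obtain ⟨x, rfl⟩ := hg'
  have hx1 : f x ≠ 1 := by
    intro h
    obtain ⟨y, hy⟩ := hne
    have : f y ∈ Subgroup.zpowers (f x) := hg ▸ ⟨y, rfl⟩
    rw [h, Subgroup.zpowers_one_eq_bot, Subgroup.mem_bot] at this
    exact hy this
  have hinj : ∀ n : ℤ, f x ^ n = 1 → n = 0 := by
    intro n hn
    by_contra hn0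
    apply hx1
    have h1 := congrArg Multiplicative.toAdd hn
    rw [toAdd_zpow, toAdd_one] at h1
    have h2 : Multiplicative.toAdd (f x) = 0 := by
      rcases smul_eq_zero.mp h1 with h | h
      · exact absurd h hn0
      · exact h
    exact Multiplicative.toAdd.injective (by rw [h2, toAdd_one])
  let ψ : B × Multiplicative ℤ →* G :=
    (B.subtype).coprod ((zpowersHom G) x)
  have hψ : ∀ b : B × Multiplicative ℤ, ψ b = (b.1 : G) * x ^ (Multiplicative.toAdd b.2) := by
    intro b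
    rfl
  have hbij : Function.Bijective ψ := by
    constructor
    · rw [injective_iff_map_eq_one]
      rintro ⟨b, n⟩ hb
      rw [hψ] at hb
      have h1 : f (b : G) = 1 := by
        have : (b : G) ∈ f.ker := hf ▸ b.2
        exact this
      have h2 := congrArg f hb
      rw [map_mul, h1, one_mul, map_zpow, map_one] at h2
      have h3 := hinj _ h2
      have h4 : n = 1 := Multiplicative.toAdd.injective (by simpa using h3)
      subst h4
      simp at hb
      exact Prod.ext (by simpa using hb) rfl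
    · intro y
      have : f y ∈ Subgroup.zpowers (f x) := hg ▸ ⟨y, rfl⟩
      obtain ⟨n, hn⟩ := this
      have hmem : y * (x ^ n)⁻¹ ∈ B := by
        rw [← hf, MonoidHom.mem_ker, map_mul, map_inv, map_zpow]
        have : f x ^ n = f y := hn
        rw [this, mul_inv_cancel]
      refine ⟨(⟨y * (x ^ n)⁻¹, hmem⟩, Multiplicative.ofAdd n), ?_⟩
      rw [hψ]
      simp
  rw [← sqIdx_congr (MulEquiv.ofBijective ψ hbij), sqIdx_prod, sqIdx_int]

end group

theorem sqIdx_unit : sqIdx (𝓞 F)ˣ = 2 ^ Fintype.card (InfinitePlace F) := by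
  let ψ : NumberField.Units.torsion F × (Fin (Units.rank F) → Multiplicative ℤ) →* (𝓞 F)ˣ :=
    { toFun := fun b => (b.1 : (𝓞 F)ˣ) * ∏ i, (Units.fundSystem F i) ^ (Multiplicative.toAdd (b.2 i))
      map_one' := by simp
      map_mul' := by
        rintro ⟨a, b⟩ ⟨c, d⟩
        simp only [Prod.mk_mul_mk, Subgroup.coe_mul, Pi.mul_apply, toAdd_mul, zpow_add,
          Finset.prod_mul_distrib]
        exact mul_mul_mul_comm _ _ _ _ }
  have hbij : Function.Bijective ψ := by
    constructor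
    · rintro ⟨a, b⟩ ⟨c, d⟩ h
      obtain ⟨z, -, hz⟩ := Units.exist_unique_eq_mul_prod F (ψ (a, b))
      have h1 := hz (a, fun i => Multiplicative.toAdd (b i)) rfl
      have h2 := hz (c, fun i => Multiplicative.toAdd (d i)) h
      have h3 := h1.trans h2.symm
      have h4 := Prod.mk.inj h3
      refine Prod.ext h4.1 ?_
      funext i
      exact Multiplicative.toAdd.injective (congrFun h4.2 i)
    · intro x
      obtain ⟨z, hz, -⟩ := Units.exist_unique_eq_mul_prod F x
      exact ⟨(z.1, fun i => Multiplicative.ofAdd (z.2 i)), hz.symm⟩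
  rw [← sqIdx_congr (MulEquiv.ofBijective ψ hbij), sqIdx_prod, sqIdx_pi, sqIdx_int, Fintype.card_fin]
  have h1 : sqIdx (NumberField.Units.torsion F) = 2 := by
    unfold sqIdx
    rw [IsCyclic.index_powMonoidHom_range]
    have : 2 ∣ Nat.card (NumberField.Units.torsion F) := (Units.even_torsionOrder F).two_dvd
    exact Nat.gcd_eq_right this
  rw [h1, ← pow_succ']
  congr 1
  have h2 : 0 < Fintype.card (InfinitePlace F) := Fintype.card_pos
  unfold Units.rank
  omega

theorem unit_empty_equiv : Nonempty ((𝓞 F)ˣ ≃* (∅ : Set (HeightOneSpectrum (𝓞 F))).unit F) := by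
  let ψ : (𝓞 F)ˣ →* (∅ : Set (HeightOneSpectrum (𝓞 F))).unit F :=
    (Units.map (algebraMap (𝓞 F) F : 𝓞 F →* F)).codRestrict _ (by
      intro x v _
      change v.valuation F (algebraMap (𝓞 F) F x) = 1
      apply valuation_eq_one_of_not_dvd
      rw [Ideal.span_singleton_eq_top.mpr x.isUnit]
      intro h
      exact v.isPrime.ne_top (by simpa [Ideal.dvd_iff_le] using h))
  refine ⟨MulEquiv.ofBijective ψ ⟨?_, ?_⟩⟩
  · intro x y h
    have h1 := congrArg
      (fun z : (∅ : Set (HeightOneSpectrum (𝓞 F))).unit F => ((z : Fˣ) : F)) h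
    exact Units.ext (RingOfIntegers.coe_injective h1)
  · rintro ⟨x, hx⟩
    have hx1 : ∀ v : HeightOneSpectrum (𝓞 F), v.valuation F (x : F) = 1 := fun v => hx v (by simp)
    obtain ⟨a, ha⟩ := HeightOneSpectrum.mem_integers_of_valuation_le_one F (x : F) (fun v => (hx1 v).le)
    obtain ⟨b, hb⟩ := HeightOneSpectrum.mem_integers_of_valuation_le_one F ((x⁻¹ : Fˣ) : F) (fun v => by
      rw [Units.val_inv_eq_inv_val, map_inv₀, hx1 v, inv_one])
    have hab : a * b = 1 := by
      apply RingOfIntegers.coe_injective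
      have : algebraMap (𝓞 F) F (a * b) = 1 := by
        rw [map_mul, ha, hb, Units.mul_inv]
      simpa using this
    refine ⟨⟨a, b, hab, by rw [mul_comm]; exact hab⟩, ?_⟩
    apply Subtype.ext
    apply Units.ext
    exact ha

theorem sqIdx_Sunit (S : Set (HeightOneSpectrum (𝓞 F))) (h : S.Finite) :
    sqIdx (S.unit F) = 2 ^ (S.ncard + Fintype.card (InfinitePlace F)) := by
  induction S, h using Set.Finite.induction_on with
  | empty =>
    obtain ⟨e⟩ := unit_empty_equiv (F := F)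
    rw [← sqIdx_congr e, sqIdx_unit, Set.ncard_empty, zero_add]
  | @insert v S hv hS ih =>
    rw [Set.ncard_insert_of_notMem hv hS]
    let f : ((insert v S).unit F) →* Multiplicative ℤ :=
      (v.valuationOfNeZero (K := F)).comp (Subgroup.subtype _)
    let B : Subgroup ((insert v S).unit F) := (S.unit F).subgroupOf ((insert v S).unit F)
    have hval : ∀ x : Fˣ, v.valuationOfNeZero x = 1 ↔ v.valuation F (x : F) = 1 := by
      intro x
      rw [← HeightOneSpectrum.valuationOfNeZero_eq, ← WithZero.coe_one, WithZero.coe_inj]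
    have hf : f.ker = B := by
      ext x
      rw [MonoidHom.mem_ker, Subgroup.mem_subgroupOf]
      change v.valuationOfNeZero (x : Fˣ) = 1 ↔ _
      rw [hval]
      constructor
      · intro h v' hv'
        by_cases hvv : v' = v
        · rw [hvv]; exact h
        · exact x.2 v' (by
            rw [Set.mem_insert_iff, not_or]
            exact ⟨hvv, hv'⟩)
      · intro h
        exact h v hv
    have hle : S.unit F ≤ (insert v S).unit F := by
      intro x hx v' hv'
      exact hx v' (fun h => hv' (Set.mem_insert_of_mem _ h))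
    have hne : ∃ x, f x ≠ 1 := by
      obtain ⟨n, hn, x, hx⟩ : ∃ n : ℕ, n ≠ 0 ∧ ∃ x : 𝓞 F, v.asIdeal ^ n = Ideal.span {x} := by
        have hv0 : v.asIdeal ∈ (Ideal (𝓞 F))⁰ := mem_nonZeroDivisors_of_ne_zero v.ne_bot
        refine ⟨Fintype.card (ClassGroup (𝓞 F)), Fintype.card_ne_zero, ?_⟩
        have h1 : (ClassGroup.mk0 (⟨v.asIdeal, hv0⟩ : (Ideal (𝓞 F))⁰)) ^ Fintype.card (ClassGroup (𝓞 F)) = 1 :=
          pow_card_eq_one
        rw [← map_pow] at h1
        have h2 := (ClassGroup.mk0_eq_one_iff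
          ((⟨v.asIdeal, hv0⟩ : (Ideal (𝓞 F))⁰) ^ Fintype.card (ClassGroup (𝓞 F))).2).mp h1
        obtain ⟨x, hx⟩ := h2
        exact ⟨x, by rw [← Ideal.submodule_span_eq, ← hx]; rfl⟩
      have hx0 : x ≠ 0 := by
        rintro rfl
        rw [Ideal.span_singleton_eq_bot.mpr rfl] at hx
        exact pow_ne_zero n v.ne_bot hx
      have hxF : (x : F) ≠ 0 := fun h0 => hx0 (RingOfIntegers.coe_eq_zero_iff.mp h0)
      refine ⟨⟨Units.mk0 (x : F) hxF, ?_⟩, ?_⟩
      · intro v' hv'
        rw [Set.mem_insert_iff, not_or] at hv'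
        change v'.valuation F (x : F) = 1
        apply valuation_eq_one_of_not_dvd
        rw [← hx]
        intro hd
        have hd' := v'.prime.dvd_of_dvd_pow hd
        apply hv'.1
        have hle' : v.asIdeal ≤ v'.asIdeal := Ideal.dvd_iff_le.mp hd'
        have := v.isMaximal.eq_of_le v'.isPrime.ne_top hle'
        exact HeightOneSpectrum.ext this.symm
      · intro h
        have h' : v.valuation F (x : F) = 1 := (hval _).mp h
        rw [HeightOneSpectrum.valuation_of_algebraMap] at h'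
        have h1 : v.intValuation x ≤ WithZero.exp (-(n : ℤ)) := by
          rw [HeightOneSpectrum.intValuation_le_pow_iff_dvd, ← hx]
        rw [h', ← WithZero.exp_zero, WithZero.exp_le_exp] at h1
        omega
    rw [sqIdx_extend f hf hne]
    have e : B ≃* S.unit F := Subgroup.subgroupOfEquivOfLe hle
    rw [sqIdx_congr e, ih, ← pow_succ]
    congr 1
    omega

/-- B2 -/
theorem Sq_relIndex_unit (S : Set (HeightOneSpectrum (𝓞 F))) (h : S.Finite) :
    (Sq F).relIndex (S.unit F) = 2 ^ (S.ncard + Fintype.card (InfinitePlace F)) := by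
  rw [← sqIdx_Sunit S h]
  unfold sqIdx Subgroup.relIndex
  congr 1
  ext x
  rw [Subgroup.mem_subgroupOf]
  constructor
  · rintro ⟨y, hy⟩
    have hy' : y ^ 2 = (x : Fˣ) := hy
    have hyS : y ∈ S.unit F := by
      intro v hv
      have h1 : v.valuation F ((x : Fˣ) : F) = 1 := x.2 v hv
      rw [← hy', Units.val_pow_eq_pow_val, map_pow] at h1
      exact (pow_eq_one_iff_of_nonneg zero_le two_ne_zero).mp h1
    exact ⟨⟨y, hyS⟩, Subtype.ext hy'⟩
  · rintro ⟨y, rfl⟩
    exact ⟨(y : Fˣ), rfl⟩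

/-- The absolute value attached to a finite or real place. -/
noncomputable def plAbv : Pl F → AbsoluteValue F ℝ
  | .inl v => NumberField.HeightOneSpectrum.adicAbv F v
  | .inr φ => { toFun := fun x => |φ x|
                map_mul' := fun x y => by rw [map_mul, abs_mul]
                nonneg' := fun x => abs_nonneg _
                eq_zero' := fun x => by simp
                add_le' := fun x y => by rw [map_add]; exact abs_add_le _ _ }

theorem plAbv_inr (φ : F →+* ℝ) (x : F) : plAbv (Sum.inr φ) x = |φ x| := rfl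

theorem plAbv_lt (v : HeightOneSpectrum (𝓞 F)) (x y : F) :
    plAbv (Sum.inl v) x < plAbv (Sum.inl v) y ↔ v.valuation F x < v.valuation F y := by
  change NumberField.HeightOneSpectrum.adicAbv F v x < NumberField.HeightOneSpectrum.adicAbv F v y ↔ _
  rw [NumberField.HeightOneSpectrum.adicAbv_def, NumberField.HeightOneSpectrum.adicAbv_def,
    NNReal.coe_lt_coe]
  exact (WithZeroMulInt.toNNReal_strictMono
    (NumberField.HeightOneSpectrum.one_lt_absNorm_nnreal v)).lt_iff_lt

theorem plAbv_lt_one (v : HeightOneSpectrum (𝓞 F)) (x : F) :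
    plAbv (Sum.inl v) x < 1 ↔ v.valuation F x < 1 := by
  have := plAbv_lt v x 1
  rwa [map_one, map_one] at this

theorem plAbv_inequiv (p q : Pl F) (h : p ≠ q) : ¬ (plAbv p).IsEquiv (plAbv q) := by
  intro he
  have key := (AbsoluteValue.isEquiv_iff_lt_one_iff).mp he
  have hhalf : ∀ (v : HeightOneSpectrum (𝓞 F)), ¬ plAbv (Sum.inl v) (1 / 2 : F) < 1 := by
    intro v
    rw [plAbv_lt_one, not_lt, map_div₀, map_one]
    have h2 : v.valuation F (2 : F) ≤ 1 := by
      have h : v.valuation F (algebraMap (𝓞 F) F 2) ≤ 1 := v.valuation_le_one (2 : 𝓞 F)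
      rwa [map_ofNat] at h
    have h0 : v.valuation F (2 : F) ≠ 0 := (Valuation.ne_zero_iff _).mpr two_ne_zero
    rw [one_div, one_le_inv₀ (zero_lt_iff.mpr h0)]
    exact h2
  have hhalf' : ∀ φ : F →+* ℝ, plAbv (Sum.inr φ) (1 / 2 : F) < 1 := by
    intro φ
    rw [plAbv_inr, map_div₀, map_one, map_ofNat]
    norm_num [abs_of_pos]
  rcases p with v | φ <;> rcases q with v' | φ'
  · have hne : v ≠ v' := fun h' => h (by rw [h'])
    have ⟨x, hx1, hx2⟩ : ∃ x : 𝓞 F, x ∈ v.asIdeal ∧ x ∉ v'.asIdeal := by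
      by_contra! H
      exact hne (HeightOneSpectrum.ext_iff.mpr (v.isMaximal.eq_of_le v'.isPrime.ne_top H))
    have h1 : v.valuation F (x : F) < 1 := by
      rw [HeightOneSpectrum.valuation_of_algebraMap]
      exact (v.intValuation_lt_one_iff_mem x).mpr hx1
    have h2 : ¬ v'.valuation F (x : F) < 1 := by
      rw [HeightOneSpectrum.valuation_of_algebraMap]
      exact fun h' => hx2 ((v'.intValuation_lt_one_iff_mem x).mp h')
    rw [← plAbv_lt_one] at h1 h2
    exact h2 ((key _).mp h1)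
  · exact hhalf v ((key _).mpr (hhalf' φ'))
  · exact hhalf v' ((key _).mp (hhalf' φ))
  · apply h
    have e1 : ∀ ψ : F →+* ℝ, (InfinitePlace.mk (Complex.ofRealHom.comp ψ)).1 = plAbv (Sum.inr ψ) := by
      intro ψ
      ext x
      change ‖((ψ x : ℝ) : ℂ)‖ = |ψ x|
      rw [Complex.norm_real, Real.norm_eq_abs]
    have h3 : InfinitePlace.mk (Complex.ofRealHom.comp φ) =
        InfinitePlace.mk (Complex.ofRealHom.comp φ') :=
      InfinitePlace.eq_iff_isEquiv.mpr (by rw [e1 φ, e1 φ']; exact he)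
    rw [InfinitePlace.mk_eq_iff] at h3
    have h4 : φ = φ' := by
      rcases h3 with h3 | h3
      · ext x
        exact Complex.ofReal_injective (RingHom.congr_fun h3 x)
      · ext x
        have h5 := RingHom.congr_fun h3 x
        rw [ComplexEmbedding.conjugate_coe_eq] at h5
        simpa using h5
    rw [h4]

theorem plAbv_nontrivial (p : Pl F) : (plAbv p).IsNontrivial := by
  rcases p with v | φ
  · obtain ⟨π, hπ⟩ := v.valuation_exists_uniformizer F
    have h1 : v.valuation F π < 1 := by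
      rw [hπ, ← WithZero.exp_zero, WithZero.exp_lt_exp]
      norm_num
    refine ⟨π, ?_, ?_⟩
    · rintro rfl
      rw [map_zero] at hπ
      exact WithZero.exp_ne_zero hπ.symm
    · exact ((plAbv_lt_one v π).mpr h1).ne
  · refine ⟨2, two_ne_zero, ?_⟩
    rw [plAbv_inr, map_ofNat]
    norm_num

/-- Weak approximation. -/
theorem approx (T : Set (Pl F)) (hT : T.Finite) (z : Pl F → F) (δ : Pl F → ℝ)
    (hδ : ∀ p, 0 < δ p) : ∃ f : F, ∀ p ∈ T, plAbv p (f - z p) < δ p := by
  have _hfin : Finite T := hT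
  have hd := AbsoluteValue.denseRange_algebraMap_pi (F := F) (v := fun p : T => plAbv (p : Pl F))
    (fun p => plAbv_nontrivial _) (fun p q hpq => plAbv_inequiv _ _ (fun h => hpq (Subtype.ext h)))
  have _hft : Fintype T := Fintype.ofFinite T
  by_cases hne : Nonempty T
  · obtain ⟨p0, hp0⟩ := Finite.exists_min (fun p : T => δ (p : Pl F))
    obtain ⟨f, hf⟩ := (Metric.denseRange_iff.mp hd)
      (fun p : T => WithAbs.toAbs _ (z p)) (δ p0) (hδ _)
    refine ⟨f, fun p hp => ?_⟩
    rw [dist_pi_lt_iff (hδ _)] at hf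
    have h1 := hf ⟨p, hp⟩
    rw [dist_comm, dist_eq_norm] at h1
    refine lt_of_lt_of_le ?_ (hp0 ⟨p, hp⟩)
    exact h1
  · exact ⟨0, fun p hp => absurd ⟨⟨p, hp⟩⟩ hne⟩

theorem nonempty_prime : Nonempty (HeightOneSpectrum (𝓞 F)) := by
  have h : ¬ IsUnit (2 : 𝓞 F) := by
    intro h
    have h1 := (NumberField.isUnit_iff_norm (K := F)).mp h
    have h2 : ((RingOfIntegers.norm ℚ (2 : 𝓞 F) : 𝓞 ℚ) : ℚ) = 2 ^ Module.finrank ℚ F := by
      rw [RingOfIntegers.coe_norm]
      have : ((2 : 𝓞 F) : F) = algebraMap ℚ F 2 := by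
        rw [map_ofNat]
        exact map_ofNat (algebraMap (𝓞 F) F) 2
      rw [this, Algebra.norm_algebraMap]
    rw [h2] at h1
    have h3 : (0 : ℕ) < Module.finrank ℚ F := Module.finrank_pos
    have h4 : (1 : ℚ) < 2 ^ Module.finrank ℚ F := one_lt_pow₀ (by norm_num) h3.ne'
    rw [abs_of_pos (by positivity)] at h1
    linarith
  obtain ⟨M, hM, hM2⟩ := Ideal.exists_le_maximal (Ideal.span {(2 : 𝓞 F)})
    (fun h' => h (Ideal.span_singleton_eq_top.mp h'))
  refine ⟨⟨M, hM.isPrime, ?_⟩⟩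
  rintro rfl
  rw [le_bot_iff, Ideal.span_singleton_eq_bot] at hM2
  exact two_ne_zero hM2

/-- B3 weak approximation -/
theorem weak_approx (S : Finset (HeightOneSpectrum (𝓞 F)))
    (ε : HeightOneSpectrum (𝓞 F) → Fˣ) (s : (F →+* ℝ) → ℤˣ) :
    ∃ f : Fˣ, (∀ v ∈ S, f / ε v ∈ LS (v.valuation F)) ∧ ∀ φ : F →+* ℝ, 0 < ((s φ : ℤ) : ℝ) * φ f := by
  classical
  obtain ⟨v0⟩ := nonempty_prime (F := F)
  -- we add a prime to make sure that `f` is not zero
  let T : Set (Pl F) := (Sum.inl '' ((insert v0 S : Finset (HeightOneSpectrum (𝓞 F))) : Set _)) ∪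
    Set.range Sum.inr
  have hT : T.Finite := ((Finset.finite_toSet _).image _).union (Set.finite_range _)
  let z : Pl F → F := fun p => match p with
    | .inl v => (ε v : F)
    | .inr φ => ((s φ : ℤ) : F)
  let δ : Pl F → ℝ := fun p => match p with
    | .inl v => plAbv (.inl v) (4 * (ε v : F))
    | .inr φ => 1
  have hδ : ∀ p, 0 < δ p := by
    rintro (v | φ)
    · exact (plAbv (.inl v)).pos (mul_ne_zero (by norm_num) (ε v).ne_zero)
    · exact one_pos
  obtain ⟨f, hf⟩ := approx T hT z δ hδ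
  have hfin : ∀ v ∈ insert v0 S, v.valuation F (f / (ε v : F) - 1) < v.valuation F 4 := by
    intro v hv
    have h1 := hf (.inl v) (Or.inl ⟨v, hv, rfl⟩)
    have h2 : v.valuation F (f - (ε v : F)) < v.valuation F (4 * (ε v : F)) := (plAbv_lt v _ _).mp h1
    have h0 : (ε v : F) ≠ 0 := (ε v).ne_zero
    have h3 : f / (ε v : F) - 1 = (f - (ε v : F)) / (ε v : F) := by field_simp
    have h4 : v.valuation F (ε v : F) ≠ 0 := (Valuation.ne_zero_iff _).mpr h0
    rw [h3, map_div₀, div_lt_iff₀ (zero_lt_iff.mpr h4), ← map_mul]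
    exact h2
  have hf0 : f ≠ 0 := by
    rintro rfl
    have h1 := hfin v0 (Finset.mem_insert_self _ _)
    rw [zero_div, zero_sub, Valuation.map_neg, map_one] at h1
    exact absurd (val_four_le (v0.valuation F)) (not_le.mpr h1)
  refine ⟨Units.mk0 f hf0, fun v hv => ?_, fun φ => ?_⟩
  · refine ⟨1, ?_⟩
    have h1 := hfin v (Finset.mem_insert_of_mem hv)
    have e : ((Units.mk0 f hf0 / ε v : Fˣ) : F) / ((1 : Fˣ) : F) ^ 2 - 1 = f / (ε v : F) - 1 := by
      rw [Units.val_div_eq_div_val]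
      simp
    rw [e]
    exact h1
  · have h1 : |φ (f - ((s φ : ℤ) : F))| < 1 := hf (.inr φ) (Or.inr ⟨φ, rfl⟩)
    rw [map_sub, map_intCast] at h1
    change 0 < ((s φ : ℤ) : ℝ) * φ f
    have h2 := abs_lt.mp h1
    rcases Int.units_eq_one_or (s φ) with h | h
    · rw [h] at h2 ⊢
      push_cast at h2 ⊢
      linarith [h2.1]
    · rw [h] at h2 ⊢
      push_cast at h2 ⊢
      linarith [h2.2]

end Vale.Agent.P011.Arith
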