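import Vale.Agent.P011.Arith.Defs

/-!
Places of a number field: elementary facts.
-/

open NumberField IsDedekindDomain

namespace Vale.Agent.P011.Arith

section field

variable {F : Type} [Field F]

theorem mem_Sq {x : Fˣ} : x ∈ Sq F ↔ ∃ y : Fˣ, y ^ 2 = x := Iff.rfl

theorem mem_Sq_iff {x : Fˣ} : x ∈ Sq F ↔ IsSquare (x : F) := by
  constructor
  · rintro ⟨y, rfl⟩
    exact ⟨y, by simp [sq]⟩
  · rintro ⟨y, hy⟩
    have hy0 : y ≠ 0 := by
      rintro rfl
      exact x.ne_zero (by rw [hy, mul_zero])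
    refine ⟨Units.mk0 y hy0, ?_⟩
    ext
    simp [hy, sq]

theorem Sq_le_LS [CharZero F] (w : Valuation F Z0) : Sq F ≤ LS w := by
  rintro x ⟨y, rfl⟩
  refine ⟨y, ?_⟩
  have h0 : (y : F) ≠ 0 := y.ne_zero
  have : w (4 : F) ≠ 0 := (Valuation.ne_zero_iff w).mpr (by norm_num)
  simpa [h0] using zero_lt_iff.mpr this

theorem Sq_le_LSR (φ : F →+* ℝ) : Sq F ≤ LSR φ := by
  rintro x ⟨y, rfl⟩
  change 0 < φ ((y ^ 2 : Fˣ) : F)
  rw [Units.val_pow_eq_pow_val, map_pow]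
  have : φ (y : F) ≠ 0 := (map_ne_zero φ).mpr y.ne_zero
  positivity

theorem Sq_le_NF (a : Fˣ) : Sq F ≤ NF a := by
  rintro x ⟨y, rfl⟩
  exact ⟨y, 0, by simp⟩

/-- If `a` is a square every element is a value of its norm form. -/
theorem NF_eq_top [CharZero F] {a : Fˣ} (ha : a ∈ Sq F) : NF a = ⊤ := by
  obtain ⟨c, rfl⟩ := ha
  rw [eq_top_iff]
  intro b _
  refine ⟨(b + 1) / 2, (b - 1) / (2 * c), ?_⟩
  have h0 : (c : F) ≠ 0 := c.ne_zero
  have h2 : (2 : F) ≠ 0 := by norm_num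
  change (b : F) = ((b + 1) / 2) ^ 2 - ((c ^ 2 : Fˣ) : F) * ((b - 1) / (2 * c)) ^ 2
  rw [Units.val_pow_eq_pow_val]
  field_simp
  ring

theorem NF_le_LSR {a : Fˣ} {φ : F →+* ℝ} (h : φ a < 0) : NF a ≤ LSR φ := by
  rintro b ⟨x, y, hb⟩
  change 0 < φ b
  have h1 : φ b = φ x ^ 2 - φ a * φ y ^ 2 := by rw [hb]; simp
  have h2 : φ b ≠ 0 := (map_ne_zero φ).mpr b.ne_zero
  refine lt_of_le_of_ne ?_ h2.symm
  rw [h1]
  nlinarith [sq_nonneg (φ x), sq_nonneg (φ y), mul_nonneg (neg_nonneg.mpr h.le) (sq_nonneg (φ y))]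

theorem neg_one_notMem_LSR (φ : F →+* ℝ) : (-1 : Fˣ) ∉ LSR φ := by
  intro h
  have : 0 < φ ((-1 : Fˣ) : F) := h
  simp at this
  linarith

theorem notMem_LSR {φ : F →+* ℝ} {x : Fˣ} : x ∉ LSR φ ↔ φ x < 0 := by
  rw [mem_LSR, not_lt]
  have h2 : φ x ≠ 0 := (map_ne_zero φ).mpr x.ne_zero
  exact ⟨fun h => lt_of_le_of_ne h h2, le_of_lt⟩

theorem mul_mem_LSR {φ : F →+* ℝ} {x y : Fˣ} (hx : x ∉ LSR φ) (hy : y ∉ LSR φ) :
    x * y ∈ LSR φ := by
  rw [notMem_LSR] at hx hy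
  change 0 < φ ((x * y : Fˣ) : F)
  rw [Units.val_mul, map_mul]
  exact mul_pos_of_neg_of_neg hx hy

theorem NF_mul_sq (a c : Fˣ) : NF (a * c ^ 2) = NF a := by
  have h0 : (c : F) ≠ 0 := c.ne_zero
  ext b
  constructor
  · rintro ⟨x, y, h⟩
    exact ⟨x, c * y, by rw [h]; push_cast; ring⟩
  · rintro ⟨x, y, h⟩
    refine ⟨x, y / c, ?_⟩
    rw [h]
    push_cast
    field_simp

end field

variable {F : Type} [Field F] [NumberField F]

instance finite_real : Finite (F →+* ℝ) := by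
  refine Finite.of_injective (fun φ : F →+* ℝ => (algebraMap ℝ ℂ).comp φ) ?_
  intro φ ψ h
  ext x
  have h1 := RingHom.congr_fun h x
  simpa using h1

theorem Sq_le_LSp (p : Pl F) : Sq F ≤ LSp p := by
  rcases p with v | φ
  · exact Sq_le_LS _
  · exact Sq_le_LSR φ

/-- The places in `S` together with the real ones. -/
def SP (S : Set (HeightOneSpectrum (𝓞 F))) : Set (Pl F) := Sum.inl '' S ∪ Set.range Sum.inr

theorem inl_mem_SP {S : Set (HeightOneSpectrum (𝓞 F))} {v : HeightOneSpectrum (𝓞 F)} :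
    (Sum.inl v : Pl F) ∈ SP S ↔ v ∈ S := by
  simp [SP]

theorem inr_mem_SP {S : Set (HeightOneSpectrum (𝓞 F))} {φ : F →+* ℝ} :
    (Sum.inr φ : Pl F) ∈ SP S := by
  simp [SP]

theorem SP_finite {S : Set (HeightOneSpectrum (𝓞 F))} (h : S.Finite) : (SP S).Finite :=
  (h.image _).union (Set.finite_range _)

theorem tc_eq (a : Fˣ) {S : Set (HeightOneSpectrum (𝓞 F))} (h : S.Finite) :
    tc a S = {p | p ∈ SP S ∧ a ∉ LSp p}.ncard := by
  have e : {p | p ∈ SP S ∧ a ∉ LSp p} =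
      Sum.inl '' {v | v ∈ S ∧ a ∉ LS (v.valuation F)} ∪ Sum.inr '' {φ : F →+* ℝ | φ a < 0} := by
    ext p
    rcases p with v | φ
    · simp [inl_mem_SP, LSp]
    · simp [inr_mem_SP, LSp, notMem_LSR]
  have hf : {v | v ∈ S ∧ a ∉ LS (v.valuation F)}.Finite := h.subset fun v hv => hv.1
  rw [e, Set.ncard_union_eq ?_ (hf.image _) (Set.toFinite _),
    Set.ncard_image_of_injective _ Sum.inl_injective,
    Set.ncard_image_of_injective _ Sum.inr_injective]
  · rfl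
  · rw [Set.disjoint_left]
    rintro _ ⟨v, _, rfl⟩ ⟨φ, _, h⟩
    cases h

theorem finite_ne_one (x : Fˣ) :
    {v : HeightOneSpectrum (𝓞 F) | v.valuation F (x : F) ≠ 1}.Finite := by
  refine ((HeightOneSpectrum.Support.finite (𝓞 F) (x : F)).union
    (HeightOneSpectrum.Support.finite (𝓞 F) ((x⁻¹ : Fˣ) : F))).subset ?_
  intro v hv
  rcases lt_or_gt_of_ne hv with h | h
  · right
    change 1 < v.valuation F ((x⁻¹ : Fˣ) : F)
    rw [Units.val_inv_eq_inv_val, map_inv₀]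
    have h0 : v.valuation F (x : F) ≠ 0 := (Valuation.ne_zero_iff _).mpr x.ne_zero
    exact (one_lt_inv₀ (zero_lt_iff.mpr h0)).mpr h
  · left
    exact h

theorem mem_unit {S : Set (HeightOneSpectrum (𝓞 F))} {x : Fˣ} :
    x ∈ S.unit F ↔ ∀ v ∉ S, v.valuation F (x : F) = 1 := Iff.rfl

theorem dyadic_of_Pr {S : Set (HeightOneSpectrum (𝓞 F))} (hS : Pr S)
    {v : HeightOneSpectrum (𝓞 F)} (hv : v ∉ S) : v.valuation F (2 : F) = 1 := by
  by_contra h
  exact hv (hS.1 v h)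

theorem card_real : Nat.card (F →+* ℝ) = InfinitePlace.nrRealPlaces F := by
  have e : (F →+* ℝ) ≃ {w : InfinitePlace F // w.IsReal} := by
    refine Equiv.trans ?_ InfinitePlace.mkReal
    refine
      { toFun := fun φ => ⟨(algebraMap ℝ ℂ).comp φ, ?_⟩
        invFun := fun ψ => ψ.2.embedding
        left_inv := ?_
        right_inv := ?_ }
    · rw [ComplexEmbedding.isReal_iff]
      ext x
      simp
    · intro φ
      ext x
      refine Complex.ofReal_injective ?_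
      rw [ComplexEmbedding.IsReal.coe_embedding_apply]
      rfl
    · rintro ⟨ψ, hψ⟩
      ext x
      simp
  classical
  rw [Nat.card_congr e, Nat.card_eq_fintype_card]

end Vale.Agent.P011.Arith
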