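import Vale.Agent.P011.Arith.Defs

/-!
Primes in extensions of number fields, in particular in quadratic extensions.
-/

open NumberField IsDedekindDomain nonZeroDivisors

set_option linter.unusedSectionVars false

namespace Vale.Agent.P011.Arith

section ext

variable {F E : Type} [Field F] [NumberField F] [Field E] [NumberField E] [Algebra F E]

/-- C0: the primes of `E` above `S` -/
def ov (E : Type) [Field E] [NumberField E] [Algebra F E]
    (S : Set (HeightOneSpectrum (𝓞 F))) : Set (HeightOneSpectrum (𝓞 E)) :=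
  {w | ∃ v ∈ S, w.asIdeal.comap (algebraMap (𝓞 F) (𝓞 E)) = v.asIdeal}

/-- Q1 -/
theorem exists_above (v : HeightOneSpectrum (𝓞 F)) :
    ∃ w : HeightOneSpectrum (𝓞 E), w.asIdeal.comap (algebraMap (𝓞 F) (𝓞 E)) = v.asIdeal := by
  have hinj : Function.Injective (algebraMap (𝓞 F) (𝓞 E)) :=
    FaithfulSMul.algebraMap_injective (𝓞 F) (𝓞 E)
  have := v.isMaximal
  obtain ⟨Q, hQ, hQ2⟩ := Ideal.exists_ideal_over_maximal_of_isIntegral (S := 𝓞 E) v.asIdeal (by
    rw [(RingHom.injective_iff_ker_eq_bot _).mp hinj]; exact bot_le)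
  refine ⟨⟨Q, hQ.isPrime, ?_⟩, hQ2⟩
  rintro rfl
  apply v.ne_bot
  rw [← hQ2]
  exact (RingHom.injective_iff_ker_eq_bot _).mp hinj

/-- Q2 -/
theorem exists_below (w : HeightOneSpectrum (𝓞 E)) :
    ∃ v : HeightOneSpectrum (𝓞 F), w.asIdeal.comap (algebraMap (𝓞 F) (𝓞 E)) = v.asIdeal := by
  have := w.isMaximal
  have h1 : (w.asIdeal.comap (algebraMap (𝓞 F) (𝓞 E))).IsMaximal :=
    Ideal.isMaximal_comap_of_isIntegral_of_isMaximal w.asIdeal
  refine ⟨⟨w.asIdeal.comap (algebraMap (𝓞 F) (𝓞 E)), h1.isPrime, ?_⟩, rfl⟩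
  intro h
  exact w.ne_bot (Ideal.eq_bot_of_comap_eq_bot h)

theorem below_unique {w : HeightOneSpectrum (𝓞 E)} {v v' : HeightOneSpectrum (𝓞 F)}
    (h : w.asIdeal.comap (algebraMap (𝓞 F) (𝓞 E)) = v.asIdeal)
    (h' : w.asIdeal.comap (algebraMap (𝓞 F) (𝓞 E)) = v'.asIdeal) : v = v' :=
  HeightOneSpectrum.ext (h.symm.trans h')

/-- Finitely many primes above one prime. -/
theorem above_finite (v : HeightOneSpectrum (𝓞 F)) :
    {w : HeightOneSpectrum (𝓞 E) |
      w.asIdeal.comap (algebraMap (𝓞 F) (𝓞 E)) = v.asIdeal}.Finite := by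
  have hinj : Function.Injective (algebraMap (𝓞 F) (𝓞 E)) :=
    FaithfulSMul.algebraMap_injective (𝓞 F) (𝓞 E)
  have h0 : v.asIdeal.map (algebraMap (𝓞 F) (𝓞 E)) ≠ 0 := by
    intro h
    exact v.ne_bot ((Ideal.map_eq_bot_iff_of_injective hinj).mp h)
  refine (Ideal.finite_factors h0).subset ?_
  intro w hw
  have hw' : w.asIdeal.comap (algebraMap (𝓞 F) (𝓞 E)) = v.asIdeal := hw
  rw [Set.mem_ofPred_eq, Ideal.dvd_iff_le, Ideal.map_le_iff_le_comap, hw']

/-- Q3 -/
theorem ov_finite {S : Set (HeightOneSpectrum (𝓞 F))} (h : S.Finite) : (ov E S).Finite := by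
  have : ov E S = ⋃ v ∈ S, {w : HeightOneSpectrum (𝓞 E) |
      w.asIdeal.comap (algebraMap (𝓞 F) (𝓞 E)) = v.asIdeal} := by
    ext w
    simp [ov]
  rw [this]
  exact h.biUnion fun v _ => above_finite v

/-- Q4' -/
theorem val_above {w : HeightOneSpectrum (𝓞 E)} {v : HeightOneSpectrum (𝓞 F)}
    (h : w.asIdeal.comap (algebraMap (𝓞 F) (𝓞 E)) = v.asIdeal) :
    ∃ e : ℕ, e ≠ 0 ∧ ∀ x : F, w.valuation E (algebraMap F E x) = (v.valuation F x) ^ e := by
  have : w.asIdeal.LiesOver v.asIdeal := ⟨h.symm⟩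
  refine ⟨v.asIdeal.ramificationIdx' w.asIdeal,
    Ideal.IsDedekindDomain.ramificationIdx'_ne_zero_of_liesOver w.asIdeal v.ne_bot, fun x => ?_⟩
  exact (HeightOneSpectrum.valuation_liesOver E v w x).symm

/-- Q4 -/
theorem val_eq_one_iff {w : HeightOneSpectrum (𝓞 E)} {v : HeightOneSpectrum (𝓞 F)}
    (h : w.asIdeal.comap (algebraMap (𝓞 F) (𝓞 E)) = v.asIdeal) (x : F) :
    w.valuation E (algebraMap F E x) = 1 ↔ v.valuation F x = 1 := by
  obtain ⟨e, he, hv⟩ := val_above h
  rw [hv, pow_eq_one_iff_of_nonneg zero_le he]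

theorem val_lt_one_iff {w : HeightOneSpectrum (𝓞 E)} {v : HeightOneSpectrum (𝓞 F)}
    (h : w.asIdeal.comap (algebraMap (𝓞 F) (𝓞 E)) = v.asIdeal) (x : F) :
    w.valuation E (algebraMap F E x) < 1 ↔ v.valuation F x < 1 := by
  obtain ⟨e, he, hv⟩ := val_above h
  rw [hv, pow_lt_one_iff he]

theorem val_le_one_iff {w : HeightOneSpectrum (𝓞 E)} {v : HeightOneSpectrum (𝓞 F)}
    (h : w.asIdeal.comap (algebraMap (𝓞 F) (𝓞 E)) = v.asIdeal) (x : F) :
    w.valuation E (algebraMap F E x) ≤ 1 ↔ v.valuation F x ≤ 1 := by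
  obtain ⟨e, he, hv⟩ := val_above h
  rw [hv, pow_le_one_iff he]

theorem val_lt_val_iff {w : HeightOneSpectrum (𝓞 E)} {v : HeightOneSpectrum (𝓞 F)}
    (h : w.asIdeal.comap (algebraMap (𝓞 F) (𝓞 E)) = v.asIdeal) (x y : F) :
    w.valuation E (algebraMap F E x) < w.valuation E (algebraMap F E y) ↔
      v.valuation F x < v.valuation F y := by
  obtain ⟨e, he, hv⟩ := val_above h
  rw [hv, hv, pow_lt_pow_iff_left₀ zero_le zero_le he]

/-- C2 local squares stay local squares -/
theorem LS_map {v : HeightOneSpectrum (𝓞 F)} {w : HeightOneSpectrum (𝓞 E)}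
    (h : w.asIdeal.comap (algebraMap (𝓞 F) (𝓞 E)) = v.asIdeal) {x : Fˣ}
    (hx : x ∈ LS (v.valuation F)) :
    Units.map (algebraMap F E : F →* E) x ∈ LS (w.valuation E) := by
  obtain ⟨y, hy⟩ := hx
  refine ⟨Units.map (algebraMap F E : F →* E) y, ?_⟩
  have e1 : ((Units.map (algebraMap F E : F →* E) x : Eˣ) : E) /
      ((Units.map (algebraMap F E : F →* E) y : Eˣ) : E) ^ 2 - 1 =
      algebraMap F E ((x : F) / (y : F) ^ 2 - 1) := by
    simp
  have e2 : (4 : E) = algebraMap F E 4 := (map_ofNat _ 4).symm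
  rw [e1, e2, val_lt_val_iff h]
  exact hy

/-- Two elements of the value monoid at most one are equal if they are below the same
powers. -/
theorem Z0_ext {x y : Z0} (hx : x ≤ 1) (hy : y ≤ 1)
    (h : ∀ n : ℕ, x ≤ WithZero.exp (-(n : ℤ)) ↔ y ≤ WithZero.exp (-(n : ℤ))) : x = y := by
  have key : ∀ x y : Z0, x ≤ 1 → y ≤ 1 →
      (∀ n : ℕ, x ≤ WithZero.exp (-(n : ℤ)) → y ≤ WithZero.exp (-(n : ℤ))) → y ≤ x := by
    intro x y hx hy h
    by_cases hx0 : x = 0
    · subst hx0
      by_contra hne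
      have hy0 : y ≠ 0 := fun h0 => hne h0.le
      obtain ⟨k, hk⟩ : ∃ k : ℤ, y = WithZero.exp k := ⟨WithZero.log y, (WithZero.exp_log hy0).symm⟩
      have := h (k.natAbs + 1) zero_le
      rw [hk, WithZero.exp_le_exp] at this
      omega
    · obtain ⟨k, hk⟩ : ∃ k : ℤ, x = WithZero.exp k := ⟨WithZero.log x, (WithZero.exp_log hx0).symm⟩
      have hk0 : k ≤ 0 := by
        rw [hk, ← WithZero.exp_zero, WithZero.exp_le_exp] at hx
        exact hx
      have hkn : k = -((k.natAbs : ℕ) : ℤ) := by omega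
      rw [hk, hkn]
      exact h k.natAbs (by rw [hk, ← hkn])
  exact le_antisymm (key y x hy hx fun n => (h n).mpr) (key x y hx hy fun n => (h n).mp)

/-- Q5 -/
theorem exists_conj (σ : E ≃ₐ[F] E) (w : HeightOneSpectrum (𝓞 E)) :
    ∃ w' : HeightOneSpectrum (𝓞 E), (∀ z, w'.valuation E (σ z) = w.valuation E z) ∧
      ∀ v : HeightOneSpectrum (𝓞 F), w.asIdeal.comap (algebraMap (𝓞 F) (𝓞 E)) = v.asIdeal ↔
        w'.asIdeal.comap (algebraMap (𝓞 F) (𝓞 E)) = v.asIdeal := by
  let τ : 𝓞 E ≃+* 𝓞 E := RingOfIntegers.mapRingEquiv (σ : E ≃+* E)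
  have hτ : ∀ x : 𝓞 E, algebraMap (𝓞 E) E (τ x) = σ (algebraMap (𝓞 E) E x) := fun x => rfl
  let I : Ideal (𝓞 E) := w.asIdeal.map (τ : 𝓞 E →+* 𝓞 E)
  have hmem : ∀ (n : ℕ) (x : 𝓞 E), τ x ∈ I ^ n ↔ x ∈ w.asIdeal ^ n := by
    intro n x
    rw [← Ideal.map_pow]
    constructor
    · intro h
      obtain ⟨y, hy, hyx⟩ :=
        (Ideal.mem_map_iff_of_surjective (τ : 𝓞 E →+* 𝓞 E) τ.surjective).mp h
      rwa [← τ.injective hyx]
    · exact fun h => Ideal.mem_map_of_mem _ h
  have hprime : I.IsPrime := Ideal.map_isPrime_of_equiv τ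
  have hI0 : I ≠ ⊥ := by
    intro h
    apply w.ne_bot
    exact (Ideal.map_eq_bot_iff_of_injective τ.injective).mp h
  refine ⟨⟨I, hprime, hI0⟩, ?_, ?_⟩
  · have hint : ∀ x : 𝓞 E, (⟨I, hprime, hI0⟩ : HeightOneSpectrum (𝓞 E)).intValuation (τ x) =
        w.intValuation x := by
      intro x
      refine Z0_ext (HeightOneSpectrum.intValuation_le_one _ _)
        (HeightOneSpectrum.intValuation_le_one _ _) fun n => ?_
      rw [HeightOneSpectrum.intValuation_le_pow_iff_mem,
        HeightOneSpectrum.intValuation_le_pow_iff_mem]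
      exact hmem n x
    intro z
    obtain ⟨x, y, hy, rfl⟩ := IsFractionRing.div_surjective (A := 𝓞 E) z
    rw [map_div₀ σ, map_div₀, map_div₀, ← hτ, ← hτ, HeightOneSpectrum.valuation_of_algebraMap,
      HeightOneSpectrum.valuation_of_algebraMap, HeightOneSpectrum.valuation_of_algebraMap,
      HeightOneSpectrum.valuation_of_algebraMap, hint, hint]
  · intro v
    have : I.comap (algebraMap (𝓞 F) (𝓞 E)) = w.asIdeal.comap (algebraMap (𝓞 F) (𝓞 E)) := by
      ext x
      rw [Ideal.mem_comap, Ideal.mem_comap]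
      have hx : τ (algebraMap (𝓞 F) (𝓞 E) x) = algebraMap (𝓞 F) (𝓞 E) x := by
        apply FaithfulSMul.algebraMap_injective (𝓞 E) E
        rw [hτ, ← IsScalarTower.algebraMap_apply, IsScalarTower.algebraMap_apply (𝓞 F) F E]
        exact σ.commutes _
      have := hmem 1 (algebraMap (𝓞 F) (𝓞 E) x)
      rw [pow_one, pow_one, hx] at this
      exact this
    change _ ↔ I.comap (algebraMap (𝓞 F) (𝓞 E)) = v.asIdeal
    rw [this]

/-- Different primes are separated by their valuations. -/
theorem exists_lt_one_ge_one {w w' : HeightOneSpectrum (𝓞 E)} (h : w ≠ w') :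
    ∃ x : 𝓞 E, x ∈ w.asIdeal ∧ x ∉ w'.asIdeal := by
  by_contra hcon
  push Not at hcon
  exact h (HeightOneSpectrum.ext (w.isMaximal.eq_of_le w'.isPrime.ne_top fun x hx => hcon x hx))

end ext

section weak

variable {F : Type} [Field F] [NumberField F]

/-- The absolute values used in the weak approximation theorem. -/
noncomputable def absv (S : Finset (HeightOneSpectrum (𝓞 F))) :
    {v // v ∈ S} ⊕ InfinitePlace F → AbsoluteValue F ℝ
  | .inl v => HeightOneSpectrum.adicAbv F v.1
  | .inr w => w.1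

theorem adicAbv_lt_one_iff (v : HeightOneSpectrum (𝓞 F)) (x : F) :
    HeightOneSpectrum.adicAbv F v x < 1 ↔ v.valuation F x < 1 := by
  rw [HeightOneSpectrum.adicAbv_def]
  rw [NNReal.coe_lt_one]
  exact WithZeroMulInt.toNNReal_lt_one_iff (HeightOneSpectrum.one_lt_absNorm_nnreal v)

theorem absv_nontrivial (S : Finset (HeightOneSpectrum (𝓞 F))) (i) :
    (absv S i).IsNontrivial := by
  rcases i with v | w
  · obtain ⟨π, hπ⟩ := v.1.valuation_exists_uniformizer F
    refine ⟨π, ?_, ?_⟩
    · rintro rfl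
      rw [map_zero] at hπ
      exact WithZero.exp_ne_zero hπ.symm
    · apply ne_of_lt
      change HeightOneSpectrum.adicAbv F v.1 π < 1
      rw [adicAbv_lt_one_iff, hπ]
      decide
  · exact w.isNontrivial

theorem absv_pairwise (S : Finset (HeightOneSpectrum (𝓞 F))) :
    Pairwise fun i j => ¬ (absv S i).IsEquiv (absv S j) := by
  have key : ∀ (v : HeightOneSpectrum (𝓞 F)) (w : InfinitePlace F),
      ¬ (HeightOneSpectrum.adicAbv F v).IsEquiv w.1 := by
    intro v w h
    have h1 : HeightOneSpectrum.adicAbv F v ((2 : ℕ) : F) ≤ 1 :=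
      HeightOneSpectrum.adicAbv_natCast_le_one F v 2
    have h2 : w.1 ((2 : ℕ) : F) ≤ 1 := h.le_one_iff.mp h1
    have h3 : w ((2 : ℕ) : F) = 2 := by
      rw [InfinitePlace.map_natCast]
      norm_num
    have h4 : w.1 ((2 : ℕ) : F) = w ((2 : ℕ) : F) := rfl
    rw [h4, h3] at h2
    norm_num at h2
  intro i j hij h
  rcases i with v | w <;> rcases j with v' | w'
  · apply hij
    have : v.1 = v'.1 := by
      by_contra hne
      have hnle : ¬ (v'.1.asIdeal ≤ v.1.asIdeal) := fun hle =>
        hne (HeightOneSpectrum.ext (v'.1.isMaximal.eq_of_le v.1.isPrime.ne_top hle).symm)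
      obtain ⟨x, hx, hx'⟩ := Set.not_subset.mp hnle
      have h1 : HeightOneSpectrum.adicAbv F v'.1 (algebraMap (𝓞 F) F x) < 1 := by
        rw [adicAbv_lt_one_iff, v'.1.valuation_lt_one_iff_mem]; exact hx
      have h2 : HeightOneSpectrum.adicAbv F v.1 (algebraMap (𝓞 F) F x) < 1 :=
        h.lt_one_iff.mpr h1
      rw [adicAbv_lt_one_iff, v.1.valuation_lt_one_iff_mem] at h2
      exact hx' h2
    exact congrArg Sum.inl (Subtype.ext this)
  · exact key _ _ h
  · exact key _ _ h.symm
  · apply hij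
    exact congrArg Sum.inr (InfinitePlace.eq_iff_isEquiv.mpr h)

/-- Weak approximation. -/
theorem approxVal (S : Finset (HeightOneSpectrum (𝓞 F))) (x : HeightOneSpectrum (𝓞 F) → F)
    (g : HeightOneSpectrum (𝓞 F) → Z0) (hg : ∀ v ∈ S, g v ≠ 0) (t : InfinitePlace F → F)
    {ε : ℝ} (hε : 0 < ε) :
    ∃ f : F, (∀ v ∈ S, v.valuation F (f - x v) < g v) ∧ ∀ w : InfinitePlace F, w (f - t w) < ε := by
  classical
  have hd := AbsoluteValue.denseRange_algebraMap_pi (absv_nontrivial S) (absv_pairwise S)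
  rw [Metric.denseRange_iff] at hd
  let z : (i : {v // v ∈ S} ⊕ InfinitePlace F) → WithAbs (absv S i) := fun i =>
    match i with
    | .inl v => (WithAbs.equiv _).symm (x v.1)
    | .inr w => (WithAbs.equiv _).symm (t w)
  obtain ⟨r, hr0, hrε, hrg⟩ : ∃ r : ℝ, 0 < r ∧ r ≤ ε ∧ ∀ v ∈ S,
      r ≤ WithZeroMulInt.toNNReal (HeightOneSpectrum.absNorm_ne_zero v) (g v) := by
    have hpos : ∀ v ∈ S, (0 : ℝ) <
        WithZeroMulInt.toNNReal (HeightOneSpectrum.absNorm_ne_zero v) (g v) := fun v hv => by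
      rw [NNReal.coe_pos]
      exact WithZeroMulInt.toNNReal_pos _ (hg v hv)
    rcases S.eq_empty_or_nonempty with rfl | hS
    · exact ⟨ε, hε, le_rfl, by simp⟩
    · obtain ⟨v₀, hv₀, hmin⟩ := S.exists_min_image
        (fun v => ((WithZeroMulInt.toNNReal (HeightOneSpectrum.absNorm_ne_zero v) (g v) : NNReal) : ℝ))
        hS
      refine ⟨min ε (WithZeroMulInt.toNNReal (HeightOneSpectrum.absNorm_ne_zero v₀) (g v₀)),
        lt_min hε (hpos v₀ hv₀), min_le_left _ _, fun v hv =>
          (min_le_right _ _).trans (hmin v hv)⟩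
  obtain ⟨f, hf⟩ := hd z r hr0
  rw [dist_pi_lt_iff hr0] at hf
  refine ⟨f, fun v hv => ?_, fun w => ?_⟩
  · have h1 := hf (.inl ⟨v, hv⟩)
    rw [dist_comm, dist_eq_norm, WithAbs.norm_eq_apply_ofAbs] at h1
    have h2 : HeightOneSpectrum.adicAbv F v (f - x v) < r := h1
    rw [HeightOneSpectrum.adicAbv_def] at h2
    have h3 := h2.trans_le (hrg v hv)
    rw [NNReal.coe_lt_coe] at h3
    exact (WithZeroMulInt.toNNReal_strictMono
      (HeightOneSpectrum.one_lt_absNorm_nnreal v)).lt_iff_lt.mp h3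
  · have h1 := hf (.inr w)
    rw [dist_comm, dist_eq_norm, WithAbs.norm_eq_apply_ofAbs] at h1
    have h2 : w (f - t w) < r := h1
    exact h2.trans_le hrε

omit [NumberField F] in
theorem real_place_injective {φ ψ : F →+* ℝ}
    (h : InfinitePlace.mk (Complex.ofRealHom.comp φ) = InfinitePlace.mk (Complex.ofRealHom.comp ψ)) :
    φ = ψ := by
  rw [InfinitePlace.mk_eq_iff] at h
  have e : ∀ x, ((φ x : ℝ) : ℂ) = ((ψ x : ℝ) : ℂ) := by
    intro x
    rcases h with h | h
    · exact congrArg (fun f : F →+* ℂ => f x) h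
    · have := congrArg (fun f : F →+* ℂ => f x) h
      simp only [ComplexEmbedding.conjugate_coe_eq, RingHom.comp_apply, Complex.ofRealHom_eq_coe,
        Complex.conj_ofReal] at this
      exact this
  ext x
  exact_mod_cast e x

end weak

section quad

variable {F E : Type} [Field F] [NumberField F] [Field E] [NumberField E] [Algebra F E]

theorem exists_coords (hfr : Module.finrank F E = 2) {a : F} (ha : ¬ IsSquare a) {θ : E}
    (hθ : θ ^ 2 = algebraMap F E a) (z : E) :
    ∃ p q : F, z = algebraMap F E p + algebraMap F E q * θ := by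
  have hθF : ∀ x : F, algebraMap F E x ≠ θ := by
    rintro x rfl
    apply ha
    refine ⟨x, (algebraMap F E).injective ?_⟩
    rw [← hθ, map_mul, sq]
  have hli : LinearIndependent F ![(1 : E), θ] := by
    rw [LinearIndependent.pair_iff]
    intro s t hst
    have ht : t = 0 := by
      by_contra ht
      apply hθF (-s / t)
      rw [map_div₀, map_neg, div_eq_iff ((map_ne_zero _).mpr ht)]
      rw [Algebra.smul_def, Algebra.smul_def, mul_one] at hst
      linear_combination -hst
    subst ht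
    rw [zero_smul, add_zero, Algebra.smul_def, mul_one] at hst
    exact ⟨(map_eq_zero _).mp hst, rfl⟩
  have hspan := hli.span_eq_top_of_card_eq_finrank (by rw [hfr]; rfl)
  have hz : z ∈ Submodule.span F (Set.range ![(1 : E), θ]) := by rw [hspan]; trivial
  rw [Matrix.range_cons, Matrix.range_cons, Matrix.range_empty, Set.union_empty,
    Set.singleton_union, Submodule.mem_span_pair] at hz
  obtain ⟨p, q, h⟩ := hz
  refine ⟨p, q, ?_⟩
  rw [← h, Algebra.smul_def, Algebra.smul_def, mul_one]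

theorem exists_sigma (hfr : Module.finrank F E = 2) {a : F} (ha : ¬ IsSquare a) {θ : E}
    (hθ : θ ^ 2 = algebraMap F E a) : ∃ σ : E ≃ₐ[F] E, σ θ = -θ := by
  have : Algebra.IsQuadraticExtension F E := ⟨hfr⟩
  have hfd : FiniteDimensional F E := Module.finite_of_finrank_pos (by rw [hfr]; norm_num)
  have hcard := IsGalois.card_aut_eq_finrank F E
  rw [hfr] at hcard
  have hne : ∃ σ : E ≃ₐ[F] E, σ ≠ 1 := by
    by_contra hcon
    push Not at hcon
    have : Subsingleton (E ≃ₐ[F] E) := ⟨fun x y => (hcon x).trans (hcon y).symm⟩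
    have := Nat.card_eq_one_iff_unique.mpr ⟨this, ⟨1⟩⟩
    omega
  obtain ⟨σ, hσ⟩ := hne
  refine ⟨σ, ?_⟩
  have h1 : σ θ ^ 2 = θ ^ 2 := by rw [← map_pow, hθ, σ.commutes]
  rcases sq_eq_sq_iff_eq_or_eq_neg.mp h1 with h | h
  · exfalso
    apply hσ
    ext z
    obtain ⟨p, q, rfl⟩ := exists_coords hfr ha hθ z
    simp [h]
  · exact h

theorem sigma_coords {θ : E} {σ : E ≃ₐ[F] E} (hσ : σ θ = -θ)
    (p q : F) : σ (algebraMap F E p + algebraMap F E q * θ) =
      algebraMap F E p - algebraMap F E q * θ := by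
  rw [map_add, map_mul, σ.commutes, σ.commutes, hσ]
  ring

theorem sigma_sigma (hfr : Module.finrank F E = 2) {a : F} (ha : ¬ IsSquare a) {θ : E}
    (hθ : θ ^ 2 = algebraMap F E a) {σ : E ≃ₐ[F] E} (hσ : σ θ = -θ) (z : E) :
    σ (σ z) = z := by
  obtain ⟨p, q, rfl⟩ := exists_coords hfr ha hθ z
  simp [hσ]

theorem norm_mem (hfr : Module.finrank F E = 2) {a : F} (ha : ¬ IsSquare a) {θ : E}
    (hθ : θ ^ 2 = algebraMap F E a) {σ : E ≃ₐ[F] E} (hσ : σ θ = -θ) (z : E) :
    ∃ x : F, z * σ z = algebraMap F E x := by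
  obtain ⟨p, q, rfl⟩ := exists_coords hfr ha hθ z
  refine ⟨p ^ 2 - a * q ^ 2, ?_⟩
  rw [sigma_coords hσ]
  rw [map_sub, map_mul, map_pow, map_pow, ← hθ]
  ring

theorem trace_mem (hfr : Module.finrank F E = 2) {a : F} (ha : ¬ IsSquare a) {θ : E}
    (hθ : θ ^ 2 = algebraMap F E a) {σ : E ≃ₐ[F] E} (hσ : σ θ = -θ) (z : E) :
    ∃ x : F, z + σ z = algebraMap F E x := by
  obtain ⟨p, q, rfl⟩ := exists_coords hfr ha hθ z
  refine ⟨2 * p, ?_⟩
  rw [sigma_coords hσ, map_mul, map_ofNat]
  ring

theorem val_integer_le_one (w : HeightOneSpectrum (𝓞 E)) (x : 𝓞 E) :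
    w.valuation E (algebraMap (𝓞 E) E x) ≤ 1 := w.valuation_le_one x

theorem sigma_integer (σ : E ≃ₐ[F] E) (x : 𝓞 E) :
    ∃ y : 𝓞 E, algebraMap (𝓞 E) E y = σ (algebraMap (𝓞 E) E x) :=
  ⟨RingOfIntegers.mapRingEquiv (σ : E ≃+* E) x, rfl⟩

/-- Prime avoidance for two primes. -/
theorem exists_avoid {w w₁ w₂ : HeightOneSpectrum (𝓞 E)} (h1 : w ≠ w₁) (h2 : w ≠ w₂) :
    ∃ x : 𝓞 E, x ∈ w.asIdeal ∧ x ∉ w₁.asIdeal ∧ x ∉ w₂.asIdeal := by
  obtain ⟨x, hx, hx1⟩ := exists_lt_one_ge_one h1
  obtain ⟨y, hy, hy2⟩ := exists_lt_one_ge_one h2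
  by_cases hx2 : x ∈ w₂.asIdeal
  · by_cases hy1 : y ∈ w₁.asIdeal
    · refine ⟨x + y, add_mem hx hy, fun h => hx1 ?_, fun h => hy2 ?_⟩
      · have := sub_mem h hy1
        rwa [add_sub_cancel_right] at this
      · have := sub_mem h hx2
        rwa [add_sub_cancel_left] at this
    · exact ⟨y, hy, hy1, hy2⟩
  · exact ⟨x, hx, hx1, hx2⟩

/-- Q6 -/
theorem conj_transitive (hfr : Module.finrank F E = 2) {a : F} (ha : ¬ IsSquare a) {θ : E}
    (hθ : θ ^ 2 = algebraMap F E a) {σ : E ≃ₐ[F] E} (hσ : σ θ = -θ)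
    {v : HeightOneSpectrum (𝓞 F)} {w w' : HeightOneSpectrum (𝓞 E)}
    (hw : w.asIdeal.comap (algebraMap (𝓞 F) (𝓞 E)) = v.asIdeal)
    (hw' : w'.asIdeal.comap (algebraMap (𝓞 F) (𝓞 E)) = v.asIdeal) :
    w' = w ∨ ∀ z, w'.valuation E (σ z) = w.valuation E z := by
  obtain ⟨u, hu, -⟩ := exists_conj σ w
  by_cases h1 : w' = w
  · exact Or.inl h1
  by_cases h2 : w' = u
  · subst h2
    exact Or.inr hu
  exfalso
  obtain ⟨z, hz, hzw, hzu⟩ := exists_avoid h1 h2
  obtain ⟨y, hy⟩ := sigma_integer σ z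
  obtain ⟨n, hn⟩ := norm_mem hfr ha hθ hσ (algebraMap (𝓞 E) E z)
  have e1 : w'.valuation E (algebraMap F E n) < 1 := by
    rw [← hn, map_mul]
    have h3 : w'.valuation E (algebraMap (𝓞 E) E z) < 1 :=
      (w'.valuation_lt_one_iff_mem z).mpr hz
    have h4 : w'.valuation E (σ (algebraMap (𝓞 E) E z)) ≤ 1 := by
      rw [← hy]; exact w'.valuation_le_one y
    exact mul_lt_one_of_lt_of_le h3 h4
  rw [val_lt_one_iff hw'] at e1
  rw [← val_lt_one_iff hw, ← hn, map_mul] at e1
  have h5 : w.valuation E (algebraMap (𝓞 E) E z) = 1 := w.valuation_eq_one_iff_notMem.mpr hzw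
  have h6 : w.valuation E (σ (algebraMap (𝓞 E) E z)) = 1 := by
    rw [← hu, sigma_sigma hfr ha hθ hσ]
    exact u.valuation_eq_one_iff_notMem.mpr hzu
  rw [h5, h6, mul_one] at e1
  exact lt_irrefl _ e1

theorem exp_neg_one_eq_pow {x : Z0} {e : ℕ} (h : x ^ e = WithZero.exp (-1)) : e = 1 := by
  have hx0 : x ≠ 0 := by
    rintro rfl
    rcases Nat.eq_zero_or_pos e with rfl | he
    · rw [pow_zero, ← WithZero.exp_zero, WithZero.exp_inj] at h
      omega
    · rw [zero_pow he.ne'] at h
      exact WithZero.exp_ne_zero h.symm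
  obtain ⟨k, rfl⟩ : ∃ k : ℤ, x = WithZero.exp k := ⟨WithZero.log x, (WithZero.exp_log hx0).symm⟩
  rw [← WithZero.exp_nsmul, WithZero.exp_inj, nsmul_eq_mul] at h
  have h1 : (e : ℤ) ∣ 1 := ⟨-k, by linarith⟩
  have h2 := Int.eq_one_of_dvd_one (by positivity) h1
  exact_mod_cast h2

/-- Q7 -/
theorem val_unram (hfr : Module.finrank F E = 2) {a : F} (ha : ¬ IsSquare a) {θ : E}
    (hθ : θ ^ 2 = algebraMap F E a)
    {v : HeightOneSpectrum (𝓞 F)} {w : HeightOneSpectrum (𝓞 E)}
    (hw : w.asIdeal.comap (algebraMap (𝓞 F) (𝓞 E)) = v.asIdeal)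
    (h2 : v.valuation F 2 = 1) (hva : v.valuation F a = 1) (x : F) :
    w.valuation E (algebraMap F E x) = v.valuation F x := by
  obtain ⟨σ, hσ⟩ := exists_sigma hfr ha hθ
  obtain ⟨e, he, hv⟩ := val_above hw
  suffices e = 1 by rw [hv, this, pow_one]
  obtain ⟨u, hu, -⟩ := exists_conj σ w
  have hw2 : w.valuation E 2 = 1 := by
    have := hv 2
    rwa [h2, one_pow, map_ofNat] at this
  have hwθ : w.valuation E θ = 1 := by
    have : w.valuation E (θ ^ 2) = 1 := by rw [hθ, hv, hva, one_pow]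
    rw [map_pow] at this
    exact (pow_eq_one_iff.mp this).resolve_right (by norm_num)
  by_cases huw : u = w
  · subst huw
    obtain ⟨ϖ, hϖ⟩ := u.valuation_exists_uniformizer E
    obtain ⟨p, q, hpq⟩ := exists_coords hfr ha hθ ϖ
    have hs : u.valuation E (σ ϖ) = WithZero.exp (-1) := by rw [hu, hϖ]
    have hp : u.valuation E (algebraMap F E p) ≤ WithZero.exp (-1) := by
      have h3 : ϖ + σ ϖ = 2 * algebraMap F E p := by
        rw [hpq, sigma_coords hσ]; ring
      have h4 := (u.valuation E).map_add_le hϖ.le hs.le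
      rwa [h3, map_mul, hw2, one_mul] at h4
    have hq : u.valuation E (algebraMap F E q) ≤ WithZero.exp (-1) := by
      have h3 : ϖ - σ ϖ = 2 * algebraMap F E q * θ := by
        rw [hpq, sigma_coords hσ]; ring
      have h4 := (u.valuation E).map_sub_le hϖ.le hs.le
      rwa [h3, map_mul, map_mul, hw2, one_mul, hwθ, mul_one] at h4
    have key : ∀ p : F, u.valuation E (algebraMap F E p) ≤ WithZero.exp (-1) →
        u.valuation E (algebraMap F E p) ≤ WithZero.exp (-(e : ℤ)) := by
      intro p hp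
      rw [hv] at hp ⊢
      by_cases hp0 : v.valuation F p = 0
      · rw [hp0, zero_pow he]; exact zero_le
      obtain ⟨k, hk⟩ : ∃ k : ℤ, v.valuation F p = WithZero.exp k :=
        ⟨WithZero.log _, (WithZero.exp_log hp0).symm⟩
      rw [hk, ← WithZero.exp_nsmul, WithZero.exp_le_exp, nsmul_eq_mul] at hp ⊢
      have hk0 : k < 0 := by
        by_contra hk0
        push Not at hk0
        have : 0 ≤ (e : ℤ) * k := by positivity
        omega
      nlinarith
    have hfin : WithZero.exp (-1) ≤ (WithZero.exp (-(e : ℤ)) : Z0) := by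
      rw [← hϖ, hpq]
      refine (u.valuation E).map_add_le (key p hp) ?_
      rw [map_mul, hwθ, mul_one]
      exact key q hq
    rw [WithZero.exp_le_exp] at hfin
    omega
  · -- two primes above
    obtain ⟨y₀, hy₀⟩ := w.intValuation_exists_uniformizer
    obtain ⟨y, hy, hyu⟩ : ∃ y : 𝓞 E, w.valuation E (algebraMap (𝓞 E) E y) = WithZero.exp (-1) ∧
        y ∉ u.asIdeal := by
      by_cases h0 : y₀ ∈ u.asIdeal
      · obtain ⟨s, hs, hsu⟩ := exists_lt_one_ge_one (fun h => huw h.symm : w ≠ u)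
        refine ⟨y₀ + s ^ 2, ?_, fun h => ?_⟩
        · rw [w.valuation_of_algebraMap]
          have h3 : w.intValuation (s ^ 2) ≤ WithZero.exp (-((2 : ℕ) : ℤ)) := by
            rw [w.intValuation_le_pow_iff_mem]
            exact Ideal.pow_mem_pow hs 2
          have h4 : w.intValuation (s ^ 2) < w.intValuation y₀ := by
            refine h3.trans_lt ?_
            rw [hy₀, WithZero.exp_lt_exp]
            norm_num
          rw [Valuation.map_add_eq_of_lt_left _ h4, hy₀]
        · have h5 := sub_mem h h0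
          rw [add_sub_cancel_left] at h5
          exact hsu (u.isPrime.mem_of_pow_mem 2 h5)
      · exact ⟨y₀, by rw [w.valuation_of_algebraMap, hy₀], h0⟩
    obtain ⟨n, hn⟩ := norm_mem hfr ha hθ hσ (algebraMap (𝓞 E) E y)
    have h6 : w.valuation E (σ (algebraMap (𝓞 E) E y)) = 1 := by
      rw [← hu, sigma_sigma hfr ha hθ hσ]
      exact u.valuation_eq_one_iff_notMem.mpr hyu
    have h7 : w.valuation E (algebraMap F E n) = WithZero.exp (-1) := by
      rw [← hn, map_mul, h6, hy, mul_one]
    rw [hv] at h7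
    exact exp_neg_one_eq_pow h7

/-- For a prime `w` with conjugate `u`: the element `a` is a local square iff `u` and `w`
are different. -/
theorem split_iff (hfr : Module.finrank F E = 2) {a : Fˣ} (ha : ¬ IsSquare (a : F)) {θ : E}
    (hθ : θ ^ 2 = algebraMap F E a) {σ : E ≃ₐ[F] E} (hσ : σ θ = -θ)
    {v : HeightOneSpectrum (𝓞 F)} {w u : HeightOneSpectrum (𝓞 E)}
    (hw : w.asIdeal.comap (algebraMap (𝓞 F) (𝓞 E)) = v.asIdeal)
    (hu : ∀ z, u.valuation E (σ z) = w.valuation E z) :
    a ∈ LS (v.valuation F) ↔ u ≠ w := by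
  have ha0 : (a : F) ≠ 0 := a.ne_zero
  constructor
  · rintro ⟨y, hy⟩ huw
    subst huw
    have hy0 : (y : F) ≠ 0 := y.ne_zero
    have hyE : algebraMap F E (y : F) ≠ 0 := (map_ne_zero _).mpr hy0
    set e0 : F := ((a : F) / (y : F) ^ 2 - 1) / 4 with he0
    have h4 : v.valuation F 4 ≠ 0 := (Valuation.ne_zero_iff _).mpr (by norm_num)
    have hv0 : v.valuation F e0 < 1 := by
      rw [he0, map_div₀, div_lt_one₀ (zero_lt_iff.mpr h4)]
      exact hy
    set z : E := (θ / algebraMap F E y - 1) / 2 with hz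
    have hσz : σ z = (-θ / algebraMap F E y - 1) / 2 := by
      rw [hz, map_div₀, map_sub, map_div₀, hσ, σ.commutes, map_one, map_ofNat]
    have hmul : z * σ z = -algebraMap F E e0 := by
      rw [hσz, hz, he0]
      simp only [map_div₀, map_sub, map_pow, map_one, map_ofNat, ← hθ]
      field_simp
      ring
    have hadd : z + σ z = -1 := by
      rw [hσz, hz]
      ring
    have h1 : u.valuation E z * u.valuation E z < 1 := by
      have : u.valuation E z * u.valuation E z = u.valuation E (z * σ z) := by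
        rw [map_mul, hu]
      rw [this, hmul, Valuation.map_neg, val_lt_one_iff hw]
      exact hv0
    have h2 : u.valuation E z < 1 := by
      by_contra hcon
      push Not at hcon
      exact absurd h1 (not_lt.mpr (one_le_mul hcon hcon))
    have h3 : u.valuation E (σ z) < 1 := by rw [hu]; exact h2
    have h5 := (u.valuation E).map_add_lt h2 h3
    rw [hadd, Valuation.map_neg, map_one] at h5
    exact lt_irrefl _ h5
  · intro huw
    have hθ0 : θ ≠ 0 := by
      rintro rfl
      rw [zero_pow (by norm_num)] at hθ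
      exact ha0 ((map_eq_zero _).mp hθ.symm)
    have hwθ : w.valuation E θ ≠ 0 := (Valuation.ne_zero_iff _).mpr hθ0
    have h4E : (4 : E) = algebraMap F E 4 := (map_ofNat _ 4).symm
    have h40 : w.valuation E 4 ≠ 0 := (Valuation.ne_zero_iff _).mpr (by norm_num)
    have hg0 : w.valuation E 4 * w.valuation E θ ≠ 0 := mul_ne_zero h40 hwθ
    classical
    obtain ⟨t, ht, -⟩ := approxVal (F := E) {w, u} (fun v => if v = w then θ else 0)
      (fun _ => w.valuation E 4 * w.valuation E θ) (fun _ _ => hg0) (fun _ => 0)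
      (ε := 1) one_pos
    have ht1 : w.valuation E (t - θ) < w.valuation E 4 * w.valuation E θ := by
      have := ht w (by simp)
      simpa using this
    have ht2 : u.valuation E t < w.valuation E 4 * w.valuation E θ := by
      have := ht u (by simp)
      simpa [huw] using this
    obtain ⟨y, hy⟩ := trace_mem hfr ha hθ hσ t
    have h1 : w.valuation E (algebraMap F E y - θ) < w.valuation E 4 * w.valuation E θ := by
      have e1 : algebraMap F E y - θ = (t - θ) + σ t := by rw [← hy]; ring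
      have e2 : w.valuation E (σ t) = u.valuation E t := by
        rw [← hu, sigma_sigma hfr ha hθ hσ]
      rw [e1]
      exact (w.valuation E).map_add_lt ht1 (by rw [e2]; exact ht2)
    have h2' : w.valuation E 2 ≤ 1 := by
      have := (w.valuation E).map_add_le (x := (1 : E)) (y := 1) (g := 1) (by simp) (by simp)
      convert this using 2; norm_num
    have h44 : w.valuation E 4 ≤ 1 := val_four_le _
    have h3 : w.valuation E (algebraMap F E y + θ) ≤ w.valuation E θ := by
      have e1 : algebraMap F E y + θ = (algebraMap F E y - θ) + 2 * θ := by ring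
      rw [e1]
      refine (w.valuation E).map_add_le (h1.le.trans ?_) ?_
      · exact mul_le_of_le_one_left' h44
      · rw [map_mul]
        exact mul_le_of_le_one_left' h2'
    have hA : w.valuation E (algebraMap F E a) = w.valuation E θ * w.valuation E θ := by
      rw [← hθ, map_pow, pow_two]
    have h5 : w.valuation E (algebraMap F E (y ^ 2 / a - 1)) < w.valuation E 4 := by
      have e1 : algebraMap F E (y ^ 2 / a - 1) =
          (algebraMap F E y - θ) * (algebraMap F E y + θ) / algebraMap F E a := by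
        have : algebraMap F E a ≠ 0 := (map_ne_zero _).mpr ha0
        rw [map_sub, map_div₀, map_pow, map_one]
        field_simp
        rw [← hθ]
        ring
      rw [e1, map_div₀, map_mul, hA, div_lt_iff₀ (zero_lt_iff.mpr (mul_ne_zero hwθ hwθ)),
        ← mul_assoc]
      calc _ ≤ w.valuation E (algebraMap F E y - θ) * w.valuation E θ :=
            mul_le_mul_of_nonneg_left h3 zero_le
        _ < w.valuation E 4 * w.valuation E θ * w.valuation E θ :=
            mul_lt_mul_of_pos_right h1 (zero_lt_iff.mpr hwθ)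
    rw [h4E, val_lt_val_iff hw] at h5
    have h6 : v.valuation F (y ^ 2 / a) = 1 := by
      have := (v.valuation F).map_one_add_of_lt (x := y ^ 2 / a - 1)
        (lt_of_lt_of_le h5 (val_four_le _))
      rwa [add_sub_cancel] at this
    have hy0 : y ≠ 0 := by
      rintro rfl
      rw [zero_pow (by norm_num), zero_div, map_zero] at h6
      exact zero_ne_one h6
    refine ⟨Units.mk0 y hy0, ?_⟩
    have e1 : (a : F) / ((Units.mk0 y hy0 : Fˣ) : F) ^ 2 - 1 =
        -((y ^ 2 / a - 1) / (y ^ 2 / a)) := by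
      rw [Units.val_mk0]
      field_simp
      ring
    rw [e1, Valuation.map_neg, map_div₀, h6, div_one]
    exact h5

theorem card_above (hfr : Module.finrank F E = 2) {a : Fˣ} (ha : ¬ IsSquare (a : F)) {θ : E}
    (hθ : θ ^ 2 = algebraMap F E a) (v : HeightOneSpectrum (𝓞 F)) :
    {w : HeightOneSpectrum (𝓞 E) |
      w.asIdeal.comap (algebraMap (𝓞 F) (𝓞 E)) = v.asIdeal}.ncard +
      ({v' | v' = v ∧ a ∉ LS (v'.valuation F)} : Set (HeightOneSpectrum (𝓞 F))).ncard = 2 := by
  classical
  obtain ⟨σ, hσ⟩ := exists_sigma hfr ha hθ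
  obtain ⟨w, hw⟩ := exists_above (E := E) v
  obtain ⟨u, hu, hu2⟩ := exists_conj σ w
  have huv := (hu2 v).mp hw
  have hset : {w : HeightOneSpectrum (𝓞 E) |
      w.asIdeal.comap (algebraMap (𝓞 F) (𝓞 E)) = v.asIdeal} = {w, u} := by
    ext w'
    constructor
    · intro hw'
      rcases conj_transitive hfr ha hθ hσ hw hw' with h | h
      · exact Or.inl h
      · right
        have key : ∀ z, w'.valuation E z = u.valuation E z := by
          intro z
          rw [← sigma_sigma hfr ha hθ hσ z, h, hu]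
        apply HeightOneSpectrum.ext
        ext x
        rw [← w'.valuation_lt_one_iff_mem (K := E), ← u.valuation_lt_one_iff_mem (K := E), key]
    · rintro (rfl | rfl)
      · exact hw
      · exact huv
  rw [hset]
  by_cases hs : a ∈ LS (v.valuation F)
  · have hne := (split_iff hfr ha hθ hσ hw hu).mp hs
    rw [Set.ncard_pair hne.symm]
    have : ({v' | v' = v ∧ a ∉ LS (v'.valuation F)} : Set (HeightOneSpectrum (𝓞 F))) = ∅ := by
      ext v'
      simp only [Set.mem_ofPred_eq, Set.mem_empty_iff_false, iff_false, not_and, not_not]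
      rintro rfl
      exact hs
    rw [this, Set.ncard_empty]
  · have heq : u = w := by
      by_contra hne
      exact hs ((split_iff hfr ha hθ hσ hw hu).mpr hne)
    have : ({v' | v' = v ∧ a ∉ LS (v'.valuation F)} : Set (HeightOneSpectrum (𝓞 F))) = {v} := by
      ext v'
      simp only [Set.mem_ofPred_eq, Set.mem_singleton_iff]
      constructor
      · exact fun h => h.1
      · rintro rfl
        exact ⟨rfl, hs⟩
    rw [this, Set.ncard_singleton, heq, Set.pair_eq_singleton, Set.ncard_singleton]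

theorem card_ov (hfr : Module.finrank F E = 2) {a : Fˣ} (ha : ¬ IsSquare (a : F)) {θ : E}
    (hθ : θ ^ 2 = algebraMap F E a) {S : Set (HeightOneSpectrum (𝓞 F))} (h : S.Finite) :
    (ov E S).ncard + {v | v ∈ S ∧ a ∉ LS (v.valuation F)}.ncard = 2 * S.ncard := by
  classical
  induction S, h using Set.Finite.induction_on with
  | empty => simp [ov]
  | @insert v S hv hS ih =>
    have e1 : ov E (insert v S) = {w : HeightOneSpectrum (𝓞 E) |
        w.asIdeal.comap (algebraMap (𝓞 F) (𝓞 E)) = v.asIdeal} ∪ ov E S := by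
      ext w
      simp [ov]
    have e2 : {v' | v' ∈ insert v S ∧ a ∉ LS (HeightOneSpectrum.valuation F v')} =
        ({v' | v' = v ∧ a ∉ LS (v'.valuation F)} : Set (HeightOneSpectrum (𝓞 F))) ∪
          {v' | v' ∈ S ∧ a ∉ LS (v'.valuation F)} := by
      ext v'
      simp only [Set.mem_insert_iff, Set.mem_ofPred_eq, Set.mem_union]
      tauto
    have d1 : Disjoint {w : HeightOneSpectrum (𝓞 E) |
        w.asIdeal.comap (algebraMap (𝓞 F) (𝓞 E)) = v.asIdeal} (ov E S) := by
      rw [Set.disjoint_left]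
      rintro w hw ⟨v', hv', hwv'⟩
      exact hv (below_unique hw hwv' ▸ hv')
    have d2 : Disjoint ({v' | v' = v ∧ a ∉ LS (v'.valuation F)} : Set (HeightOneSpectrum (𝓞 F)))
        {v' | v' ∈ S ∧ a ∉ LS (v'.valuation F)} := by
      rw [Set.disjoint_left]
      rintro v' ⟨rfl, -⟩ ⟨h, -⟩
      exact hv h
    have f1 := above_finite (E := E) v
    have f2 : ({v' | v' = v ∧ a ∉ LS (v'.valuation F)} : Set (HeightOneSpectrum (𝓞 F))).Finite :=
      (Set.finite_singleton v).subset fun v' h => h.1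
    have f3 : {v' | v' ∈ S ∧ a ∉ LS (HeightOneSpectrum.valuation F v')}.Finite :=
      hS.subset fun v' h => h.1
    rw [e1, e2, Set.ncard_union_eq d1 f1 (ov_finite hS), Set.ncard_union_eq d2 f2 f3,
      Set.ncard_insert_of_notMem hv hS]
    have := card_above (E := E) hfr ha hθ v
    omega

/-- The restriction of an embedding above a real place. -/
theorem comap_real {W : InfinitePlace E} {φ : F →+* ℝ}
    (h : InfinitePlace.mk (Complex.ofRealHom.comp φ) = W.comap (algebraMap F E)) (x : F) :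
    W.embedding (algebraMap F E x) = ((φ x : ℝ) : ℂ) := by
  have h1 : InfinitePlace.mk (Complex.ofRealHom.comp φ) =
      InfinitePlace.mk (W.embedding.comp (algebraMap F E)) := by
    rw [h, ← InfinitePlace.comap_mk, InfinitePlace.mk_embedding]
  rw [InfinitePlace.mk_eq_iff] at h1
  rcases h1 with h1 | h1
  · exact (congrArg (fun f : F →+* ℂ => f x) h1).symm
  · have := congrArg (fun f : F →+* ℂ => f x) h1
    simp only [ComplexEmbedding.conjugate_coe_eq, RingHom.comp_apply, Complex.ofRealHom_eq_coe,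
      Complex.conj_ofReal] at this
    exact this.symm

theorem card_inf (hfr : Module.finrank F E = 2) {a : Fˣ} (ha : ¬ IsSquare (a : F)) {θ : E}
    (hθ : θ ^ 2 = algebraMap F E a) :
    Fintype.card (InfinitePlace E) + {φ : F →+* ℝ | φ a < 0}.ncard =
      2 * Fintype.card (InfinitePlace F) := by
  classical
  have hq : Algebra.IsQuadraticExtension F E := ⟨hfr⟩
  have hgal : IsGalois F E := inferInstance
  have h1 := InfinitePlace.card_eq_card_isUnramifiedIn (k := F) (K := E)
  rw [hfr] at h1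
  have h2 : {φ : F →+* ℝ | φ a < 0}.ncard =
      ({w : InfinitePlace F | w.IsUnramifiedIn E} : Finset (InfinitePlace F))ᶜ.card := by
    have himg : (fun φ : F →+* ℝ => InfinitePlace.mk (Complex.ofRealHom.comp φ)) ''
        {φ : F →+* ℝ | φ a < 0} =
        (({w : InfinitePlace F | w.IsUnramifiedIn E} : Finset (InfinitePlace F))ᶜ : Finset _) := by
      ext u
      rw [Finset.mem_coe, Finset.mem_compl, Finset.mem_filter_univ]
      obtain ⟨W, rfl⟩ := InfinitePlace.comap_surjective (k := F) (K := E) u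
      rw [InfinitePlace.isUnramifiedIn_comap, InfinitePlace.not_isUnramified_iff]
      constructor
      · rintro ⟨φ, hφ, hW⟩
        have hW : InfinitePlace.mk (Complex.ofRealHom.comp φ) = W.comap (algebraMap F E) := hW
        have hφ : φ a < 0 := hφ
        constructor
        · rw [InfinitePlace.isComplex_iff, ComplexEmbedding.isReal_iff]
          intro hreal
          have h3 : (W.embedding θ) ^ 2 = ((φ a : ℝ) : ℂ) := by
            rw [← map_pow, hθ]; exact comap_real hW a
          have h4 : (starRingEnd ℂ) (W.embedding θ) = W.embedding θ :=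
            congrArg (fun f : E →+* ℂ => f θ) hreal
          obtain ⟨r, hr⟩ := Complex.conj_eq_iff_real.mp h4
          rw [hr] at h3
          have h5 : r ^ 2 = φ a := by exact_mod_cast h3
          have := sq_nonneg r
          linarith
        · rw [← hW]
          refine ⟨_, ?_, rfl⟩
          rw [ComplexEmbedding.isReal_iff]
          ext x
          simp
      · rintro ⟨hc, hr⟩
        have hW : InfinitePlace.mk (Complex.ofRealHom.comp (InfinitePlace.embedding_of_isReal hr)) =
            W.comap (algebraMap F E) := by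
          have : Complex.ofRealHom.comp (InfinitePlace.embedding_of_isReal hr) =
              (W.comap (algebraMap F E)).embedding := by
            ext x
            exact InfinitePlace.embedding_of_isReal_apply hr x
          rw [this, InfinitePlace.mk_embedding]
        refine ⟨InfinitePlace.embedding_of_isReal hr, ?_, hW⟩
        set φ := InfinitePlace.embedding_of_isReal hr
        change φ a < 0
        by_contra hneg
        push Not at hneg
        rw [InfinitePlace.isComplex_iff, ComplexEmbedding.isReal_iff] at hc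
        apply hc
        have h3 : (W.embedding θ) ^ 2 = ((φ a : ℝ) : ℂ) := by
          rw [← map_pow, hθ]; exact comap_real hW a
        have h4 : ((φ a : ℝ) : ℂ) = ((Real.sqrt (φ a) : ℝ) : ℂ) ^ 2 := by
          rw [← Complex.ofReal_pow, Real.sq_sqrt hneg]
        have h5 : (starRingEnd ℂ) (W.embedding θ) = W.embedding θ := by
          rw [h4] at h3
          rcases sq_eq_sq_iff_eq_or_eq_neg.mp h3 with h | h
          · rw [h, Complex.conj_ofReal]
          · rw [h, map_neg, Complex.conj_ofReal]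
        ext z
        obtain ⟨p, q, rfl⟩ := exists_coords hfr ha hθ z
        rw [ComplexEmbedding.conjugate_coe_eq, map_add, map_mul, comap_real hW, comap_real hW,
          map_add, map_mul, h5, Complex.conj_ofReal, Complex.conj_ofReal]
    rw [← Set.ncard_coe_finset, ← himg, Set.ncard_image_of_injective]
    intro φ ψ h
    exact real_place_injective h
  rw [h2, h1]
  have h3 := Finset.card_add_card_compl
    ({w : InfinitePlace F | w.IsUnramifiedIn E} : Finset (InfinitePlace F))
  omega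

/-- Q8 -/
theorem card_places (hfr : Module.finrank F E = 2) {a : Fˣ} (ha : ¬ IsSquare (a : F)) {θ : E}
    (hθ : θ ^ 2 = algebraMap F E a) {S : Set (HeightOneSpectrum (𝓞 F))} (h : S.Finite) :
    ((ov E S).ncard + Fintype.card (InfinitePlace E)) + tc a S =
      2 * (S.ncard + Fintype.card (InfinitePlace F)) := by
  have h1 := card_ov (E := E) hfr ha hθ h
  have h2 := card_inf (E := E) hfr ha hθ
  rw [tc]
  omega

end quad

section exists_

variable {F : Type} [Field F] [NumberField F]

/-- C1 a quadratic extension by a square root -/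
theorem exists_quad (a : Fˣ) (ha : ¬ IsSquare (a : F)) :
    ∃ (E : Type) (_ : Field E) (_ : NumberField E) (_ : Algebra F E), Module.finrank F E = 2 ∧
      ∃ θ : E, θ ^ 2 = algebraMap F E a := by
  have hirr : Irreducible (Polynomial.X ^ 2 - Polynomial.C (a : F)) := by
    apply X_pow_sub_C_irreducible_of_prime Nat.prime_two
    intro b hb
    exact ha ⟨b, by rw [← hb, sq]⟩
  have := Fact.mk hirr
  have hfr : Module.finrank F (AdjoinRoot (Polynomial.X ^ 2 - Polynomial.C (a : F))) = 2 := by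
    rw [(AdjoinRoot.powerBasis hirr.ne_zero).finrank, AdjoinRoot.powerBasis_dim]
    exact Polynomial.natDegree_X_pow_sub_C
  have hfd : FiniteDimensional F (AdjoinRoot (Polynomial.X ^ 2 - Polynomial.C (a : F))) :=
    Module.finite_of_finrank_pos (by rw [hfr]; norm_num)
  have hch : CharZero (AdjoinRoot (Polynomial.X ^ 2 - Polynomial.C (a : F))) :=
    charZero_of_injective_algebraMap
      (algebraMap F (AdjoinRoot (Polynomial.X ^ 2 - Polynomial.C (a : F)))).injective
  have hfq : FiniteDimensional ℚ (AdjoinRoot (Polynomial.X ^ 2 - Polynomial.C (a : F))) :=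
    Module.Finite.trans F _
  refine ⟨AdjoinRoot (Polynomial.X ^ 2 - Polynomial.C (a : F)), inferInstance,
    ({ to_charZero := hch, to_finiteDimensional := hfq } : NumberField _), inferInstance, hfr, AdjoinRoot.root _, ?_⟩
  have h := AdjoinRoot.eval₂_root (Polynomial.X ^ 2 - Polynomial.C (a : F))
  rw [Polynomial.eval₂_sub, Polynomial.eval₂_pow, Polynomial.eval₂_X, Polynomial.eval₂_C,
    sub_eq_zero] at h
  exact h

end exists_

end Vale.Agent.P011.Arith
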