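import Mathlib

/-!
Local squares, norm forms and places of a number field, formulated inside the field.
-/

open NumberField IsDedekindDomain

namespace Vale.Agent.P011.Arith

/-- The value group with zero of a discrete valuation. -/
abbrev Z0 := WithZero (Multiplicative ℤ)

section field

variable {F : Type} [Field F]

/-- The nonzero squares. -/
def Sq (F : Type) [Field F] : Subgroup Fˣ := (powMonoidHom 2 : Fˣ →* Fˣ).range

/-- The nonzero values of the norm form `x ^ 2 - a * y ^ 2`. -/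
def NF (a : Fˣ) : Subgroup Fˣ where
  carrier := {b | ∃ x y : F, (b : F) = x ^ 2 - a * y ^ 2}
  mul_mem' := by
    rintro b c ⟨x, y, hb⟩ ⟨z, t, hc⟩
    refine ⟨x * z + a * y * t, x * t + y * z, ?_⟩
    rw [Units.val_mul, hb, hc]
    ring
  one_mem' := ⟨1, 0, by simp⟩
  inv_mem' := by
    rintro b ⟨x, y, hb⟩
    refine ⟨x / b, y / b, ?_⟩
    have h0 : (b : F) ≠ 0 := b.ne_zero
    rw [Units.val_inv_eq_inv_val]
    field_simp
    rw [hb]

theorem mem_NF {a b : Fˣ} : b ∈ NF a ↔ ∃ x y : F, (b : F) = x ^ 2 - a * y ^ 2 := Iff.rfl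

theorem val_four_le (w : Valuation F Z0) : w (4 : F) ≤ 1 := by
  have h2 : w (2 : F) ≤ 1 := by
    have := w.map_add_le (x := (1 : F)) (y := 1) (g := 1) (by simp) (by simp)
    convert this using 2; norm_num
  have e : (4 : F) = 2 * 2 := by norm_num
  rw [e, map_mul]
  exact mul_le_one' h2 h2

/-- The elements which are squares up to a factor close to `1`: the local squares. -/
def LS [CharZero F] (w : Valuation F Z0) : Subgroup Fˣ where
  carrier := {x | ∃ y : Fˣ, w ((x : F) / (y : F) ^ 2 - 1) < w 4}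
  mul_mem' := by
    rintro x x' ⟨y, hy⟩ ⟨y', hy'⟩
    refine ⟨y * y', ?_⟩
    have e : ((x * x' : Fˣ) : F) / ((y * y' : Fˣ) : F) ^ 2 - 1 =
        ((x : F) / (y : F) ^ 2 - 1) + ((x' : F) / (y' : F) ^ 2 - 1) +
          ((x : F) / (y : F) ^ 2 - 1) * ((x' : F) / (y' : F) ^ 2 - 1) := by
      have h0 : (y : F) ≠ 0 := y.ne_zero
      have h0' : (y' : F) ≠ 0 := y'.ne_zero
      push_cast
      field_simp
      ring
    rw [e]
    refine w.map_add_lt (w.map_add_lt hy hy') ?_
    rw [map_mul]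
    calc _ ≤ w ((x : F) / (y : F) ^ 2 - 1) * 1 :=
          mul_le_mul_right (le_trans hy'.le (val_four_le w)) _
      _ < w 4 := by rwa [mul_one]
  one_mem' := by
    refine ⟨1, ?_⟩
    have : w (4 : F) ≠ 0 := (Valuation.ne_zero_iff w).mpr (by norm_num)
    simpa using zero_lt_iff.mpr this
  inv_mem' := by
    rintro x ⟨y, hy⟩
    refine ⟨y⁻¹, ?_⟩
    have hx0 : (x : F) ≠ 0 := x.ne_zero
    have hy0 : (y : F) ≠ 0 := y.ne_zero
    have h1 : w ((x : F) / (y : F) ^ 2) = 1 := by
      have := w.map_one_add_of_lt (x := (x : F) / (y : F) ^ 2 - 1)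
        (lt_of_lt_of_le hy (val_four_le w))
      rwa [add_sub_cancel] at this
    have e : ((x⁻¹ : Fˣ) : F) / ((y⁻¹ : Fˣ) : F) ^ 2 - 1 =
        -(((x : F) / (y : F) ^ 2 - 1) / ((x : F) / (y : F) ^ 2)) := by
      rw [Units.val_inv_eq_inv_val, Units.val_inv_eq_inv_val]
      field_simp
      ring
    rw [e, Valuation.map_neg, map_div₀, h1, div_one]
    exact hy

theorem mem_LS [CharZero F] {w : Valuation F Z0} {x : Fˣ} :
    x ∈ LS w ↔ ∃ y : Fˣ, w ((x : F) / (y : F) ^ 2 - 1) < w 4 := Iff.rfl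

/-- The elements positive at a real embedding. -/
def LSR (φ : F →+* ℝ) : Subgroup Fˣ where
  carrier := {x | 0 < φ x}
  mul_mem' := by
    intro x y hx hy
    change 0 < φ ((x * y : Fˣ) : F)
    rw [Units.val_mul, map_mul]
    exact mul_pos hx hy
  one_mem' := by
    change 0 < φ ((1 : Fˣ) : F)
    simp
  inv_mem' := by
    intro x hx
    change 0 < φ ((x⁻¹ : Fˣ) : F)
    rw [Units.val_inv_eq_inv_val, map_inv₀]
    exact inv_pos.mpr hx

theorem mem_LSR {φ : F →+* ℝ} {x : Fˣ} : x ∈ LSR φ ↔ 0 < φ x := Iff.rfl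

/-- The element `c` is integral and the form `p ^ 2 + p * q - c * q ^ 2` is anisotropic
modulo the valuation: it defines the unramified quadratic extension. -/
def AdmC (w : Valuation F Z0) (c : F) : Prop :=
  w c ≤ 1 ∧ ∀ p q : F, w (p ^ 2 + p * q - c * q ^ 2) = max (w p) (w q) ^ 2

end field

variable {F : Type} [Field F] [NumberField F]

/-- The finite places and the real places. -/
abbrev Pl (F : Type) [Field F] [NumberField F] := HeightOneSpectrum (𝓞 F) ⊕ (F →+* ℝ)

/-- The local squares at a place. -/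
noncomputable def LSp : Pl F → Subgroup Fˣ
  | .inl v => LS (v.valuation F)
  | .inr φ => LSR φ

/-- The set `S` contains the dyadic primes and generates the class group: every prime outside
`S` is principal up to `S`. -/
def Pr (S : Set (HeightOneSpectrum (𝓞 F))) : Prop :=
  (∀ v : HeightOneSpectrum (𝓞 F), v.valuation F 2 ≠ 1 → v ∈ S) ∧
  ∀ v ∉ S, ∃ π : Fˣ, v.valuation F (π : F) = WithZero.exp (-1) ∧
    ∀ v' ∉ S, v' ≠ v → v'.valuation F (π : F) = 1

/-- The number of places in `S` or infinite that do not split in `F(√a)`. -/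
noncomputable def tc (a : Fˣ) (S : Set (HeightOneSpectrum (𝓞 F))) : ℕ :=
  {v | v ∈ S ∧ a ∉ LS (v.valuation F)}.ncard + {φ : F →+* ℝ | φ a < 0}.ncard

/-- The finite set `S` is large enough for the arithmetic of `F(√a)`. -/
structure Good (a : Fˣ) (S : Set (HeightOneSpectrum (𝓞 F))) : Prop where
  fin : S.Finite
  pr : Pr S
  unit : a ∈ S.unit F
  idx : (NF a).relIndex (S.unit F) * 2 = 2 ^ tc a S
  split : ∀ v ∉ S, a ∈ LS (v.valuation F) → ∃ β ∈ NF a, v.valuation F (β : F) = WithZero.exp (-1) ∧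
    ∀ v' ∉ S, v' ≠ v → v'.valuation F (β : F) = 1

end Vale.Agent.P011.Arith
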