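import Vale.Agent.P011.Arith.Quad
import Vale.Agent.P011.Arith.QuadAlg
import Vale.Agent.P011.Arith.SUnit

/-!
The norm index of the `S`-units of a quadratic extension.
-/

open NumberField IsDedekindDomain

namespace Vale.Agent.P011.Arith

variable {F : Type} [Field F] [NumberField F] {E : Type} [Field E] [NumberField E] [Algebra F E]

/-- The inclusion of the unit groups. -/
noncomputable def io (F E : Type) [Field F] [Field E] [Algebra F E] : Fˣ →* Eˣ :=
  Units.map (algebraMap F E : F →* E)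

omit [NumberField F] [NumberField E] in
theorem io_val (x : Fˣ) : ((io F E x : Eˣ) : E) = algebraMap F E (x : F) := rfl

omit [NumberField F] [NumberField E] in
theorem io_injective : Function.Injective (io F E) :=
  Units.map_injective (algebraMap F E).injective

/-- The norm as an endomorphism. -/
noncomputable def nm (σ : E ≃ₐ[F] E) : Eˣ →* Eˣ :=
  MonoidHom.id _ * Units.map (σ.toAlgHom : E →* E)

omit [NumberField F] [NumberField E] in
theorem nm_val (σ : E ≃ₐ[F] E) (z : Eˣ) : ((nm σ z : Eˣ) : E) = z * σ z := rfl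

variable {a : Fˣ} {θ : E} {σ : E ≃ₐ[F] E}

/-- Everything the set `S` has to satisfy. -/
structure Big (a : Fˣ) (E : Type) [Field E] [NumberField E] [Algebra F E]
    (S : Set (HeightOneSpectrum (𝓞 F))) : Prop where
  fin : S.Finite
  pr : Pr S
  prE : Pr (ov E S)
  unit : a ∈ S.unit F

omit [NumberField F] [NumberField E] in
theorem io_mem_unit [NumberField F] [NumberField E] {S : Set (HeightOneSpectrum (𝓞 F))} {x : Fˣ} :
    io F E x ∈ (ov E S).unit E ↔ x ∈ S.unit F := by
  rw [mem_unit, mem_unit]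
  constructor
  · intro h v hv
    obtain ⟨w, hw⟩ := exists_above (E := E) v
    refine (val_eq_one_iff hw _).mp (h w ?_)
    rintro ⟨v', hv', h'⟩
    have : v = v' := HeightOneSpectrum.ext (hw.symm.trans h')
    exact hv (this ▸ hv')
  · intro h w hw
    obtain ⟨v, hv⟩ := exists_below (F := F) w
    exact (val_eq_one_iff hv _).mpr (h v fun hvS => hw ⟨v, hvS, hv⟩)

/-- The conjugate prime. -/
theorem QD.conj_prime (Q : QD a θ σ) (S : Set (HeightOneSpectrum (𝓞 F)))
    (w : HeightOneSpectrum (𝓞 E)) : ∃ w' : HeightOneSpectrum (𝓞 E),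
      (∀ z, w'.valuation E z = w.valuation E (σ z)) ∧ (w ∈ ov E S ↔ w' ∈ ov E S) := by
  obtain ⟨w', h1, h2⟩ := exists_conj σ w
  refine ⟨w', fun z => ?_, ?_⟩
  · rw [← h1, Q.conj_conj]
  · constructor
    · rintro ⟨v, hv, h⟩
      exact ⟨v, hv, (h2 v).mp h⟩
    · rintro ⟨v, hv, h⟩
      exact ⟨v, hv, (h2 v).mpr h⟩

theorem QD.nm_mem (Q : QD a θ σ) {S : Set (HeightOneSpectrum (𝓞 F))} {m : Eˣ}
    (hm : m ∈ (ov E S).unit E) : nm σ m ∈ ((NF a ⊓ S.unit F).map (io F E)) := by
  obtain ⟨p, q, hpq⟩ := coords Q.h2 Q.sq Q.ns (m : E)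
  have h1 : ((nm σ m : Eˣ) : E) = algebraMap F E (p ^ 2 - a * q ^ 2) := by
    rw [nm_val, hpq, Q.norm_coords]
  have h0 : p ^ 2 - a * q ^ 2 ≠ 0 := by
    intro h
    rw [h, map_zero] at h1
    exact (nm σ m).ne_zero h1
  have h2 : io F E (Units.mk0 _ h0) = nm σ m := by
    ext
    rw [h1, io_val, Units.val_mk0]
  refine ⟨Units.mk0 _ h0, ⟨⟨p, q, rfl⟩, ?_⟩, h2⟩
  refine (io_mem_unit (E := E)).mp ?_
  rw [h2]
  intro w hw
  obtain ⟨w', h3, h4⟩ := Q.conj_prime S w
  rw [nm_val, map_mul, hm w hw, one_mul, ← h3]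
  exact hm w' fun h => hw (h4.mpr h)

/-- `S`-units which are norms are norms of `S`-units. -/
theorem QD.map_nm (Q : QD a θ σ) {S : Set (HeightOneSpectrum (𝓞 F))} (hS : Pr (ov E S)) :
    ((ov E S).unit E).map (nm σ) = (NF a ⊓ S.unit F).map (io F E) := by
  apply le_antisymm
  · rintro _ ⟨m, hm, rfl⟩
    exact Q.nm_mem hm
  · rintro _ ⟨b, ⟨⟨p, q, hb⟩, hbS⟩, rfl⟩
    set z : E := algebraMap F E p + algebraMap F E q * θ with hz
    have hN : z * σ z = algebraMap F E b := by rw [hz, Q.norm_coords, hb]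
    have hz0 : z ≠ 0 := by
      intro h
      rw [h, zero_mul] at hN
      exact b.ne_zero ((algebraMap F E).injective (hN.symm.trans (map_zero _).symm))
    let y : Eˣ := Units.mk0 z hz0
    have hfin : {w | w ∉ ov E S ∧ max (ordv w z) 0 ≠ 0}.Finite := by
      refine (ordv_finite y).subset ?_
      rintro w ⟨_, h⟩ h'
      apply h
      have h' : ordv w z = 0 := h'
      rw [h', max_self]
    obtain ⟨f, hf⟩ := exists_ord hS (fun w => max (ordv w z) 0) hfin
    have hσf0 : σ (f : E) ≠ 0 := (map_ne_zero σ).mpr f.ne_zero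
    refine ⟨y * Units.mk0 _ hσf0 / f, ?_, ?_⟩
    · intro w hw
      obtain ⟨w', h3, h4⟩ := Q.conj_prime S w
      have hw' : w' ∉ ov E S := fun h => hw (h4.mpr h)
      have h5 : w.valuation E (z * σ z) = 1 := by
        rw [hN]
        have := (io_mem_unit (E := E)).mpr hbS w hw
        exact this
      rw [map_mul, ← h3] at h5
      have e1 : w.valuation E z = WithZero.exp (ordv w z) := exp_ordv w y
      have e2 : w'.valuation E z = WithZero.exp (ordv w' z) := exp_ordv w' y
      rw [e1, e2, ← WithZero.exp_add, ← WithZero.exp_zero] at h5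
      have h6 := WithZero.exp_injective h5
      rw [Units.val_div_eq_div_val, Units.val_mul, Units.val_mk0, Units.val_mk0, map_div₀, map_mul,
        ← h3, hf w hw, hf w' hw', e1, ← WithZero.exp_add, ← WithZero.exp_sub, ← WithZero.exp_zero]
      congr 1
      omega
    · ext
      rw [nm_val, io_val, ← hN]
      have hf0 : (f : E) ≠ 0 := f.ne_zero
      simp only [Units.val_div_eq_div_val, Units.val_mul, Units.val_mk0, map_div₀, map_mul,
        Q.conj_conj, y]
      field_simp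

/-- Hilbert 90 for the `S`-units. -/
theorem QD.hilbert90 (Q : QD a θ σ) {S : Set (HeightOneSpectrum (𝓞 F))} (hB : Big a E S)
    {n : Eˣ} (hn : n ∈ (ov E S).unit E) (h1 : nm σ n = 1) :
    ∃ z ∈ (ov E S).unit E, (n : E) * σ z = z := by
  classical
  have hnn : (n : E) * σ n = 1 := by
    rw [← nm_val, h1, Units.val_one]
  obtain ⟨z₀, hz₀, hz₀'⟩ : ∃ z₀ : E, z₀ ≠ 0 ∧ (n : E) * σ z₀ = z₀ := by
    by_cases h : (n : E) = -1
    · refine ⟨θ, Q.theta_ne, ?_⟩
      rw [h, Q.conj]
      ring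
    · refine ⟨1 + n, fun h' => h (by linear_combination h'), ?_⟩
      rw [map_add, map_one, mul_add, hnn, mul_one, add_comm]
  let y : Eˣ := Units.mk0 z₀ hz₀
  choose ab hab using fun v : HeightOneSpectrum (𝓞 F) => exists_above (E := E) v
  have habS : ∀ v ∉ S, ab v ∉ ov E S := by
    rintro v hv ⟨v', hv', h⟩
    have : v = v' := HeightOneSpectrum.ext ((hab v).symm.trans h)
    exact hv (this ▸ hv')
  have hval : ∀ w ∉ ov E S, w.valuation E (σ z₀) = w.valuation E z₀ := by
    intro w hw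
    have h : w.valuation E (n * σ z₀) = w.valuation E z₀ := by rw [hz₀']
    rwa [map_mul, hn w hw, one_mul] at h
  have hinj : Function.Injective ab := by
    intro v v' h
    apply HeightOneSpectrum.ext
    rw [← hab v, ← hab v', h]
  have hfin : {v | v ∉ S ∧ ordv (ab v) z₀ ≠ 0}.Finite := by
    refine ((ordv_finite y).preimage hinj.injOn).subset ?_
    rintro v ⟨_, h⟩
    exact h
  obtain ⟨f, hf⟩ := exists_ord hB.pr (fun v => ordv (ab v) z₀) hfin
  have hf0 : (f : F) ≠ 0 := f.ne_zero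
  have hfE : algebraMap F E f ≠ 0 := (map_ne_zero _).mpr hf0
  refine ⟨y / io F E f, ?_, ?_⟩
  · intro w hw
    obtain ⟨v, hv⟩ := exists_below (F := F) w
    have hvS : v ∉ S := fun h => hw ⟨v, h, hv⟩
    have h2v := dyadic_of_Pr hB.pr hvS
    have hav := hB.unit v hvS
    rw [Units.val_div_eq_div_val, map_div₀, io_val, val_unram Q.h2 Q.ns Q.sq hv h2v hav, hf v hvS,
      show WithZero.exp (ordv (ab v) z₀) = (ab v).valuation E z₀ from (exp_ordv (ab v) y).symm]
    have h3 : w.valuation E z₀ = (ab v).valuation E z₀ := by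
      rcases conj_transitive Q.h2 Q.ns Q.sq Q.conj hv (hab v) with h | h
      · rw [h]
      · rw [← hval (ab v) (habS v hvS), h]
    rw [show ((y : Eˣ) : E) = z₀ from rfl, h3]
    exact div_self ((Valuation.ne_zero_iff _).mpr hz₀)
  · rw [Units.val_div_eq_div_val, io_val, map_div₀, AlgEquiv.commutes]
    rw [← mul_div_assoc, show ((y : Eˣ) : E) = z₀ from rfl, hz₀']

/-- The index formula. -/
theorem QD.index (Q : QD a θ σ) {S : Set (HeightOneSpectrum (𝓞 F))} (hB : Big a E S) :
    (NF a).relIndex (S.unit F) * 2 = 2 ^ tc a S := by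
  classical
  set U : Subgroup Fˣ := S.unit F with hU
  set M : Subgroup Eˣ := (ov E S).unit E with hM
  have hUM : U.map (io F E) ≤ M := by
    rintro _ ⟨x, hx, rfl⟩
    exact io_mem_unit.mpr hx
  have hUsq : (Sq F).relIndex U = 2 ^ (S.ncard + Fintype.card (InfinitePlace F)) :=
    Sq_relIndex_unit S hB.fin
  have hMsq : (Sq E).relIndex M = 2 ^ ((ov E S).ncard + Fintype.card (InfinitePlace E)) :=
    Sq_relIndex_unit _ (ov_finite hB.fin)
  have hcard := card_places Q.h2 Q.ns Q.sq hB.fin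
  -- squares of `M`
  let B : Subgroup Eˣ := (Sq E ⊓ M) ⊔ U.map (io F E)
  have hBM : B ≤ M := sup_le inf_le_right hUM
  have e1 : (Sq E ⊓ M).relIndex B * B.relIndex M =
      2 ^ ((ov E S).ncard + Fintype.card (InfinitePlace E)) := by
    rw [Subgroup.relIndex_mul_relIndex _ _ _ le_sup_left hBM, Subgroup.inf_relIndex_right, hMsq]
  have e2 : (Sq E ⊓ M).relIndex B = ((Sq E).comap (io F E)).relIndex U := by
    rw [Subgroup.relIndex_sup_left, Subgroup.relIndex_comap, ← Subgroup.inf_relIndex_right,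
      ← Subgroup.inf_relIndex_right (Sq E), inf_assoc, inf_eq_right.mpr hUM]
  have e3 : (Sq F ⊓ U).relIndex ((Sq E).comap (io F E) ⊓ U) * ((Sq E).comap (io F E)).relIndex U =
      2 ^ (S.ncard + Fintype.card (InfinitePlace F)) := by
    rw [← Subgroup.inf_relIndex_right ((Sq E).comap (io F E)),
      Subgroup.relIndex_mul_relIndex _ _ _ ?_ inf_le_right, Subgroup.inf_relIndex_right, hUsq]
    refine inf_le_inf_right _ ?_
    rintro _ ⟨y, rfl⟩
    exact ⟨io F E y, by simp⟩
  have e4 : (Sq F ⊓ U).relIndex ((Sq E).comap (io F E) ⊓ U) = 2 := by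
    have haS : a ∈ (Sq E).comap (io F E) := by
      rw [Subgroup.mem_comap, mem_Sq_iff, io_val, ← Q.sq]
      exact ⟨θ, by ring⟩
    rw [Subgroup.relIndex, Subgroup.index_eq_two_iff]
    refine ⟨⟨a, haS, hB.unit⟩, ?_⟩
    rintro ⟨b, hb1, hb2⟩
    simp only [Subgroup.mem_subgroupOf, Subgroup.mem_inf]
    have h2 : a ∉ Sq F := fun h => Q.ns (mem_Sq_iff.mp h)
    have h3 : b * a ∈ U := Subgroup.mul_mem _ hb2 hB.unit
    by_cases h4 : b ∈ Sq F
    · right
      refine ⟨⟨h4, hb2⟩, ?_⟩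
      rintro ⟨h5, _⟩
      exact h2 ((Subgroup.mul_mem_cancel_left _ h4).mp h5)
    · left
      refine ⟨⟨?_, h3⟩, fun h => h4 h.1⟩
      obtain ⟨z, hz⟩ := mem_Sq_iff.mp (show io F E b ∈ Sq E from hb1)
      rw [io_val] at hz
      change b * a ∈ Sq F
      rw [mul_comm]
      obtain ⟨p, q, rfl⟩ := coords Q.h2 Q.sq Q.ns z
      have h5 : algebraMap F E (p ^ 2 + a * q ^ 2 - b) + algebraMap F E (2 * p * q) * θ = 0 := by
        simp only [map_sub, map_add, map_mul, map_pow, hz, ← Q.sq, map_ofNat]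
        ring
      obtain ⟨h6, h7⟩ := coords_zero Q.sq Q.ns h5
      have h8 : p * q = 0 := by
        have h2' : (2 : F) ≠ 0 := by norm_num
        have : 2 * (p * q) = 0 := by rw [← mul_assoc]; exact h7
        exact (mul_eq_zero.mp this).resolve_left h2'
      rcases mul_eq_zero.mp h8 with h | h
      · subst h
        rw [mem_Sq_iff]
        refine ⟨a * q, ?_⟩
        rw [Units.val_mul]
        linear_combination (-(a : F)) * h6
      · subst h
        exact absurd (mem_Sq_iff.mpr ⟨p, by linear_combination -h6⟩) h4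
  -- norms
  have e5 : (Sq F ⊓ U).relIndex (NF a ⊓ U) * (NF a).relIndex U =
      2 ^ (S.ncard + Fintype.card (InfinitePlace F)) := by
    rw [← Subgroup.inf_relIndex_right (NF a),
      Subgroup.relIndex_mul_relIndex _ _ _ ?_ inf_le_right, Subgroup.inf_relIndex_right, hUsq]
    exact inf_le_inf_right _ (Sq_le_NF a)
  have e6 : (Sq F ⊓ U).relIndex (NF a ⊓ U) = B.relIndex M := by
    rw [← Subgroup.relIndex_map_map_of_injective _ _ (io_injective (F := F) (E := E)),
      ← Q.map_nm hB.prE, ← Subgroup.relIndex_comap, ← Subgroup.inf_relIndex_right]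
    congr 1
    have hunit : ∀ u : Fˣ, u ^ 2 ∈ U → u ∈ U := by
      intro u hu v hv
      have h1 := hu v hv
      rw [Units.val_pow_eq_pow_val, map_pow] at h1
      exact (pow_eq_one_iff_left two_ne_zero).mp h1
    have hnm : ∀ u : Fˣ, nm σ (io F E u) = io F E (u ^ 2) := by
      intro u
      ext
      rw [nm_val, io_val, io_val, AlgEquiv.commutes, Units.val_pow_eq_pow_val, map_pow, pow_two]
    apply le_antisymm
    · rintro m ⟨hm, hmM⟩
      obtain ⟨_, ⟨⟨u, rfl⟩, huU⟩, hu⟩ := hm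
      have huU : u ∈ U := hunit u huU
      have h1 : nm σ (m / io F E u) = 1 := by
        rw [map_div, ← hu, hnm]
        exact div_self' _
      have h2 : m / io F E u ∈ M := Subgroup.div_mem _ hmM (io_mem_unit.mpr huU)
      obtain ⟨z, hz, hz'⟩ := Q.hilbert90 hB h2 h1
      obtain ⟨c, ⟨_, hcU⟩, hc⟩ := Q.nm_mem hz
      have h3 : m / io F E u = z ^ 2 / io F E c := by
        rw [hc]
        ext
        have hσz : σ (z : E) ≠ 0 := (map_ne_zero σ).mpr z.ne_zero
        have hz0 : (z : E) ≠ 0 := z.ne_zero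
        rw [Units.val_div_eq_div_val (z ^ 2), nm_val, Units.val_pow_eq_pow_val]
        field_simp
        exact hz'
      have h4 : m = z ^ 2 * io F E (u / c) := by
        rw [map_div, mul_div_assoc', mul_comm (z ^ 2), mul_div_assoc, ← h3, mul_div_cancel]
      rw [h4]
      refine Subgroup.mul_mem_sup ⟨⟨z, rfl⟩, Subgroup.pow_mem _ hz 2⟩ ?_
      exact ⟨u / c, Subgroup.div_mem _ huU hcU, rfl⟩
    · refine le_inf ?_ hBM
      refine sup_le ?_ ?_
      · rintro _ ⟨⟨z, rfl⟩, hz⟩
        have hzM : z ∈ M := by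
          intro w hw
          have h1 := hz w hw
          change w.valuation E ((z ^ 2 : Eˣ) : E) = 1 at h1
          rw [Units.val_pow_eq_pow_val, map_pow] at h1
          exact (pow_eq_one_iff_left two_ne_zero).mp h1
        obtain ⟨c, ⟨_, hcU⟩, hc⟩ := Q.nm_mem hzM
        refine Subgroup.mem_comap.mpr ?_
        rw [powMonoidHom_apply, map_pow, ← hc, ← map_pow]
        exact ⟨c ^ 2, ⟨⟨c, rfl⟩, Subgroup.pow_mem _ hcU 2⟩, rfl⟩
      · rintro _ ⟨u, hu, rfl⟩
        refine Subgroup.mem_comap.mpr ?_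
        rw [hnm]
        exact ⟨u ^ 2, ⟨⟨u, rfl⟩, Subgroup.pow_mem _ hu 2⟩, rfl⟩
  -- combine
  rw [e4] at e3
  rw [e2] at e1
  rw [e6] at e5
  set k := ((Sq E).comap (io F E)).relIndex U
  set l := B.relIndex M
  set n := (NF a).relIndex U
  have h1 : 2 ^ ((ov E S).ncard + Fintype.card (InfinitePlace E)) * (n * 2) =
      2 ^ ((ov E S).ncard + Fintype.card (InfinitePlace E)) * 2 ^ tc a S := by
    rw [← pow_add, hcard, two_mul, pow_add 2 (S.ncard + Fintype.card (InfinitePlace F)), ← e1]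
    nth_rewrite 1 [← e3]
    rw [← e5]
    ring
  exact Nat.eq_of_mul_eq_mul_left (by positivity) h1

/-- Above a place where `a` is a local square the conjugate valuations differ. -/
theorem QD.ne_conj (Q : QD a θ σ) {v : HeightOneSpectrum (𝓞 F)} {w : HeightOneSpectrum (𝓞 E)}
    (h : w.asIdeal.comap (algebraMap (𝓞 F) (𝓞 E)) = v.asIdeal) (hav : a ∈ LS (v.valuation F)) :
    ¬ ∀ z, w.valuation E z = w.valuation E (σ z) := by
  intro hw
  obtain ⟨y, hy⟩ := hav
  obtain ⟨e, he0, he⟩ := val_above h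
  have hy0 : (y : F) ≠ 0 := y.ne_zero
  set z : E := algebraMap F E (-1 / 2) + algebraMap F E (1 / (2 * y)) * θ with hz
  have h1 : z * σ z = algebraMap F E (-(((a : F) / y ^ 2 - 1) / 4)) := by
    rw [hz, Q.norm_coords]
    congr 1
    field_simp
    ring
  have h2 : z + σ z = -1 := by
    rw [hz, Q.conj_coords]
    have : algebraMap F E (-1 / 2) = -1 / 2 := by
      rw [map_div₀, map_neg, map_one, map_ofNat]
    rw [this]
    ring
  have h3 : w.valuation E (z * σ z) < 1 := by
    rw [h1, he, Valuation.map_neg, map_div₀]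
    refine pow_lt_one' ?_ he0
    have h4 : v.valuation F (4 : F) ≠ 0 := (Valuation.ne_zero_iff _).mpr (by norm_num)
    exact (div_lt_one₀ (zero_lt_iff.mpr h4)).mpr hy
  rw [map_mul, ← hw z, ← pow_two] at h3
  have h4 : w.valuation E z < 1 := by
    by_contra h5
    rw [not_lt] at h5
    exact absurd h3 (not_lt.mpr (one_le_pow₀ h5))
  have h5 : w.valuation E (z + σ z) < 1 := Valuation.map_add_lt _ h4 (hw z ▸ h4)
  rw [h2, Valuation.map_neg, map_one] at h5
  exact lt_irrefl _ h5

theorem QD.good (Q : QD a θ σ) {S : Set (HeightOneSpectrum (𝓞 F))} (hB : Big a E S) :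
    Good a S where
  fin := hB.fin
  pr := hB.pr
  unit := hB.unit
  idx := Q.index hB
  split := by
    intro v hv hav
    obtain ⟨w, hw⟩ := exists_above (E := E) v
    have hwS : w ∉ ov E S := by
      rintro ⟨v', hv', h⟩
      have : v = v' := HeightOneSpectrum.ext (hw.symm.trans h)
      exact hv (this ▸ hv')
    obtain ⟨ϖ, hϖ1, hϖ2⟩ := hB.prE.2 w hwS
    obtain ⟨p, q, hpq⟩ := coords Q.h2 Q.sq Q.ns (ϖ : E)
    have hN : (ϖ : E) * σ ϖ = algebraMap F E (p ^ 2 - a * q ^ 2) := by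
      rw [hpq, Q.norm_coords]
    have h0 : p ^ 2 - a * q ^ 2 ≠ 0 := by
      intro h
      rw [h, map_zero] at hN
      exact (mul_ne_zero ϖ.ne_zero ((map_ne_zero σ).mpr ϖ.ne_zero)) hN
    have h2v := dyadic_of_Pr hB.pr hv
    have ha1 := hB.unit v hv
    refine ⟨Units.mk0 _ h0, ⟨p, q, rfl⟩, ?_, ?_⟩
    · rw [Units.val_mk0, ← val_unram Q.h2 Q.ns Q.sq hw h2v ha1, ← hN, map_mul, hϖ1]
      obtain ⟨w', h3, h4⟩ := Q.conj_prime S w
      have hne : w' ≠ w := by
        rintro rfl
        exact Q.ne_conj hw hav h3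
      rw [← h3, hϖ2 w' (fun h => hwS (h4.mpr h)) hne, mul_one]
    · intro v' hv' hne
      obtain ⟨w₁, hw₁⟩ := exists_above (E := E) v'
      have hw₁S : w₁ ∉ ov E S := by
        rintro ⟨v'', hv'', h⟩
        have : v' = v'' := HeightOneSpectrum.ext (hw₁.symm.trans h)
        exact hv' (this ▸ hv'')
      rw [Units.val_mk0, ← val_eq_one_iff hw₁, ← hN, map_mul]
      obtain ⟨w', h3, h4⟩ := exists_conj σ w₁
      have h5 : ∀ z, w'.valuation E z = w₁.valuation E (σ z) := fun z => by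
        rw [← h3, Q.conj_conj]
      have hw' := (h4 v').mp hw₁
      have hw'S : w' ∉ ov E S := by
        rintro ⟨v'', hv'', h⟩
        have : v' = v'' := HeightOneSpectrum.ext (hw'.symm.trans h)
        exact hv' (this ▸ hv'')
      rw [← h5, hϖ2 w₁ hw₁S, hϖ2 w' hw'S, one_mul]
      · rintro rfl
        exact hne (HeightOneSpectrum.ext (hw'.symm.trans hw))
      · rintro rfl
        exact hne (HeightOneSpectrum.ext (hw₁.symm.trans hw))

/-- C3 -/
theorem exists_good (a : Fˣ) (ha : ¬ IsSquare (a : F)) :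
    ∃ S₀ : Set (HeightOneSpectrum (𝓞 F)), S₀.Finite ∧
      ∀ S : Set (HeightOneSpectrum (𝓞 F)), S₀ ⊆ S → S.Finite → Good a S := by
  obtain ⟨E, _, _, _, h2, θ, hθ⟩ := exists_quad a ha
  obtain ⟨σ, Q⟩ := exists_QD h2 hθ ha
  obtain ⟨S₁, _, hS₁, hPr₁⟩ := exists_Pr (F := F) ∅ Set.finite_empty
  obtain ⟨S₂, _, hS₂, hPr₂⟩ := exists_Pr (F := E) ∅ Set.finite_empty
  choose be hbe using fun w : HeightOneSpectrum (𝓞 E) => exists_below (F := F) w
  refine ⟨S₁ ∪ be '' S₂ ∪ {v | v.valuation F (a : F) ≠ 1},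
    ((hS₁.union (hS₂.image _)).union (finite_ne_one a)), ?_⟩
  intro S hS hfin
  refine Q.good ⟨hfin, Pr.mono hPr₁ ?_, Pr.mono hPr₂ ?_, ?_⟩
  · exact (Set.subset_union_left.trans Set.subset_union_left).trans hS
  · intro w hw
    exact ⟨be w, hS (Or.inl (Or.inr ⟨w, hw, rfl⟩)), hbe w⟩
  · intro v hv
    by_contra h
    exact hv (hS (Or.inr h))

end Vale.Agent.P011.Arith
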