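import Vale.Agent.P011.Arith.LocalD

/-!
Group A of the arithmetic blueprint: all statements are in `LocalA`, `LocalB`, `LocalC`, `LocalD`.
-/
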