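import Vale.Agent.P011.Arith.Index
import Vale.Agent.P011.Arith.Good
import Vale.Agent.P011.Arith.Local

/-!
Existence of primes that do not split.
-/

open NumberField IsDedekindDomain

namespace Vale.Agent.P011.Arith

variable {F : Type} [Field F] [NumberField F]

/-- Weak approximation at a finite set of finite places and all real ones. -/
theorem weak_approx' {S : Set (HeightOneSpectrum (𝓞 F))} (hS : S.Finite) (g : Pl F → Fˣ) :
    ∃ f : Fˣ, ∀ p ∈ SP S, f / g p ∈ LSp p := by
  classical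
  obtain ⟨f, hf1, hf2⟩ := weak_approx hS.toFinset (fun v => g (.inl v))
    (fun φ => if 0 < φ (g (.inr φ)) then 1 else -1)
  refine ⟨f, ?_⟩
  rintro (v | φ) hp
  · exact hf1 v (by simpa using inl_mem_SP.mp hp)
  · have h1 := hf2 φ
    change 0 < φ ((f / g (.inr φ) : Fˣ) : F)
    have e : ((f / g (.inr φ) : Fˣ) : F) = (f : F) / (g (.inr φ) : F) := by
      rw [Units.val_div_eq_div_val]
    rw [e, map_div₀]
    have h0 : φ (g (.inr φ) : F) ≠ 0 := (map_ne_zero φ).mpr (Units.ne_zero _)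
    split_ifs at h1 with h2
    · simp only [Units.val_one, Int.cast_one, one_mul] at h1
      exact div_pos h1 h2
    · simp only [Units.val_neg, Units.val_one, Int.cast_neg, Int.cast_one, neg_mul, one_mul] at h1
      exact div_pos_of_neg_of_neg (by linarith) (lt_of_le_of_ne (not_lt.mp h2) h0)

theorem exists_exp (v : HeightOneSpectrum (𝓞 F)) :
    ∃ π : F, v.valuation F π = WithZero.exp (-1) := v.valuation_exists_uniformizer F

/-- The norm form of a non-square does not represent everything locally. -/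
theorem NF_sup_ne_top (a : Fˣ) (p : Pl F) (ha : a ∉ LSp p) : NF a ⊔ LSp p ≠ ⊤ := by
  rcases p with v | φ
  · obtain ⟨c, hc⟩ := exists_admC v
    obtain ⟨π, hπ⟩ := exists_exp v
    obtain ⟨b, hb⟩ := exists_not_norm hc hπ a ha
    intro h
    exact hb (h ▸ Subgroup.mem_top b)
  · intro h
    have h1 : NF a ⊔ LSR φ ≤ LSR φ := sup_le (NF_le_LSR (notMem_LSR.mp ha)) le_rfl
    exact neg_one_notMem_LSR φ (h1 (h ▸ Subgroup.mem_top _))

/-- If the norm form of `x` represents every sign pattern by `S`-units modulo local norms, then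
`S` is not good for `x`. -/
theorem not_good_of_patterns (x : Fˣ) {S : Set (HeightOneSpectrum (𝓞 F))} (hx : ¬ IsSquare (x : F))
    (hS : Good x S)
    (h : ∀ e : Pl F → Bool, ∃ u ∈ S.unit F, ∀ p ∈ SP S, x ∉ LSp p →
      (u ∈ NF x ⊔ LSp p ↔ e p = true)) : False := by
  classical
  have hfin : {p | p ∈ SP S ∧ x ∉ LSp p}.Finite := (SP_finite hS.fin).subset fun p hp => hp.1
  have : Fintype {p | p ∈ SP S ∧ x ∉ LSp p} := hfin.fintype
  have hidx := hS.idx
  have hne : (NF x).relIndex (S.unit F) ≠ 0 := by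
    intro h0
    rw [h0, zero_mul] at hidx
    exact (pow_pos (by norm_num : 0 < 2) _).ne hidx
  have h1 := two_pow_le_relIndex (ι := {p | p ∈ SP S ∧ x ∉ LSp p}) (NF x) (S.unit F)
    (fun p => NF x ⊔ LSp p.1) (fun p => le_sup_left) ?_ hne
  · rw [tc_eq x hS.fin, Set.ncard_eq_toFinset_card', Set.toFinset_card] at hidx
    have h2 : 0 < 2 ^ Fintype.card {p | p ∈ SP S ∧ x ∉ LSp p} := by positivity
    omega
  · intro e
    obtain ⟨u, hu, hu'⟩ := h (fun p => if hp : p ∈ {p | p ∈ SP S ∧ x ∉ LSp p} then e ⟨p, hp⟩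
      else true)
    refine ⟨u, hu, ?_⟩
    rintro ⟨p, hp⟩
    have := hu' p hp.1 hp.2
    rwa [dif_pos hp] at this

/-- D1 -/
theorem exists_nonsplit (x : Fˣ) (hx : ¬ IsSquare (x : F))
    (S₀ : Set (HeightOneSpectrum (𝓞 F))) (h : S₀.Finite) :
    ∃ v ∉ S₀, x ∉ LS (HeightOneSpectrum.valuation F v) := by
  classical
  by_contra hcon
  push Not at hcon
  obtain ⟨S₁, hS₁, hgood⟩ := exists_good x hx
  have hS := hgood (S₀ ∪ S₁) Set.subset_union_right (h.union hS₁)
  refine not_good_of_patterns x hx hS ?_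
  intro e
  -- the targets
  have hg : ∀ p : Pl F, ∃ g : Fˣ, x ∉ LSp p → (g ∈ NF x ⊔ LSp p ↔ e p = true) := by
    intro p
    by_cases hp : x ∈ LSp p
    · exact ⟨1, fun h => absurd hp h⟩
    · cases he : e p
      · have := NF_sup_ne_top x p hp
        obtain ⟨g, hg⟩ : ∃ g, g ∉ NF x ⊔ LSp p := by
          by_contra hc
          push Not at hc
          exact this (eq_top_iff.mpr fun g _ => hc g)
        exact ⟨g, fun _ => by simp [hg]⟩
      · exact ⟨1, fun _ => by simp [Subgroup.one_mem]⟩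
  choose g hg using hg
  obtain ⟨f, hf⟩ := weak_approx' hS.fin g
  -- correct `f` outside `S` by norms
  have hβ : ∀ v : HeightOneSpectrum (𝓞 F), ∃ β ∈ NF x, v ∉ S₀ ∪ S₁ →
      v.valuation F (β : F) = WithZero.exp (-1) ∧
      ∀ v' ∉ S₀ ∪ S₁, v' ≠ v → v'.valuation F (β : F) = 1 := by
    intro v
    by_cases hv : v ∈ S₀ ∪ S₁
    · exact ⟨1, Subgroup.one_mem _, fun h => absurd hv h⟩
    · obtain ⟨β, h1, h2⟩ := hS.split v hv (hcon v fun h => hv (Or.inl h))
      exact ⟨β, h1, fun _ => h2⟩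
  choose β hβ1 hβ2 using hβ
  have hv0 : ∀ v : HeightOneSpectrum (𝓞 F), v.valuation F (f : F) ≠ 0 := fun v =>
    (Valuation.ne_zero_iff _).mpr f.ne_zero
  let n : HeightOneSpectrum (𝓞 F) → ℤ := fun v => WithZero.log (v.valuation F (f : F))
  have hn : ∀ v, v.valuation F (f : F) = WithZero.exp (n v) := fun v =>
    (WithZero.exp_log (hv0 v)).symm
  let T : Finset (HeightOneSpectrum (𝓞 F)) := (finite_ne_one f).toFinset.filter (· ∉ S₀ ∪ S₁)
  let B : Fˣ := ∏ v ∈ T, β v ^ (n v)
  have hB : B ∈ NF x := Subgroup.prod_mem _ fun v _ => Subgroup.zpow_mem _ (hβ1 v) _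
  have hBv : ∀ v ∉ S₀ ∪ S₁, v.valuation F (B : F) = (v.valuation F (f : F))⁻¹ := by
    intro v hv
    have e1 : (B : F) = ∏ v ∈ T, (β v : F) ^ (n v) := by simp [B]
    rw [e1, map_prod]
    by_cases hvT : v ∈ T
    · rw [Finset.prod_eq_single_of_mem v hvT]
      · rw [map_zpow₀, (hβ2 v hv).1, hn v, ← WithZero.exp_neg, ← WithZero.exp_zsmul]
        congr 1
        simp
      · intro v' hv' hne
        have hv'S : v' ∉ S₀ ∪ S₁ := (Finset.mem_filter.mp hv').2
        rw [map_zpow₀, (hβ2 v' hv'S).2 v hv hne.symm, one_zpow]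
    · rw [Finset.prod_eq_one]
      · have : v.valuation F (f : F) = 1 := by
          by_contra h1
          exact hvT (Finset.mem_filter.mpr ⟨(finite_ne_one f).mem_toFinset.mpr h1, hv⟩)
        rw [this, inv_one]
      · intro v' hv'
        have hv'S : v' ∉ S₀ ∪ S₁ := (Finset.mem_filter.mp hv').2
        have hne : v ≠ v' := fun h => hvT (h ▸ hv')
        rw [map_zpow₀, (hβ2 v' hv'S).2 v hv hne, one_zpow]
  refine ⟨f * B, ?_, ?_⟩
  · intro v hv
    rw [Units.val_mul, map_mul, hBv v hv, mul_inv_cancel₀ (hv0 v)]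
  · intro p hp hxp
    rw [← hg p hxp]
    have h1 : f / g p ∈ NF x ⊔ LSp p := Subgroup.mem_sup_right (hf p hp)
    have h2 : B ∈ NF x ⊔ LSp p := Subgroup.mem_sup_left hB
    constructor
    · intro h3
      have h4 := Subgroup.div_mem _ (Subgroup.div_mem _ h3 h2) h1
      rwa [mul_div_assoc, div_self', mul_one, div_div_cancel] at h4
    · intro h3
      have h4 := Subgroup.mul_mem _ (Subgroup.mul_mem _ h1 h3) h2
      rwa [div_mul_cancel] at h4

end Vale.Agent.P011.Arith
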