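import Vale.Agent.P011.Arith.Hasse1

/-!
Existence of primes that split in one quadratic extension and not in another one.
-/

open NumberField IsDedekindDomain

namespace Vale.Agent.P011.Arith

variable {F : Type} [Field F] [NumberField F]

theorem LS_map_sq {E : Type} [Field E] [NumberField E] (w : HeightOneSpectrum (𝓞 E)) {y : Eˣ}
    (h : IsSquare (y : E)) : y ∈ LS (w.valuation E) :=
  Sq_le_LS _ (mem_Sq_iff.mpr h)

/-- A non-square stays a non-square in an independent quadratic extension. -/
theorem not_isSquare_map {E : Type} [Field E] [NumberField E] [Algebra F E]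
    (h2 : Module.finrank F E = 2) {a x : Fˣ} {θ : E} (hθ : θ ^ 2 = algebraMap F E a)
    (ha : ¬ IsSquare (a : F)) (hx : ¬ IsSquare (x : F)) (hax : ¬ IsSquare ((a * x : Fˣ) : F)) :
    ¬ IsSquare (algebraMap F E x) := by
  rintro ⟨z, hz⟩
  have hli : LinearIndependent F ![1, θ] := by
    rw [LinearIndependent.pair_iff]
    intro s t hst
    by_cases ht : t = 0
    · subst ht
      simp only [zero_smul, add_zero, smul_eq_zero, one_ne_zero, or_false] at hst
      exact ⟨hst, rfl⟩
    · exfalso
      apply ha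
      refine ⟨s / t, ?_⟩
      apply (algebraMap F E).injective
      have h3 : θ = -algebraMap F E (s / t) := by
        rw [map_div₀]
        have ht' : algebraMap F E t ≠ 0 := (map_ne_zero _).mpr ht
        rw [Algebra.smul_def, Algebra.smul_def, mul_one] at hst
        field_simp
        linear_combination hst
      rw [← hθ, h3, map_mul]
      ring
  have hb : Submodule.span F (Set.range ![1, θ]) = ⊤ := by
    apply hli.span_eq_top_of_card_eq_finrank'
    simp [h2]
  have hz' : z ∈ Submodule.span F (Set.range ![1, θ]) := hb ▸ Submodule.mem_top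
  rw [Matrix.range_cons, Matrix.range_cons, Matrix.range_empty, Set.union_empty,
    Set.singleton_union, Submodule.mem_span_pair] at hz'
  obtain ⟨p, q, rfl⟩ := hz'
  have e : algebraMap F E x = algebraMap F E (p ^ 2 + a * q ^ 2) + algebraMap F E (2 * p * q) * θ := by
    rw [hz]
    simp only [Algebra.smul_def, map_add, map_mul, map_pow, mul_one]
    rw [← hθ]
    have : algebraMap F E 2 = 2 := map_ofNat _ 2
    rw [this]
    ring
  have e2 : (p ^ 2 + a * q ^ 2 - x) • (1 : E) + (2 * p * q) • θ = 0 := by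
    rw [Algebra.smul_def, Algebra.smul_def, mul_one, map_sub, sub_add_eq_add_sub, ← e, sub_self]
  obtain ⟨e3, e4⟩ := LinearIndependent.pair_iff.mp hli _ _ e2
  have e5 : p * q = 0 := by
    have h2' : (2 : F) ≠ 0 := by norm_num
    have : 2 * (p * q) = 0 := by rw [← mul_assoc]; exact e4
    exact (mul_eq_zero.mp this).resolve_left h2'
  rcases mul_eq_zero.mp e5 with h | h
  · subst h
    apply hax
    refine ⟨a * q, ?_⟩
    rw [Units.val_mul]
    linear_combination (-(a : F)) * e3
  · subst h
    exact hx ⟨p, by linear_combination -e3⟩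

/-- D2 -/
theorem exists_split_nonsplit (a x : Fˣ) (ha : ¬ IsSquare (a : F)) (hx : ¬ IsSquare (x : F))
    (hax : ¬ IsSquare ((a * x : Fˣ) : F))
    (S₀ : Set (HeightOneSpectrum (𝓞 F))) (h : S₀.Finite) :
    ∃ v : HeightOneSpectrum (𝓞 F), v ∉ S₀ ∧ a ∈ LS (v.valuation F) ∧ x ∉ LS (v.valuation F) := by
  obtain ⟨E, _, _, _, h2, θ, hθ⟩ := exists_quad a ha
  let S₁ : Set (HeightOneSpectrum (𝓞 F)) := S₀ ∪ {v | v.valuation F (a : F) ≠ 1} ∪
    {v | v.valuation F (x : F) ≠ 1} ∪ {v | v.valuation F ((Units.mk0 (2 : F) two_ne_zero : Fˣ) : F) ≠ 1}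
  have hS₁ : S₁.Finite := ((h.union (finite_ne_one a)).union (finite_ne_one x)).union
    (finite_ne_one _)
  have hxE : ¬ IsSquare ((Units.map (algebraMap F E : F →* E) x : Eˣ) : E) := by
    simpa using not_isSquare_map h2 hθ ha hx hax
  obtain ⟨w, hw, hxw⟩ := exists_nonsplit _ hxE (ov E S₁) (ov_finite hS₁)
  obtain ⟨v, hv⟩ := exists_below (F := F) w
  have hvS : v ∉ S₁ := fun hvS => hw ⟨v, hvS, hv⟩
  have hxv : x ∉ LS (v.valuation F) := fun hxv => hxw (LS_map hv hxv)
  refine ⟨v, fun h => hvS (Or.inl (Or.inl (Or.inl h))), ?_, hxv⟩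
  by_contra hav
  have ha1 : v.valuation F (a : F) = 1 := by
    by_contra h
    exact hvS (Or.inl (Or.inl (Or.inr h)))
  have hx1 : v.valuation F (x : F) = 1 := by
    by_contra h
    exact hvS (Or.inl (Or.inr h))
  have h21 : v.valuation F (2 : F) = 1 := by
    by_contra h
    exact hvS (Or.inr h)
  have h3 := LS_map hv (unit_sq_mul v h21 a x ha1 hx1 hav hxv)
  apply hxw
  have h4 : Units.map (algebraMap F E : F →* E) a ∈ LS (w.valuation E) := by
    apply LS_map_sq
    exact ⟨θ, by simp [← hθ, sq]⟩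
  rw [map_mul] at h3
  have h5 := Subgroup.mul_mem _ (Subgroup.inv_mem _ h4) h3
  rwa [inv_mul_cancel_left] at h5

end Vale.Agent.P011.Arith
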