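import Vale.Agent.P011.Arith.Hasse2

/-!
Elements that are squares at enough places are squares.
-/

open NumberField IsDedekindDomain

namespace Vale.Agent.P011.Arith

variable {F : Type} [Field F] [NumberField F]

/-- A subgroup containing the squares, the units and an element of odd order is everything. -/
theorem eq_top_of_units {v : HeightOneSpectrum (𝓞 F)} {H : Subgroup Fˣ} (hsq : Sq F ≤ H)
    (hu : ∀ u : Fˣ, v.valuation F (u : F) = 1 → u ∈ H) {g : Fˣ} (hg : g ∈ H) {k : ℤ}
    (hk : v.valuation F (g : F) = WithZero.exp (2 * k + 1)) : H = ⊤ := by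
  obtain ⟨π, hπ⟩ := exists_exp v
  have hπ0 : π ≠ 0 := by
    rintro rfl
    rw [map_zero] at hπ
    exact WithZero.exp_ne_zero hπ.symm
  rw [eq_top_iff]
  intro x _
  have hx0 : v.valuation F (x : F) ≠ 0 := (Valuation.ne_zero_iff _).mpr x.ne_zero
  obtain ⟨n, hn⟩ : ∃ n : ℤ, v.valuation F (x : F) = WithZero.exp n :=
    ⟨_, (WithZero.exp_log hx0).symm⟩
  have key : ∀ (y : Fˣ) (j : ℤ), v.valuation F (y : F) = WithZero.exp (2 * j) → y ∈ H := by
    intro y j hy
    have h1 : y * (Units.mk0 π hπ0 ^ j) ^ 2 ∈ H := by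
      apply hu
      rw [Units.val_mul, map_mul, hy, Units.val_pow_eq_pow_val, Units.val_zpow_eq_zpow_val,
        Units.val_mk0, map_pow, map_zpow₀, hπ, ← WithZero.exp_zsmul, ← WithZero.exp_nsmul,
        ← WithZero.exp_add, ← WithZero.exp_zero]
      congr 1
      simp
    have h2 : (Units.mk0 π hπ0 ^ j) ^ 2 ∈ H := hsq ⟨_, rfl⟩
    have h3 := H.mul_mem h1 (H.inv_mem h2)
    rwa [mul_inv_cancel_right] at h3
  rcases Int.even_or_odd' n with ⟨j, rfl | rfl⟩
  · exact key x j hn
  · have h1 : x * g ∈ H := by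
      apply key _ (j + k + 1)
      rw [Units.val_mul, map_mul, hn, hk, ← WithZero.exp_add]
      congr 1
      ring
    have h3 := H.mul_mem h1 (H.inv_mem hg)
    rwa [mul_inv_cancel_right] at h3

/-- The product of two units is a local square if both or none are. -/
theorem mul_mem_LS_iff {v : HeightOneSpectrum (𝓞 F)} (h2 : v.valuation F (2 : F) = 1) {a b : Fˣ}
    (ha : v.valuation F (a : F) = 1) (hb : v.valuation F (b : F) = 1) :
    a * b ∈ LS (v.valuation F) ↔ (a ∈ LS (v.valuation F) ↔ b ∈ LS (v.valuation F)) := by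
  by_cases h1 : a ∈ LS (v.valuation F)
  · simp only [h1, true_iff]
    exact Subgroup.mul_mem_cancel_left _ h1
  · by_cases h3 : b ∈ LS (v.valuation F)
    · simp only [h1, h3, iff_true, iff_false]
      rwa [Subgroup.mul_mem_cancel_right _ h3]
    · simp only [h1, h3, iff_true]
      exact unit_sq_mul v h2 a b ha hb h1 h3

/-- Units are norms from an extension of even order. -/
theorem unit_norm_even {v : HeightOneSpectrum (𝓞 F)} (h2 : v.valuation F (2 : F) = 1) {x u : Fˣ}
    {k : ℤ} (hx : v.valuation F (x : F) = WithZero.exp (2 * k))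
    (hu : v.valuation F (u : F) = 1) : u ∈ NF x ⊔ LS (v.valuation F) := by
  obtain ⟨π, hπ⟩ := exists_exp v
  have hπ0 : π ≠ 0 := by
    rintro rfl
    rw [map_zero] at hπ
    exact WithZero.exp_ne_zero hπ.symm
  have h1 : v.valuation F ((x * (Units.mk0 π hπ0 ^ k) ^ 2 : Fˣ) : F) = 1 := by
    rw [Units.val_mul, map_mul, hx, Units.val_pow_eq_pow_val, Units.val_zpow_eq_zpow_val,
      Units.val_mk0, map_pow, map_zpow₀, hπ, ← WithZero.exp_zsmul, ← WithZero.exp_nsmul,
      ← WithZero.exp_add, ← WithZero.exp_zero]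
    congr 1
    simp
  have h3 := unit_norm v h2 _ u h1 hu
  rwa [NF_mul_sq] at h3

omit [NumberField F] in
theorem neg_mem_NF (x : Fˣ) : -x ∈ NF x := ⟨0, 1, by simp⟩

/-- At a place of odd order the units which are norms are the local squares. -/
theorem unit_norm_odd {v : HeightOneSpectrum (𝓞 F)} (h2 : v.valuation F (2 : F) = 1) {x u : Fˣ}
    {k : ℤ} (hx : v.valuation F (x : F) = WithZero.exp (2 * k + 1))
    (hu : v.valuation F (u : F) = 1) (hxv : x ∉ LS (v.valuation F)) :
    u ∈ NF x ⊔ LS (v.valuation F) ↔ u ∈ LS (v.valuation F) := by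
  refine ⟨fun h => ?_, fun h => Subgroup.mem_sup_right h⟩
  by_contra hn
  refine NF_sup_ne_top x (.inl v) hxv ?_
  refine eq_top_of_units (v := v) (k := k) ((Sq_le_LS _).trans le_sup_right) ?_
    (Subgroup.mem_sup_left (neg_mem_NF x)) ?_
  · intro u' hu'
    change u' ∈ NF x ⊔ LS (v.valuation F)
    by_cases h3 : u' ∈ LS (v.valuation F)
    · exact Subgroup.mem_sup_right h3
    · have h4 : u * u' ∈ NF x ⊔ LS (v.valuation F) :=
        Subgroup.mem_sup_right (unit_sq_mul v h2 u u' hu hu' hn h3)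
      rwa [Subgroup.mul_mem_cancel_left _ h] at h4
  · rw [Units.val_neg, Valuation.map_neg, hx]

/-- Claim K -/
theorem mem_Sq_of_local {S T : Set (HeightOneSpectrum (𝓞 F))} (hS : S.Finite) (hT : T.Finite)
    (hPr : Pr S)
    (hsurj : ∀ e : HeightOneSpectrum (𝓞 F) → Bool, ∃ u ∈ S.unit F, ∀ w ∈ T,
      (u ∈ LS (w.valuation F) ↔ e w = true))
    {x : Fˣ} (hx : x ∈ (S ∪ T).unit F) (hxS : ∀ v ∈ S, x ∈ LS (v.valuation F))
    (hxR : ∀ φ : F →+* ℝ, x ∈ LSR φ) : x ∈ Sq F := by
  classical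
  by_contra hcon
  have hns : ¬ IsSquare (x : F) := fun h => hcon (mem_Sq_iff.mpr h)
  obtain ⟨S₁, hS₁, hgood⟩ := exists_good x hns
  have hG := hgood (S ∪ T ∪ S₁) Set.subset_union_right ((hS.union hT).union hS₁)
  refine not_good_of_patterns x hns hG ?_
  intro e
  have hord : ∀ v : HeightOneSpectrum (𝓞 F), ∃ n : ℤ, v.valuation F (x : F) = WithZero.exp n :=
    fun v => ⟨_, (WithZero.exp_log ((Valuation.ne_zero_iff _).mpr x.ne_zero)).symm⟩
  -- the uniformizers
  have hπ : ∀ v : HeightOneSpectrum (𝓞 F), ∃ π : Fˣ, v ∉ S →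
      v.valuation F (π : F) = WithZero.exp (-1) ∧
      ∀ v' ∉ S, v' ≠ v → v'.valuation F (π : F) = 1 := by
    intro v
    by_cases hv : v ∈ S
    · exact ⟨1, fun h => absurd hv h⟩
    · obtain ⟨β, h2⟩ := hPr.2 v hv
      exact ⟨β, fun _ => h2⟩
  choose π hπ using hπ
  have hfin : {v | v ∈ S ∪ T ∪ S₁ ∧ v ∉ S ∧ (∃ k : ℤ, v.valuation F (x : F) = WithZero.exp (2 * k)) ∧
      e (.inl v) = false}.Finite := ((hS.union hT).union hS₁).subset fun v hv => hv.1
  let R : Finset (HeightOneSpectrum (𝓞 F)) := hfin.toFinset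
  have hR : ∀ v, v ∈ R ↔ (v ∈ S ∪ T ∪ S₁ ∧ v ∉ S ∧
      (∃ k : ℤ, v.valuation F (x : F) = WithZero.exp (2 * k)) ∧ e (.inl v) = false) := fun v =>
    hfin.mem_toFinset
  let u₀ : Fˣ := ∏ v ∈ R, π v
  have hu₀ : ∀ v ∉ S, v ∉ R → v.valuation F (u₀ : F) = 1 := by
    intro v hv hvR
    have e1 : (u₀ : F) = ∏ v ∈ R, (π v : F) := by simp [u₀]
    rw [e1, map_prod, Finset.prod_eq_one]
    intro v' hv'
    exact (hπ v' ((hR v').mp hv').2.1).2 v hv fun h => hvR (h ▸ hv')
  have hu₀' : ∀ v ∈ R, v.valuation F (u₀ : F) = WithZero.exp (-1) := by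
    intro v hvR
    have hv := ((hR v).mp hvR).2.1
    have e1 : (u₀ : F) = ∏ v ∈ R, (π v : F) := by simp [u₀]
    rw [e1, map_prod, Finset.prod_eq_single_of_mem v hvR]
    · exact (hπ v hv).1
    · intro v' hv' hne
      exact (hπ v' ((hR v').mp hv').2.1).2 v hv hne.symm
  obtain ⟨u₁, hu₁, hu₁'⟩ := hsurj (fun w => decide (u₀ ∈ LS (w.valuation F) ↔ e (.inl w) = true))
  refine ⟨u₀ * u₁, ?_, ?_⟩
  · intro v hv
    have hvS : v ∉ S := fun h => hv (Or.inl (Or.inl h))
    rw [Units.val_mul, map_mul, hu₀ v hvS fun h => hv ((hR v).mp h).1, hu₁ v hvS, one_mul]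
  · rintro (v | φ) hp hxp
    swap
    · exact absurd (hxR φ) hxp
    have hvS'' : v ∈ S ∪ T ∪ S₁ := inl_mem_SP.mp hp
    have hvS : v ∉ S := fun h => hxp (hxS v h)
    have h2 := dyadic_of_Pr hPr hvS
    change u₀ * u₁ ∈ NF x ⊔ LS (v.valuation F) ↔ _
    obtain ⟨n, hn⟩ := hord v
    rcases Int.even_or_odd' n with ⟨k, rfl | rfl⟩
    · cases he : e (.inl v)
      · have hvR : v ∈ R := (hR v).mpr ⟨hvS'', hvS, ⟨k, hn⟩, he⟩
        simp only [Bool.false_eq_true, iff_false]
        intro h3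
        refine NF_sup_ne_top x (.inl v) hxp ?_
        refine eq_top_of_units (v := v) (k := -1) ((Sq_le_LS _).trans le_sup_right)
          (fun u hu => unit_norm_even h2 hn hu) h3 ?_
        rw [Units.val_mul, map_mul, hu₀' v hvR, hu₁ v hvS, mul_one]
        congr 1
      · simp only [iff_true]
        have hvR : v ∉ R := fun h => by
          have := ((hR v).mp h).2.2.2
          rw [he] at this
          cases this
        refine unit_norm_even h2 hn ?_
        rw [Units.val_mul, map_mul, hu₀ v hvS hvR, hu₁ v hvS, one_mul]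
    · have hvR : v ∉ R := fun h => by
        obtain ⟨j, hj⟩ := ((hR v).mp h).2.2.1
        rw [hn] at hj
        have := WithZero.exp_injective hj
        omega
      have hvT : v ∈ T := by
        by_contra hvT
        have h3 := hx v fun h => h.elim hvS hvT
        rw [hn, ← WithZero.exp_zero] at h3
        have := WithZero.exp_injective h3
        omega
      have h3 : v.valuation F (u₀ : F) = 1 := hu₀ v hvS hvR
      have h4 : v.valuation F (u₁ : F) = 1 := hu₁ v hvS
      rw [unit_norm_odd h2 hn (by rw [Units.val_mul, map_mul, h3, h4, one_mul]) hxp,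
        mul_mem_LS_iff h2 h3 h4, hu₁' v hvT, decide_eq_true_iff]
      tauto

end Vale.Agent.P011.Arith
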