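import Vale.Agent.P011.Arith.Hasse3

/-!
The Hasse norm theorem for quadratic extensions.
-/

open NumberField IsDedekindDomain

namespace Vale.Agent.P011.Arith

variable {F : Type} [Field F] [NumberField F]

omit [NumberField F] in
theorem index_LSR (φ : F →+* ℝ) : (LSR φ).index = 2 := by
  rw [Subgroup.index_eq_two_iff]
  refine ⟨-1, fun b => ?_⟩
  have h1 : (-1 : Fˣ) ∉ LSR φ := neg_one_notMem_LSR φ
  by_cases hb : b ∈ LSR φ
  · right
    refine ⟨hb, fun h => h1 ?_⟩
    rwa [Subgroup.mul_mem_cancel_left _ hb] at h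
  · left
    exact ⟨mul_mem_LSR hb h1, hb⟩

theorem index_LSp_ne (p : Pl F) : (LSp p).index ≠ 0 := by
  rcases p with v | φ
  · exact LS_finiteIndex v
  · change (LSR φ).index ≠ 0
    rw [index_LSR]
    norm_num

/-- The auxiliary set of primes. -/
structure Aux (a : Fˣ) (S : Set (HeightOneSpectrum (𝓞 F)))
    (T : Finset (HeightOneSpectrum (𝓞 F))) : Prop where
  disj : ∀ w ∈ T, w ∉ S
  split : ∀ w ∈ T, a ∈ LS (w.valuation F)
  surj : ∀ e : HeightOneSpectrum (𝓞 F) → Bool, ∃ u ∈ S.unit F, ∀ w ∈ T,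
    (u ∈ LS (w.valuation F) ↔ e w = true)

theorem Aux.le {a : Fˣ} {S : Set (HeightOneSpectrum (𝓞 F))}
    {T : Finset (HeightOneSpectrum (𝓞 F))} (h : Aux a S T) (hS : S.Finite) :
    T.card ≤ S.ncard + Fintype.card (InfinitePlace F) := by
  classical
  have h1 := two_pow_le_relIndex (ι := T) (Sq F) (S.unit F) (fun w => LS (w.1.valuation F))
    (fun w => Sq_le_LS _) ?_ ?_
  · rw [Sq_relIndex_unit S hS, Fintype.card_coe] at h1
    exact (Nat.pow_le_pow_iff_right (by norm_num)).mp h1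
  · intro e
    obtain ⟨u, hu, hu'⟩ := h.surj (fun w => if hw : w ∈ T then e ⟨w, hw⟩ else true)
    refine ⟨u, hu, ?_⟩
    rintro ⟨w, hw⟩
    have := hu' w hw
    rwa [dif_pos hw] at this
  · rw [Sq_relIndex_unit S hS]
    positivity

/-- There is an auxiliary set separating the classes modulo `a`. -/
theorem exists_aux (a : Fˣ) {S : Set (HeightOneSpectrum (𝓞 F))} (ha : ¬ IsSquare (a : F))
    (hS : S.Finite) (hPr : Pr S) :
    ∃ T : Finset (HeightOneSpectrum (𝓞 F)), Aux a S T ∧ ∀ x ∈ S.unit F,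
      (∀ w ∈ T, x ∈ LS (w.valuation F)) → x ∈ Sq F ∨ a * x ∈ Sq F := by
  classical
  let P : ℕ → Prop := fun n => ∃ T : Finset (HeightOneSpectrum (𝓞 F)), Aux a S T ∧ T.card = n
  have h0 : P 0 := ⟨∅, ⟨by simp, by simp, fun e => ⟨1, Subgroup.one_mem _, by simp⟩⟩, rfl⟩
  obtain ⟨n, ⟨T, hT, hn⟩, hmax⟩ : ∃ n, P n ∧ ∀ m, P m → m ≤ n := by
    have hb : ∀ m, P m → m ≤ S.ncard + Fintype.card (InfinitePlace F) := by
      rintro m ⟨T, hT, rfl⟩
      exact hT.le hS
    refine ⟨Nat.findGreatest P (S.ncard + Fintype.card (InfinitePlace F)),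
      Nat.findGreatest_spec (Nat.zero_le _) h0, fun m hm => Nat.le_findGreatest (hb m hm) hm⟩
  refine ⟨T, hT, ?_⟩
  intro x hx hxT
  by_contra hcon
  push Not at hcon
  obtain ⟨h1, h2⟩ := hcon
  rw [mem_Sq_iff] at h1 h2
  obtain ⟨v, hv, hav, hxv⟩ := exists_split_nonsplit a x ha h1 h2 (S ∪ T) (hS.union T.finite_toSet)
  have hvS : v ∉ S := fun h => hv (Or.inl h)
  have hvT : v ∉ T := fun h => hv (Or.inr h)
  have h2v := dyadic_of_Pr hPr hvS
  have h3 : Aux a S (insert v T) := by
    refine ⟨?_, ?_, ?_⟩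
    · intro w hw
      rcases Finset.mem_insert.mp hw with rfl | hw
      · exact hvS
      · exact hT.disj w hw
    · intro w hw
      rcases Finset.mem_insert.mp hw with rfl | hw
      · exact hav
      · exact hT.split w hw
    · intro e
      obtain ⟨u, hu, hu'⟩ := hT.surj e
      by_cases h4 : u ∈ LS (v.valuation F) ↔ e v = true
      · refine ⟨u, hu, ?_⟩
        intro w hw
        rcases Finset.mem_insert.mp hw with rfl | hw
        · exact h4
        · exact hu' w hw
      · refine ⟨u * x, Subgroup.mul_mem _ hu hx, ?_⟩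
        intro w hw
        rcases Finset.mem_insert.mp hw with rfl | hw
        · rw [mul_mem_LS_iff h2v (hu _ hvS) (hx _ hvS)]
          tauto
        · rw [Subgroup.mul_mem_cancel_right _ (hxT w hw)]
          exact hu' w hw
  have h4 := hmax _ ⟨_, h3, rfl⟩
  rw [Finset.card_insert_of_notMem hvT, hn] at h4
  omega

/-- The size of the auxiliary set. -/
theorem card_aux (a : Fˣ) {S : Set (HeightOneSpectrum (𝓞 F))} (ha : ¬ IsSquare (a : F))
    (hS : S.Finite) (hPr : Pr S) (haS : a ∈ S.unit F) {T : Finset (HeightOneSpectrum (𝓞 F))}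
    (hT : Aux a S T) (hx : ∀ x ∈ S.unit F,
      (∀ w ∈ T, x ∈ LS (w.valuation F)) → x ∈ Sq F ∨ a * x ∈ Sq F) :
    T.card + 1 = S.ncard + Fintype.card (InfinitePlace F) := by
  classical
  let K : Subgroup Fˣ := (⨅ w : T, LS (w.1.valuation F)) ⊓ S.unit F
  have hmemK : ∀ x, x ∈ K ↔ (∀ w ∈ T, x ∈ LS (w.valuation F)) ∧ x ∈ S.unit F := by
    intro x
    simp only [K, Subgroup.mem_inf, Subgroup.mem_iInf, Subtype.forall]
  have hKS : K ≤ S.unit F := inf_le_right
  have hSqK : Sq F ⊓ S.unit F ≤ K := by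
    rintro x ⟨h1, h2⟩
    exact (hmemK x).mpr ⟨fun w _ => Sq_le_LS _ h1, h2⟩
  -- the total index
  have hsq : (Sq F ⊓ S.unit F).relIndex (S.unit F) =
      2 ^ (S.ncard + Fintype.card (InfinitePlace F)) := by
    rw [Subgroup.inf_relIndex_right, Sq_relIndex_unit S hS]
  have hmul := Subgroup.relIndex_mul_relIndex (Sq F ⊓ S.unit F) K (S.unit F) hSqK hKS
  rw [hsq] at hmul
  have hKne : K.relIndex (S.unit F) ≠ 0 := by
    intro h
    rw [h, mul_zero] at hmul
    exact (pow_pos (by norm_num : 0 < 2) _).ne hmul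
  -- the lower bound
  have hlow : 2 ^ T.card ≤ K.relIndex (S.unit F) := by
    have h1 := two_pow_le_relIndex (ι := T) K (S.unit F) (fun w => LS (w.1.valuation F))
      (fun w x hx => ((hmemK x).mp hx).1 w.1 w.2) ?_ hKne
    · rwa [Fintype.card_coe] at h1
    · intro e
      obtain ⟨u, hu, hu'⟩ := hT.surj (fun w => if hw : w ∈ T then e ⟨w, hw⟩ else true)
      refine ⟨u, hu, ?_⟩
      rintro ⟨w, hw⟩
      have := hu' w hw
      rwa [dif_pos hw] at this
  -- the upper bound
  have hup : K.relIndex (S.unit F) ≤ 2 ^ T.card := by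
    let f : (S.unit F) → (T → Bool) := fun u w => decide (u.1 ∈ LS (w.1.valuation F))
    have hf : ∀ u u' : S.unit F, f u = f u' → u.1⁻¹ * u'.1 ∈ K := by
      intro u u' h
      rw [hmemK]
      refine ⟨?_, Subgroup.mul_mem _ (Subgroup.inv_mem _ u.2) u'.2⟩
      intro w hw
      have h1 := congrFun h ⟨w, hw⟩
      simp only [f, decide_eq_decide] at h1
      have hwS := hT.disj w hw
      have h3 : w.valuation F ((u.1⁻¹ : Fˣ) : F) = 1 := (Subgroup.inv_mem _ u.2) w hwS
      rw [mul_mem_LS_iff (dyadic_of_Pr hPr hwS) h3 (u'.2 w hwS), Subgroup.inv_mem_iff]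
      exact h1
    let g : (S.unit F) ⧸ K.subgroupOf (S.unit F) → (T → Bool) := fun q => f q.out
    have hg : Function.Injective g := by
      intro q q' h
      have h1 := hf _ _ h
      rw [← QuotientGroup.out_eq' q, ← QuotientGroup.out_eq' q']
      rw [QuotientGroup.eq, Subgroup.mem_subgroupOf]
      exact h1
    have := Nat.card_le_card_of_injective g hg
    rw [Nat.card_eq_fintype_card (α := T → Bool)] at this
    simpa [Subgroup.relIndex, Subgroup.index] using this
  -- the small index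
  have hsmall : (Sq F ⊓ S.unit F).relIndex K = 2 := by
    rw [Subgroup.relIndex, Subgroup.index_eq_two_iff]
    have haK : a ∈ K := (hmemK a).mpr ⟨hT.split, haS⟩
    refine ⟨⟨a, haK⟩, ?_⟩
    rintro ⟨b, hb⟩
    simp only [Subgroup.mem_subgroupOf, Subgroup.mem_inf, MulMemClass.mk_mul_mk]
    have hb' := (hmemK b).mp hb
    have h1 := hx b hb'.2 hb'.1
    have h2 : a ∉ Sq F := fun h => ha (mem_Sq_iff.mp h)
    have h3 : b * a ∈ S.unit F := Subgroup.mul_mem _ hb'.2 haS
    by_cases h4 : b ∈ Sq F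
    · right
      refine ⟨⟨h4, hb'.2⟩, ?_⟩
      rintro ⟨h5, _⟩
      exact h2 ((Subgroup.mul_mem_cancel_left _ h4).mp h5)
    · left
      refine ⟨⟨?_, h3⟩, fun h => h4 h.1⟩
      rw [mul_comm]
      exact h1.resolve_left h4
  rw [hsmall, le_antisymm hup hlow, ← pow_succ'] at hmul
  exact Nat.pow_right_injective le_rfl hmul

/-- Both parts of the main theorem for a large set of places. -/
theorem hasse_core (a : Fˣ) (ha : ¬ IsSquare (a : F)) (S₀ : Set (HeightOneSpectrum (𝓞 F)))
    (hS₀ : S₀.Finite) : ∃ S : Set (HeightOneSpectrum (𝓞 F)), S₀ ⊆ S ∧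
      (∀ b ∈ S.unit F, (∀ p ∈ SP S, b ∈ NF a ⊔ LSp p) → b ∈ NF a) ∧
      (∀ p ∈ SP S, a ∉ LSp p → (NF a ⊔ LSp p).index = 2) := by
  classical
  obtain ⟨S₁, hS₁, hgood⟩ := exists_good a ha
  have hSG := hgood (S₀ ∪ S₁) Set.subset_union_right (hS₀.union hS₁)
  set S := S₀ ∪ S₁ with hSdef
  have hS := hSG.fin
  obtain ⟨T, hT, hx⟩ := exists_aux a ha hS hSG.pr
  have hcard := card_aux a ha hS hSG.pr hSG.unit hT hx
  have hTG : Good a (S ∪ T) := hgood (S ∪ T) (Set.subset_union_right.trans Set.subset_union_left)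
    (hS.union T.finite_toSet)
  have hW : S.unit F ≤ (S ∪ T).unit F := fun x hx v hv => hx v fun h => hv (Or.inl h)
  have hfin := SP_finite hS
  have : Fintype (SP S) := hfin.fintype
  set W := (S ∪ (T : Set (HeightOneSpectrum (𝓞 F)))).unit F with hWdef
  -- `W` and its squares
  have hWsq : (Sq F).relIndex W = 2 ^ (2 * T.card + 1) := by
    rw [hWdef, Sq_relIndex_unit _ (hS.union T.finite_toSet), Set.ncard_union_eq ?_ hS
      T.finite_toSet, Set.ncard_coe_finset]
    · congr 1
      omega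
    · rw [Set.disjoint_left]
      intro w hwS hwT
      exact hT.disj w hwT hwS
  have hK : (⨅ p : SP S, LSp p.1).relIndex W = (Sq F).relIndex W := by
    rw [← Subgroup.inf_relIndex_right, ← Subgroup.inf_relIndex_right (Sq F)]
    congr 1
    ext x
    simp only [Subgroup.mem_inf, Subgroup.mem_iInf]
    constructor
    · rintro ⟨h1, h2⟩
      refine ⟨?_, h2⟩
      refine mem_Sq_of_local hS T.finite_toSet hSG.pr hT.surj h2 ?_ ?_
      · intro v hv
        exact h1 ⟨.inl v, inl_mem_SP.mpr hv⟩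
      · intro φ
        exact h1 ⟨.inr φ, inr_mem_SP⟩
    · rintro ⟨h1, h2⟩
      exact ⟨fun p => Sq_le_LSp p.1 h1, h2⟩
  -- the product of the local indices
  have hprod : ∏ p : SP S, (LSp p.1).index ≤ 2 ^ (2 * T.card + 2) := by
    have e1 : ∏ p : SP S, (LSp p.1).index = (∏ v ∈ hS.toFinset, (LS (v.valuation F)).index) *
        2 ^ Nat.card (F →+* ℝ) := by
      have : Fintype (F →+* ℝ) := Fintype.ofFinite _
      have e2 : (SP S).toFinset = hS.toFinset.disjSum Finset.univ := by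
        ext p
        rcases p with v | φ
        · simp [inl_mem_SP]
        · simp [inr_mem_SP]
      rw [Finset.prod_set_coe (SP S) (f := fun p => (LSp p).index), e2, Finset.prod_disjSum]
      congr 1
      rw [Finset.prod_congr rfl (fun φ _ => show (LSp (Sum.inr φ : Pl F)).index = 2 from
        index_LSR φ), Finset.prod_const, Finset.card_univ, Nat.card_eq_fintype_card]
    rw [e1, card_real]
    have h1 := prod_LS_index_le hS.toFinset (fun v hv => hS.mem_toFinset.mpr (hSG.pr.1 v hv))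
    rw [← Set.ncard_eq_toFinset_card _ hS] at h1
    have h2 := InfinitePlace.card_add_two_mul_card_eq_rank F
    have h3 := InfinitePlace.card_eq_nrRealPlaces_add_nrComplexPlaces F
    calc _ ≤ 4 ^ S.ncard * 2 ^ Module.finrank ℚ F * 2 ^ InfinitePlace.nrRealPlaces F :=
          Nat.mul_le_mul_right _ h1
      _ = 2 ^ (2 * T.card + 2) := by
          rw [show (4 : ℕ) = 2 ^ 2 by norm_num, ← pow_mul, ← pow_add, ← pow_add]
          congr 1
          omega
  have hmain := prod_index_le (ι := SP S) W (fun p => LSp p.1) (fun p => NF a ⊔ LSp p.1)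
    (fun p => le_sup_right) (fun p => index_LSp_ne p.1) (by
      rw [hK, hWsq]
      calc _ ≤ 2 ^ (2 * T.card + 2) := hprod
        _ = 2 * 2 ^ (2 * T.card + 1) := by ring)
  -- the norm index
  have htc : tc a (S ∪ T) = tc a S := by
    rw [tc_eq a hTG.fin, tc_eq a hS]
    congr 1
    ext p
    rcases p with v | φ
    · simp only [Set.mem_ofPred_eq, inl_mem_SP]
      constructor
      · rintro ⟨h1 | h1, h2⟩
        · exact ⟨h1, h2⟩
        · exact absurd (hT.split v h1) h2
      · rintro ⟨h1, h2⟩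
        exact ⟨Or.inl h1, h2⟩
    · simp [inr_mem_SP]
  have hidx := hTG.idx
  rw [htc] at hidx
  change (NF a).relIndex W * 2 = _ at hidx
  have hle : NF a ≤ ⨅ p : SP S, NF a ⊔ LSp p.1 := le_iInf fun p => le_sup_left
  have hdvd : (⨅ p : SP S, NF a ⊔ LSp p.1).relIndex W ∣ (NF a).relIndex W :=
    Subgroup.relIndex_dvd_of_le_left W hle
  have hNne : (NF a).relIndex W ≠ 0 := by
    intro h
    rw [h, zero_mul] at hidx
    exact (pow_pos (by norm_num : 0 < 2) _).ne hidx
  have hle2 := Nat.le_of_dvd (Nat.pos_of_ne_zero hNne) hdvd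
  -- the lower bound
  have hge : ∀ p : SP S, (if a ∈ LSp p.1 then 1 else 2) ≤ (NF a ⊔ LSp p.1).index := by
    intro p
    have h0 : (NF a ⊔ LSp p.1).index ≠ 0 := fun h0 => index_LSp_ne p.1
      (Nat.eq_zero_of_zero_dvd (h0 ▸ Subgroup.index_dvd_of_le le_sup_right))
    split_ifs with h
    · omega
    · have h1 : (NF a ⊔ LSp p.1).index ≠ 1 := fun h1 =>
        NF_sup_ne_top a p.1 h (Subgroup.index_eq_one.mp h1)
      omega
  have hpow : ∏ p : SP S, (if a ∈ LSp p.1 then 1 else 2) = 2 ^ tc a S := by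
    rw [Finset.prod_ite, Finset.prod_const_one, one_mul, Finset.prod_const, tc_eq a hS]
    congr 1
    rw [Set.ncard_eq_toFinset_card _ ((SP_finite hS).subset fun p hp => hp.1),
      ← Finset.card_map (Function.Embedding.subtype _)]
    congr 1
    ext p
    simp only [Finset.mem_map, Finset.mem_filter, Finset.mem_univ, true_and,
      Function.Embedding.subtype_apply, Subtype.exists, exists_and_left, exists_prop,
      exists_eq_right_right, Set.Finite.mem_toFinset, Set.mem_ofPred_eq]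
    tauto
  have hprod2 : 2 ^ tc a S ≤ ∏ p : SP S, (NF a ⊔ LSp p.1).index := by
    rw [← hpow]
    exact Finset.prod_le_prod' fun p _ => hge p
  have heq : (⨅ p : SP S, NF a ⊔ LSp p.1).relIndex W = (NF a).relIndex W := by omega
  refine ⟨S, Set.subset_union_left, ?_, ?_⟩
  · intro b hb hb'
    have h1 : b ∈ ⨅ p : SP S, NF a ⊔ LSp p.1 := by
      rw [Subgroup.mem_iInf]
      exact fun p => hb' p.1 p.2
    have h2 := Subgroup.relIndex_mul_relIndex (NF a ⊓ W) ((⨅ p : SP S, NF a ⊔ LSp p.1) ⊓ W) W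
      (inf_le_inf_right W hle) inf_le_right
    rw [Subgroup.inf_relIndex_right, Subgroup.inf_relIndex_right, heq] at h2
    have h3 : (NF a ⊓ W).relIndex ((⨅ p : SP S, NF a ⊔ LSp p.1) ⊓ W) = 1 :=
      Nat.eq_of_mul_eq_mul_right (Nat.pos_of_ne_zero hNne) (by rw [h2, one_mul])
    exact (Subgroup.relIndex_eq_one.mp h3 (Subgroup.mem_inf.mpr ⟨h1, hW hb⟩)).1
  · have h1 : ∏ p : SP S, (if a ∈ LSp p.1 then 1 else 2) =
        ∏ p : SP S, (NF a ⊔ LSp p.1).index := by
      rw [hpow]
      omega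
    intro p hp hap
    by_contra h3
    have h4 := hge ⟨p, hp⟩
    rw [if_neg hap] at h4
    refine absurd h1 (ne_of_lt (Finset.prod_lt_prod (fun p _ => ?_) (fun p _ => hge p)
      ⟨⟨p, hp⟩, Finset.mem_univ _, ?_⟩))
    · split_ifs <;> norm_num
    · rw [if_neg hap]
      exact lt_of_le_of_ne h4 (Ne.symm h3)

/-- D3: the Hasse norm theorem for quadratic extensions. -/
theorem hasse_norm (a b : Fˣ) (h : ∀ p : Pl F, b ∈ NF a ⊔ LSp p) : b ∈ NF a := by
  by_cases ha : IsSquare (a : F)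
  · rw [NF_eq_top (mem_Sq_iff.mpr ha)]
    exact Subgroup.mem_top b
  · obtain ⟨S, hS, h1, _⟩ := hasse_core a ha _ (finite_ne_one b)
    refine h1 b ?_ (fun p _ => h p)
    intro v hv
    by_contra h2
    exact hv (hS h2)

/-- D4: the local norm index. -/
theorem local_index_two (v : HeightOneSpectrum (𝓞 F)) (a : Fˣ) (ha : a ∉ LS (v.valuation F)) :
    (NF a ⊔ LS (v.valuation F)).index = 2 := by
  have ha' : ¬ IsSquare (a : F) := fun h => ha (Sq_le_LS _ (mem_Sq_iff.mpr h))
  obtain ⟨S, hS, _, h1⟩ := hasse_core a ha' {v} (Set.finite_singleton v)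
  exact h1 (.inl v) (inl_mem_SP.mpr (hS rfl)) ha

end Vale.Agent.P011.Arith
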