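import Mathlib

/-!
Index computations in commutative groups.
-/

namespace Vale.Agent.P011.Arith

variable {G : Type*} [CommGroup G]

/-- A group which surjects on a set of sign patterns is large. -/
theorem two_pow_le_relIndex {ι : Type*} [Fintype ι] (K U : Subgroup G) (H : ι → Subgroup G)
    (hK : ∀ i, K ≤ H i) (h : ∀ e : ι → Bool, ∃ u ∈ U, ∀ i, (u ∈ H i ↔ e i = true))
    (hne : K.relIndex U ≠ 0) : 2 ^ Fintype.card ι ≤ K.relIndex U := by
  classical
  choose u hu hue using h
  have hfin : Finite (U ⧸ K.subgroupOf U) := by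
    have : (K.subgroupOf U).FiniteIndex := ⟨hne⟩
    exact Subgroup.finite_quotient_of_finiteIndex
  let f : (ι → Bool) → U ⧸ K.subgroupOf U := fun e => QuotientGroup.mk ⟨u e, hu e⟩
  have hf : Function.Injective f := by
    intro e e' hee
    have h1 := QuotientGroup.eq.mp hee
    rw [Subgroup.mem_subgroupOf] at h1
    have h1 : (u e)⁻¹ * u e' ∈ K := h1
    funext i
    have h2 := hK i h1
    have h3 : u e ∈ H i ↔ u e' ∈ H i := by
      constructor
      · intro h4
        have := (H i).mul_mem h4 h2
        rwa [mul_inv_cancel_left] at this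
      · intro h4
        have := (H i).mul_mem h4 ((H i).inv_mem h2)
        rwa [mul_inv_rev, inv_inv, mul_inv_cancel_left] at this
    rw [hue, hue] at h3
    exact Bool.eq_iff_iff.mpr h3
  have := Nat.card_le_card_of_injective f hf
  rw [Nat.card_eq_fintype_card] at this
  simpa [Subgroup.relIndex, Subgroup.index] using this

/-- If the image of `W` in the product of the `G / L i` has index at most two, then so does its
image in the product of the `G / H i`. -/
theorem prod_index_le {ι : Type*} [Fintype ι] (W : Subgroup G) (L H : ι → Subgroup G)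
    (hLH : ∀ i, L i ≤ H i) (hL : ∀ i, (L i).index ≠ 0)
    (h : ∏ i, (L i).index ≤ 2 * (⨅ i, L i).relIndex W) :
    ∏ i, (H i).index ≤ 2 * (⨅ i, H i).relIndex W := by
  classical
  have hfL : ∀ i, Finite (G ⧸ L i) := fun i => by
    have : (L i).FiniteIndex := ⟨hL i⟩
    exact Subgroup.finite_quotient_of_finiteIndex
  have hH : ∀ i, (H i).index ≠ 0 := fun i h0 =>
    hL i (Nat.eq_zero_of_zero_dvd (h0 ▸ Subgroup.index_dvd_of_le (hLH i)))
  have hfH : ∀ i, Finite (G ⧸ H i) := fun i => by
    have : (H i).FiniteIndex := ⟨hH i⟩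
    exact Subgroup.finite_quotient_of_finiteIndex
  let p : G →* ((i : ι) → G ⧸ L i) := MonoidHom.pi (fun i => QuotientGroup.mk' (L i))
  let q : ((i : ι) → G ⧸ L i) →* ((i : ι) → G ⧸ H i) :=
    MonoidHom.pi (fun i => (QuotientGroup.map (L i) (H i) (MonoidHom.id G) (hLH i)).comp
      (Pi.evalMonoidHom _ i))
  have hq : Function.Surjective q := by
    intro y
    choose g hg using fun i => QuotientGroup.mk_surjective (y i)
    refine ⟨fun i => QuotientGroup.mk (g i), ?_⟩
    funext i
    exact hg i
  have hcard : ∀ (M : ι → Subgroup G), (∀ i, Finite (G ⧸ M i)) →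
      Nat.card (W.map (MonoidHom.pi (fun i => QuotientGroup.mk' (M i)) :
        G →* ((i : ι) → G ⧸ M i))) = (⨅ i, M i).relIndex W := by
    intro M hM
    rw [← Subgroup.relIndex_ker]
    congr 1
    ext x
    simp only [MonoidHom.mem_ker, Subgroup.mem_iInf]
    constructor
    · intro hx i
      have h1 : (QuotientGroup.mk x : G ⧸ M i) = 1 := congrFun hx i
      exact (QuotientGroup.eq_one_iff x).mp h1
    · intro hx
      funext i
      exact (QuotientGroup.eq_one_iff x).mpr (hx i)
  have h1 : Nat.card (W.map p) * (W.map p).index = ∏ i, (L i).index := by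
    rw [Subgroup.card_mul_index, Nat.card_pi]
    rfl
  have h2 : Nat.card ((W.map p).map q) * ((W.map p).map q).index = ∏ i, (H i).index := by
    rw [Subgroup.card_mul_index, Nat.card_pi]
    rfl
  have h3 : (W.map p).map q = W.map (MonoidHom.pi (fun i => QuotientGroup.mk' (H i)) :
        G →* ((i : ι) → G ⧸ H i)) := by
    rw [Subgroup.map_map]
    congr 1
  have h4 : ((W.map p).map q).index ∣ (W.map p).index :=
    Subgroup.index_map_dvd _ hq
  have h5 : (W.map p).index ≤ 2 := by
    have h6 : Nat.card (W.map p) = (⨅ i, L i).relIndex W := hcard L hfL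
    rw [← h1, h6, mul_comm] at h
    have h7 : 0 < Nat.card (W.map p) := Nat.card_pos
    rw [h6] at h7
    exact Nat.le_of_mul_le_mul_right h h7
  have h8 : (W.map p).index ≠ 0 := Subgroup.index_ne_zero_of_finite
  have h9 := (Nat.le_of_dvd (Nat.pos_of_ne_zero h8) h4).trans h5
  rw [← h2, h3, hcard H hfH]
  rw [h3] at h9
  rw [mul_comm]
  exact Nat.mul_le_mul_right _ h9

end Vale.Agent.P011.Arith
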