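import Vale.Agent.P011.Arith.Schilling

open NumberField

/-!
Hermitian forms over a quadratic extension of a number field (Landherr): the isotropy of
indefinite forms of rank three and the existence of Lagrangian subspaces.
-/

namespace Vale.Agent.P011.Arith.Lan

/-- `L = E(θ)`, `θ ^ 2 = d`, with the involution `star` having fixed field `E`. -/
structure Quad {E L : Type} [Field E] [Field L] [Algebra E L] [StarRing L] (d : Eˣ) (θ : L) :
    Prop where
  star_theta : star θ = -θ
  sq : θ ^ 2 = algebraMap E L d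
  fix : ∀ x : L, star x = x → ∃ y : E, algebraMap E L y = x
  star_alg : ∀ y : E, star (algebraMap E L y) = algebraMap E L y

/-- A hermitian form, linear in the first variable. -/
structure Herm {L V : Type} [Field L] [StarRing L] [AddCommGroup V] [Module L V]
    (b : V → V → L) : Prop where
  add_left : ∀ x y z, b (x + y) z = b x z + b y z
  smul_left : ∀ (c : L) x y, b (c • x) y = c * b x y
  symm : ∀ x y, star (b x y) = b y x

section herm
variable {L V : Type} [Field L] [StarRing L] [AddCommGroup V] [Module L V] {b : V → V → L}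

theorem Herm.zero_left (hb : Herm b) (y : V) : b 0 y = 0 := by
  have := hb.smul_left 0 0 y
  simpa using this

theorem Herm.add_right (hb : Herm b) (x y z : V) : b x (y + z) = b x y + b x z := by
  rw [← hb.symm, hb.add_left, star_add, hb.symm, hb.symm]

theorem Herm.smul_right (hb : Herm b) (c : L) (x y : V) : b x (c • y) = star c * b x y := by
  rw [← hb.symm, hb.smul_left, star_mul', hb.symm]

theorem Herm.zero_right (hb : Herm b) (y : V) : b y 0 = 0 := by
  rw [← hb.symm, hb.zero_left, star_zero]

theorem Herm.neg_left (hb : Herm b) (x y : V) : b (-x) y = -b x y := by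
  rw [← neg_one_smul L, hb.smul_left, neg_one_mul]

theorem Herm.neg_right (hb : Herm b) (x y : V) : b x (-y) = -b x y := by
  rw [← hb.symm, hb.neg_left, star_neg, hb.symm]

theorem Herm.sub_left (hb : Herm b) (x y z : V) : b (x - y) z = b x z - b y z := by
  rw [sub_eq_add_neg, hb.add_left, hb.neg_left, sub_eq_add_neg]

theorem Herm.sub_right (hb : Herm b) (x y z : V) : b x (y - z) = b x y - b x z := by
  rw [sub_eq_add_neg, hb.add_right, hb.neg_right, sub_eq_add_neg]

/-- The functional `y ↦ b y x`. -/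
def Herm.fn (hb : Herm b) (x : V) : V →ₗ[L] L where
  toFun y := b y x
  map_add' y z := hb.add_left y z x
  map_smul' c y := hb.smul_left c y x

theorem Herm.fn_apply (hb : Herm b) (x y : V) : hb.fn x y = b y x := rfl

theorem Herm.sum_left (hb : Herm b) {ι : Type} (s : Finset ι) (x : ι → V) (y : V) :
    b (∑ i ∈ s, x i) y = ∑ i ∈ s, b (x i) y := by
  exact map_sum (hb.fn y) x s

theorem Herm.sum_right (hb : Herm b) {ι : Type} (s : Finset ι) (x : ι → V) (y : V) :
    b y (∑ i ∈ s, x i) = ∑ i ∈ s, b y (x i) := by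
  rw [← hb.symm, hb.sum_left, star_sum]
  exact Finset.sum_congr rfl (fun i _ => hb.symm _ _)

/-- The restriction to a subspace. -/
theorem Herm.restrict (hb : Herm b) (U : Submodule L V) :
    Herm (fun x y : U => b (x : V) (y : V)) where
  add_left _ _ _ := hb.add_left _ _ _
  smul_left _ _ _ := hb.smul_left _ _ _
  symm _ _ := hb.symm _ _

end herm

section nf

variable {E L V : Type} [Field E] [Field L] [Algebra E L] [StarRing L]
  [AddCommGroup V] [Module L V] {b : V → V → L} {q : V → E} {d : Eˣ} {θ : L}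

theorem Quad.alg_inj (_h : Quad d θ) {x y : E} (hxy : algebraMap E L x = algebraMap E L y) :
    x = y := (algebraMap E L).injective hxy

theorem Quad.theta_ne (h : Quad d θ) : θ ≠ 0 := by
  rintro rfl
  have := h.sq
  rw [zero_pow two_ne_zero, eq_comm, map_eq_zero] at this
  exact d.ne_zero this

theorem Quad.norm (h : Quad d θ) (p r : E) :
    (algebraMap E L p + algebraMap E L r * θ) * star (algebraMap E L p + algebraMap E L r * θ) =
      algebraMap E L (p ^ 2 - d * r ^ 2) := by
  rw [star_add, star_mul', h.star_alg, h.star_alg, h.star_theta, map_sub, map_mul, map_pow,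
    map_pow, ← h.sq]
  ring

theorem Quad.coords [CharZero E] (h : Quad d θ) (x : L) :
    ∃ p r : E, x = algebraMap E L p + algebraMap E L r * θ := by
  have _hL : CharZero L := charZero_of_injective_algebraMap (algebraMap E L).injective
  obtain ⟨p, hp⟩ := h.fix ((x + star x) / 2) (by
    rw [star_div₀, star_add, star_star, star_ofNat, add_comm])
  obtain ⟨r, hr⟩ := h.fix ((x - star x) / (2 * θ)) (by
    rw [star_div₀, star_sub, star_star, star_mul', star_ofNat, h.star_theta, mul_neg, div_neg,
      ← neg_div, neg_sub])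
  refine ⟨p, r, ?_⟩
  rw [hp, hr]
  have := h.theta_ne
  field_simp
  ring

theorem Quad.norm_nonneg [CharZero E] (h : Quad d θ) (φ : E →+* ℝ) (hφ : φ d < 0) {x : L} {n : E}
    (hn : algebraMap E L n = x * star x) : 0 ≤ φ n := by
  obtain ⟨p, r, rfl⟩ := h.coords x
  rw [h.norm] at hn
  rw [h.alg_inj hn, map_sub, map_mul, map_pow, map_pow]
  nlinarith [sq_nonneg (φ p), sq_nonneg (φ r)]

theorem q_of (h : Quad d θ) (hb : Herm b) : ∃ q : V → E, ∀ x, algebraMap E L (q x) = b x x :=
  ⟨fun x => (h.fix _ (hb.symm x x)).choose, fun x => (h.fix _ (hb.symm x x)).choose_spec⟩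

variable [NumberField E]

/-- Weak approximation for the values of a hermitian form. -/
theorem exists_signs (h : Quad d θ) (hb : Herm b) (hq : ∀ x, algebraMap E L (q x) = b x x)
    (R : Set (E →+* ℝ)) (σ : (E →+* ℝ) → ℝ)
    (hx : ∀ φ ∈ R, ∃ x : V, 0 < σ φ * φ (q x)) : ∃ y : V, ∀ φ ∈ R, 0 < σ φ * φ (q y) := by
  classical
  have hx' : ∀ φ : E →+* ℝ, ∃ x : V, φ ∈ R → 0 < σ φ * φ (q x) := by
    intro φ
    by_cases hφ : φ ∈ R
    · obtain ⟨x, hx⟩ := hx φ hφ
      exact ⟨x, fun _ => hx⟩
    · exact ⟨0, fun h => absurd h hφ⟩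
  choose x hx using hx'
  -- the symmetrised Gram matrix
  have hT : ∀ φ ψ : E →+* ℝ, ∃ t : E, algebraMap E L t = b (x φ) (x ψ) + b (x ψ) (x φ) :=
    fun φ ψ => h.fix _ (by rw [star_add, hb.symm, hb.symm, add_comm])
  choose T hT using hT
  have key : ∀ c : (E →+* ℝ) → E, 2 * q (∑ φ, algebraMap E L (c φ) • x φ) =
      ∑ φ, ∑ ψ, c φ * c ψ * T φ ψ := by
    intro c
    apply h.alg_inj
    rw [map_mul, map_ofNat, hq, hb.sum_left]
    have h1 : ∀ φ, b (algebraMap E L (c φ) • x φ) (∑ ψ, algebraMap E L (c ψ) • x ψ) =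
        ∑ ψ, algebraMap E L (c φ) * algebraMap E L (c ψ) * b (x φ) (x ψ) := by
      intro φ
      rw [hb.sum_right]
      refine Finset.sum_congr rfl (fun ψ _ => ?_)
      rw [hb.smul_left, hb.smul_right, h.star_alg, mul_assoc]
    rw [Finset.sum_congr rfl (fun φ _ => h1 φ), map_sum]
    have h2 : ∀ φ, algebraMap E L (∑ ψ, c φ * c ψ * T φ ψ) =
        ∑ ψ, algebraMap E L (c φ) * algebraMap E L (c ψ) * (b (x φ) (x ψ) + b (x ψ) (x φ)) := by
      intro φ
      rw [map_sum]
      refine Finset.sum_congr rfl (fun ψ _ => ?_)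
      rw [map_mul, map_mul, hT]
    rw [Finset.sum_congr rfl (fun φ _ => h2 φ)]
    simp only [mul_add, Finset.sum_add_distrib]
    rw [two_mul]
    congr 1
    rw [Finset.sum_comm]
    refine Finset.sum_congr rfl (fun φ _ => Finset.sum_congr rfl (fun ψ _ => ?_))
    ring
  -- continuity
  have hcont : ∀ φ : E →+* ℝ, ∃ ε : ℝ, 0 < ε ∧ ∀ y : (E →+* ℝ) → ℝ,
      (∀ ψ, |y ψ - (Pi.single φ 1 : (E →+* ℝ) → ℝ) ψ| < ε) → φ ∈ R →
        0 < σ φ * ∑ ψ, ∑ χ, y ψ * y χ * φ (T ψ χ) := by
    intro φ
    by_cases hφ : φ ∈ R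
    · have hc : Continuous (fun y : (E →+* ℝ) → ℝ => σ φ * ∑ ψ, ∑ χ, y ψ * y χ * φ (T ψ χ)) := by
        fun_prop
      have h0 : 0 < σ φ * ∑ ψ, ∑ χ, (Pi.single φ 1 : (E →+* ℝ) → ℝ) ψ *
          (Pi.single φ 1 : (E →+* ℝ) → ℝ) χ * φ (T ψ χ) := by
        have h1 : ∑ ψ, ∑ χ, (Pi.single φ 1 : (E →+* ℝ) → ℝ) ψ *
          (Pi.single φ 1 : (E →+* ℝ) → ℝ) χ * φ (T ψ χ) = φ (T φ φ) := by
          rw [Finset.sum_eq_single φ, Finset.sum_eq_single φ]
          · simp
          · intro χ _ hχ
            rw [Pi.single_eq_of_ne hχ]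
            ring
          · intro h
            exact absurd (Finset.mem_univ _) h
          · intro ψ _ hψ
            rw [Pi.single_eq_of_ne hψ]
            simp
          · intro h
            exact absurd (Finset.mem_univ _) h
        have h2 : T φ φ = 2 * q (x φ) := by
          apply h.alg_inj
          rw [hT, map_mul, map_ofNat, hq, two_mul]
        rw [h1, h2, map_mul, map_ofNat]
        have := hx φ hφ
        nlinarith
      have hopen : IsOpen {y : (E →+* ℝ) → ℝ | 0 < σ φ * ∑ ψ, ∑ χ, y ψ * y χ * φ (T ψ χ)} :=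
        isOpen_lt continuous_const hc
      obtain ⟨ε, hε, hball⟩ := Metric.isOpen_iff.mp hopen _ h0
      refine ⟨ε, hε, fun y hy _ => hball ?_⟩
      rw [Metric.mem_ball, dist_pi_lt_iff hε]
      intro ψ
      rw [Real.dist_eq]
      exact hy ψ
    · exact ⟨1, one_pos, fun _ _ h => absurd h hφ⟩
  choose ε hε hcont using hcont
  -- the coefficients
  have hc : ∀ ψ : E →+* ℝ, ∃ c : E, ∀ φ : E →+* ℝ,
      |φ c - (Pi.single φ 1 : (E →+* ℝ) → ℝ) ψ| < ε φ := by
    intro ψ
    obtain ⟨c, hc⟩ := approx (F := E) (Set.range Sum.inr) (Set.finite_range _)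
      (Sum.elim (fun _ => 0) (fun φ => (Pi.single φ 1 : (E →+* ℝ) → E) ψ))
      (Sum.elim (fun _ => 1) ε) (by
        rintro (v | φ)
        · exact one_pos
        · exact hε φ)
    refine ⟨c, fun φ => ?_⟩
    have h1 := hc (Sum.inr φ) ⟨φ, rfl⟩
    rw [plAbv_inr] at h1
    simp only [Sum.elim_inr] at h1
    rw [map_sub] at h1
    have h2 : φ ((Pi.single φ 1 : (E →+* ℝ) → E) ψ) = (Pi.single φ 1 : (E →+* ℝ) → ℝ) ψ := by
      by_cases hψ : ψ = φ
      · subst hψ
        simp
      · rw [Pi.single_eq_of_ne hψ, Pi.single_eq_of_ne hψ, map_zero]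
    rwa [h2] at h1
  choose c hc using hc
  refine ⟨∑ φ, algebraMap E L (c φ) • x φ, fun φ hφ => ?_⟩
  have h1 := hcont φ (fun ψ => φ (c ψ)) (fun ψ => hc ψ φ) hφ
  have h2 := congrArg φ (key c)
  rw [map_mul, map_ofNat, map_sum] at h2
  have h3 : ∑ ψ, φ (∑ χ, c ψ * c χ * T ψ χ) = ∑ ψ, ∑ χ, φ (c ψ) * φ (c χ) * φ (T ψ χ) := by
    refine Finset.sum_congr rfl (fun ψ _ => ?_)
    rw [map_sum]
    refine Finset.sum_congr rfl (fun χ _ => ?_)
    rw [map_mul, map_mul]
  rw [h3] at h2
  rw [← h2] at h1
  nlinarith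

omit [NumberField E] in
/-- The norm form value of a combination. -/
theorem q_smul (h : Quad d θ) (hb : Herm b) (hq : ∀ x, algebraMap E L (q x) = b x x) (p r : E)
    (x : V) : q ((algebraMap E L p + algebraMap E L r * θ) • x) = (p ^ 2 - d * r ^ 2) * q x := by
  apply h.alg_inj
  rw [hq, hb.smul_left, hb.smul_right, ← mul_assoc, h.norm, map_mul, hq]

omit [NumberField E] in
theorem q_add (h : Quad d θ) (hb : Herm b) (hq : ∀ x, algebraMap E L (q x) = b x x) {x y : V}
    (hxy : b x y = 0) : q (x + y) = q x + q y := by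
  apply h.alg_inj
  have hyx : b y x = 0 := by rw [← hb.symm, hxy, star_zero]
  rw [hq, hb.add_left, hb.add_right, hb.add_right, hxy, hyx, map_add, hq, hq]
  ring

omit [NumberField E] in
theorem q_zero (h : Quad d θ) (hb : Herm b) (hq : ∀ x, algebraMap E L (q x) = b x x) :
    q 0 = 0 := by
  apply h.alg_inj
  rw [hq, hb.zero_left, map_zero]

/-- Prescribed signs on a nonzero space. -/
theorem exists_signs_ne (h : Quad d θ) (hb : Herm b) (hq : ∀ x, algebraMap E L (q x) = b x x)
    (R : Set (E →+* ℝ)) (σ : (E →+* ℝ) → ℝ)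
    (hx : ∀ φ ∈ R, ∃ x : V, 0 < σ φ * φ (q x)) (hV : Nontrivial V) :
    ∃ y : V, y ≠ 0 ∧ ∀ φ ∈ R, 0 < σ φ * φ (q y) := by
  by_cases hR : R.Nonempty
  · obtain ⟨y, hy⟩ := exists_signs h hb hq R σ hx
    refine ⟨y, ?_, hy⟩
    rintro rfl
    obtain ⟨φ, hφ⟩ := hR
    have := hy φ hφ
    rw [q_zero h hb hq, map_zero, mul_zero] at this
    exact lt_irrefl _ this
  · obtain ⟨y, hy⟩ := exists_ne (0 : V)
    exact ⟨y, hy, fun φ hφ => absurd ⟨φ, hφ⟩ hR⟩

/-- Indefinite hermitian forms of rank at least three are isotropic. -/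
theorem exists_isotropic (h : Quad d θ) (hb : Herm b) (hq : ∀ x, algebraMap E L (q x) = b x x)
    (hV : 3 ≤ Module.finrank L V)
    (hpos : ∀ φ : E →+* ℝ, φ d < 0 → ∃ x : V, 0 < φ (q x))
    (hneg : ∀ φ : E →+* ℝ, φ d < 0 → ∃ x : V, φ (q x) < 0) : ∃ x : V, x ≠ 0 ∧ q x = 0 := by
  by_contra hcon
  push Not at hcon
  have hfin : Module.Finite L V := Module.finite_of_finrank_pos (by omega)
  have hnt : Nontrivial V := Module.nontrivial_of_finrank_pos (R := L) (by omega)
  obtain ⟨x, hx0, hx⟩ := exists_signs_ne h hb hq {φ | φ d < 0} (fun _ => 1)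
    (fun φ hφ => by
      obtain ⟨x, hx⟩ := hpos φ hφ
      exact ⟨x, by rwa [one_mul]⟩) hnt
  have hqx : q x ≠ 0 := hcon x hx0
  have hbx : b x x ≠ 0 := by
    rw [← hq]
    exact (map_ne_zero _).mpr hqx
  -- the orthogonal complement of `x`
  set U : Submodule L V := LinearMap.ker (hb.fn x) with hU
  have hUrank : 2 ≤ Module.finrank L U := by
    have h1 : Module.finrank L (LinearMap.range (hb.fn x)) + Module.finrank L U =
        Module.finrank L V := LinearMap.finrank_range_add_finrank_ker (hb.fn x)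
    have h2 : Module.finrank L (LinearMap.range (hb.fn x)) ≤ 1 := by
      have := Submodule.finrank_le (LinearMap.range (hb.fn x))
      rwa [Module.finrank_self] at this
    omega
  have hUnt : Nontrivial U := Module.nontrivial_of_finrank_pos (R := L) (by omega)
  have hbU := hb.restrict U
  obtain ⟨y, hy0, hy⟩ := exists_signs_ne h hbU (q := fun u : U => q (u : V)) (fun u => hq _)
    {φ | φ d < 0} (fun _ => -1) (fun φ hφ => by
      obtain ⟨y, hy⟩ := hneg φ hφ
      have hmem : y - (b y x / b x x) • x ∈ U := by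
        rw [hU, LinearMap.mem_ker, Herm.fn_apply, hb.sub_left, hb.smul_left, div_mul_cancel₀ _ hbx,
          sub_self]
      refine ⟨⟨_, hmem⟩, ?_⟩
      have hdec : q y = q (y - (b y x / b x x) • x) + q ((b y x / b x x) • x) := by
        rw [← q_add h hb hq]
        · rw [sub_add_cancel]
        · rw [hb.smul_right]
          have : b (y - (b y x / b x x) • x) x = 0 := hmem
          rw [this, mul_zero]
      obtain ⟨n, hn⟩ := h.fix ((b y x / b x x) * star (b y x / b x x)) (by
        rw [star_mul', star_star, mul_comm])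
      have h1 : q ((b y x / b x x) • x) = n * q x := by
        apply h.alg_inj
        rw [hq, hb.smul_left, hb.smul_right, ← mul_assoc, ← hn, map_mul, hq]
      have h2 := h.norm_nonneg φ hφ hn
      have h3 := hx φ hφ
      rw [one_mul] at h3
      have h4 := congrArg φ hdec
      rw [map_add, h1, map_mul] at h4
      change 0 < -1 * φ (q (y - (b y x / b x x) • x))
      nlinarith [mul_nonneg h2 h3.le]) hUnt
  have hy0' : (y : V) ≠ 0 := fun h0 => hy0 (Subtype.ext h0)
  have hqy : q (y : V) ≠ 0 := hcon _ hy0'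
  have hyx : b (y : V) x = 0 := y.2
  have hxy : b x (y : V) = 0 := by rw [← hb.symm, hyx, star_zero]
  -- a third vector
  obtain ⟨z, hz0, hzx, hzy⟩ : ∃ z : V, z ≠ 0 ∧ b z x = 0 ∧ b z y = 0 := by
    have h1 := LinearMap.finrank_range_add_finrank_ker (hbU.fn y)
    have h2 : Module.finrank L (LinearMap.range (hbU.fn y)) ≤ 1 := by
      have := Submodule.finrank_le (LinearMap.range (hbU.fn y))
      rwa [Module.finrank_self] at this
    have h3 : Nontrivial (LinearMap.ker (hbU.fn y)) :=
      Module.nontrivial_of_finrank_pos (R := L) (by omega)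
    obtain ⟨z, hz⟩ := exists_ne (0 : LinearMap.ker (hbU.fn y))
    refine ⟨((z : U) : V), ?_, (z : U).2, z.2⟩
    intro h0
    exact hz (Subtype.ext (Subtype.ext h0))
  have hqz : q z ≠ 0 := hcon z hz0
  have hxz : b x z = 0 := by rw [← hb.symm, hzx, star_zero]
  have hyz : b (y : V) z = 0 := by rw [← hb.symm, hzy, star_zero]
  obtain ⟨x1, x2, y1, y2, z1, z2, hne, hsum⟩ := Sch.ternary_isotropic d (Units.mk0 _ hqx)
    (Units.mk0 _ hqy) (Units.mk0 _ hqz) (fun φ hφ => by
      have h1 := hx φ hφ
      have h2 := hy φ hφ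
      simp only [Units.val_mk0]
      constructor
      · rintro ⟨-, h3, -⟩
        linarith
      · rintro ⟨h3, -, -⟩
        linarith)
  simp only [Units.val_mk0] at hsum
  set X : L := algebraMap E L x1 + algebraMap E L x2 * θ with hX
  set Y : L := algebraMap E L y1 + algebraMap E L y2 * θ with hY
  set Z : L := algebraMap E L z1 + algebraMap E L z2 * θ with hZ
  have horth1 : b (X • x) (Y • (y : V)) = 0 := by
    rw [hb.smul_left, hb.smul_right, hxy]; ring
  have horth2 : b (X • x + Y • (y : V)) (Z • z) = 0 := by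
    rw [hb.add_left, hb.smul_left, hb.smul_left, hb.smul_right, hb.smul_right, hxz, hyz]; ring
  have hq0 : q (X • x + Y • (y : V) + Z • z) = 0 := by
    rw [q_add h hb hq horth2, q_add h hb hq horth1, hX, hY, hZ, q_smul h hb hq, q_smul h hb hq,
      q_smul h hb hq]
    linear_combination hsum
  have hw := fun hw => hcon _ hw hq0
  have hw0 : X • x + Y • (y : V) + Z • z = 0 := by
    by_contra h0
    exact hw h0
  have hcoef : ∀ (c : L) (u : V), q u ≠ 0 → b (X • x + Y • (y : V) + Z • z) u = c * b u u → c = 0 := by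
    intro c u hu hc
    rw [hw0, hb.zero_left] at hc
    have : b u u ≠ 0 := by
      rw [← hq]
      exact (map_ne_zero _).mpr hu
    rcases mul_eq_zero.mp hc.symm with h1 | h1
    · exact h1
    · exact absurd h1 this
  have hX0 : X = 0 := hcoef X x hqx (by
    rw [hb.add_left, hb.add_left, hb.smul_left, hb.smul_left, hb.smul_left, hyx, hzx]; ring)
  have hY0 : Y = 0 := hcoef Y y hqy (by
    rw [hb.add_left, hb.add_left, hb.smul_left, hb.smul_left, hb.smul_left, hxy, hzy]; ring)
  have hZ0 : Z = 0 := hcoef Z z hqz (by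
    rw [hb.add_left, hb.add_left, hb.smul_left, hb.smul_left, hb.smul_left, hxz, hyz]; ring)
  have hcoords : ∀ p r : E, algebraMap E L p + algebraMap E L r * θ = 0 → p = 0 ∧ r = 0 := by
    intro p r hpr
    have h1 := congrArg star hpr
    rw [star_add, star_mul', h.star_alg, h.star_alg, h.star_theta, star_zero] at h1
    have _hL : CharZero L := charZero_of_injective_algebraMap (algebraMap E L).injective
    have h2 : algebraMap E L p = 0 := by
      have : 2 * algebraMap E L p = 0 := by linear_combination hpr + h1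
      simpa using this
    rw [h2, zero_add] at hpr
    have h3 := (mul_eq_zero.mp hpr).resolve_right h.theta_ne
    exact ⟨(map_eq_zero _).mp h2, (map_eq_zero _).mp h3⟩
  apply hne
  obtain ⟨a1, a2⟩ := hcoords _ _ hX0
  obtain ⟨a3, a4⟩ := hcoords _ _ hY0
  obtain ⟨a5, a6⟩ := hcoords _ _ hZ0
  rw [a1, a2, a3, a4, a5, a6]

end nf

section gram

variable {L V : Type} [Field L] [StarRing L] [AddCommGroup V] [Module L V] {b : V → V → L}

/-- The Gram matrix. -/
def gram {ι : Type} (b : V → V → L) (v : ι → V) : Matrix ι ι L := Matrix.of fun i j => b (v i) (v j)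

omit [Field L] [StarRing L] [AddCommGroup V] [Module L V] in
theorem gram_apply {ι : Type} (v : ι → V) (i j : ι) : gram b v i j = b (v i) (v j) := rfl

theorem gram_change (hb : Herm b) {ι : Type} [Fintype ι]
    (v w : ι → V) (P : Matrix ι ι L) (hP : ∀ k, w k = ∑ i, P k i • v i) :
    gram b w = P * gram b v * P.conjTranspose := by
  ext k l
  rw [gram_apply, hP k, hP l, hb.sum_left, Matrix.mul_apply]
  simp only [Matrix.mul_apply, Matrix.conjTranspose_apply, gram_apply, Finset.sum_mul]
  rw [Finset.sum_comm]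
  refine Finset.sum_congr rfl (fun i _ => ?_)
  rw [hb.sum_right]
  refine Finset.sum_congr rfl (fun j _ => ?_)
  rw [hb.smul_left, hb.smul_right]
  ring

/-- The discriminant changes by a norm. -/
theorem disc_change (hb : Herm b) {ι κ : Type} [Fintype ι] [Fintype κ] [DecidableEq ι]
    [DecidableEq κ] (v : Module.Basis ι L V) (w : Module.Basis κ L V) (e : ι ≃ κ) {c z : L}
    (hz : z ≠ 0) (h : c * (gram b v).det = z * star z) :
    ∃ z' : L, z' ≠ 0 ∧ c * (gram b w).det = z' * star z' := by
  set w' : Module.Basis ι L V := w.reindex e.symm with hw'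
  have h1 : (gram b w).det = (gram b w').det := by
    have : gram b w' = (gram b w).submatrix e e := by
      ext i j
      simp [gram_apply, hw']
    rw [this, Matrix.det_submatrix_equiv_self]
  have hP : ∀ k, w' k = ∑ i, (v.toMatrix w').transpose k i • v i := by
    intro k
    simp only [Matrix.transpose_apply]
    exact (v.sum_toMatrix_smul_self w' k).symm
  have h2 := gram_change hb v w' _ hP
  have hdet : ((v.toMatrix w').transpose).det ≠ 0 := by
    rw [Matrix.det_transpose]
    intro h0
    have h3 := v.toMatrix_mul_toMatrix_flip w'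
    have h4 := congrArg Matrix.det h3
    rw [Matrix.det_mul, h0, zero_mul, Matrix.det_one] at h4
    exact zero_ne_one h4
  refine ⟨((v.toMatrix w').transpose).det * z, mul_ne_zero hdet hz, ?_⟩
  rw [h1, h2, Matrix.det_mul, Matrix.det_mul, Matrix.det_conjTranspose, star_mul']
  linear_combination (((v.toMatrix w').transpose).det * star ((v.toMatrix w').transpose).det) * h

theorem nondeg (hb : Herm b) {ι : Type} [Fintype ι] [DecidableEq ι] (v : Module.Basis ι L V)
    (h : (gram b v).det ≠ 0) (x : V) (hx : x ≠ 0) : ∃ y, b x y ≠ 0 := by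
  by_contra hcon
  push Not at hcon
  apply hx
  have h1 : Matrix.vecMul (fun i => v.repr x i) (gram b v) = 0 := by
    ext j
    rw [Matrix.vecMul, dotProduct, Pi.zero_apply, ← hcon (v j)]
    conv_rhs => rw [← v.sum_repr x, hb.sum_left]
    refine Finset.sum_congr rfl (fun i _ => ?_)
    rw [hb.smul_left, gram_apply]
  have h2 := Matrix.eq_zero_of_vecMul_eq_zero h h1
  rw [← v.sum_repr x]
  refine Finset.sum_eq_zero (fun i _ => ?_)
  rw [congrFun h2 i, Pi.zero_apply, zero_smul]

theorem exists_dual (hb : Herm b) (h2 : (2 : L) ≠ 0) (hnd : ∀ x, x ≠ 0 → ∃ y, b x y ≠ 0) {e : V}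
    (he : e ≠ 0) (hee : b e e = 0) : ∃ f, b f e = 1 ∧ b f f = 0 := by
  obtain ⟨g, hg⟩ := hnd e he
  have hge : b g e ≠ 0 := by
    rw [← hb.symm]
    exact (star_ne_zero).mpr hg
  obtain ⟨f₀, h1⟩ : ∃ f₀, b f₀ e = 1 :=
    ⟨(b g e)⁻¹ • g, by rw [hb.smul_left, inv_mul_cancel₀ hge]⟩
  have h1' : b e f₀ = 1 := by rw [← hb.symm, h1, star_one]
  have hstar : star (b f₀ f₀) = b f₀ f₀ := hb.symm _ _
  refine ⟨f₀ - (b f₀ f₀ / 2) • e, ?_, ?_⟩
  · rw [hb.sub_left, hb.smul_left, h1, hee, mul_zero, sub_zero]
  · rw [hb.sub_left, hb.sub_right, hb.sub_right, hb.smul_left, hb.smul_right, hb.smul_left,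
      hb.smul_right, h1, h1', hee, star_div₀, hstar, star_ofNat]
    field_simp
    ring

/-- The orthogonal complement of a hyperbolic pair. -/
def Herm.perp (hb : Herm b) (e f : V) : Submodule L V :=
  LinearMap.ker (hb.fn e) ⊓ LinearMap.ker (hb.fn f)

theorem Herm.mem_perp (hb : Herm b) {e f y : V} : y ∈ hb.perp e f ↔ b y e = 0 ∧ b y f = 0 :=
  Iff.rfl

/-- Splitting off a hyperbolic pair. -/
noncomputable def Herm.split (hb : Herm b) {e f : V} (hee : b e e = 0) (hfe : b f e = 1)
    (hff : b f f = 0) : ((Fin 2 → L) × hb.perp e f) ≃ₗ[L] V where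
  toFun c := c.1 0 • e + c.1 1 • f + (c.2 : V)
  map_add' c c' := by
    simp only [Prod.fst_add, Prod.snd_add, Pi.add_apply, add_smul, Submodule.coe_add]
    abel
  map_smul' r c := by
    simp only [Prod.smul_fst, Prod.smul_snd, Pi.smul_apply, smul_eq_mul, mul_smul,
      Submodule.coe_smul, RingHom.id_apply, smul_add]
  invFun y := (![b y f, b y e], ⟨y - b y f • e - b y e • f, by
    have hef : b e f = 1 := by rw [← hb.symm, hfe, star_one]
    rw [hb.mem_perp]
    constructor
    · rw [hb.sub_left, hb.sub_left, hb.smul_left, hb.smul_left, hee, hfe]; ring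
    · rw [hb.sub_left, hb.sub_left, hb.smul_left, hb.smul_left, hef, hff]; ring⟩)
  left_inv := by
    rintro ⟨c, u, hu⟩
    have hef : b e f = 1 := by rw [← hb.symm, hfe, star_one]
    rw [hb.mem_perp] at hu
    have h1 : b (c 0 • e + c 1 • f + u) f = c 0 := by
      rw [hb.add_left, hb.add_left, hb.smul_left, hb.smul_left, hef, hff, hu.2]; ring
    have h2 : b (c 0 • e + c 1 • f + u) e = c 1 := by
      rw [hb.add_left, hb.add_left, hb.smul_left, hb.smul_left, hee, hfe, hu.1]; ring
    refine Prod.ext ?_ (Subtype.ext ?_)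
    · funext i
      fin_cases i
      · exact h1
      · exact h2
    · change c 0 • e + c 1 • f + u - b (c 0 • e + c 1 • f + u) f • e -
        b (c 0 • e + c 1 • f + u) e • f = u
      rw [h1, h2]
      abel
  right_inv y := by
    change b y f • e + b y e • f + (y - b y f • e - b y e • f) = y
    abel

theorem Herm.split_basis (hb : Herm b) {e f : V} (hee : b e e = 0) (hfe : b f e = 1)
    (hff : b f f = 0) {κ : Type} [Fintype κ] [DecidableEq κ]
    (u : Module.Basis κ L (hb.perp e f)) :
    (gram b (((Pi.basisFun L (Fin 2)).prod u).map (hb.split hee hfe hff))).det =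
      -(gram (fun x y : hb.perp e f => b (x : V) (y : V)) u).det := by
  have hef : b e f = 1 := by rw [← hb.symm, hfe, star_one]
  set w := ((Pi.basisFun L (Fin 2)).prod u).map (hb.split hee hfe hff) with hw
  have hinr : ∀ k, w (Sum.inr k) = (u k : V) := by
    intro k
    rw [hw, Module.Basis.map_apply, Module.Basis.prod_apply]
    change (0 : Fin 2 → L) 0 • e + (0 : Fin 2 → L) 1 • f + (u k : V) = _
    simp
  have h0 : w (Sum.inl 0) = e := by
    rw [hw, Module.Basis.map_apply, Module.Basis.prod_apply]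
    change (Pi.basisFun L (Fin 2) 0) 0 • e + (Pi.basisFun L (Fin 2) 0) 1 • f +
      ((0 : hb.perp e f) : V) = _
    simp
  have h1 : w (Sum.inl 1) = f := by
    rw [hw, Module.Basis.map_apply, Module.Basis.prod_apply]
    change (Pi.basisFun L (Fin 2) 1) 0 • e + (Pi.basisFun L (Fin 2) 1) 1 • f +
      ((0 : hb.perp e f) : V) = _
    simp
  have hue : ∀ k, b (u k : V) e = 0 ∧ b (u k : V) f = 0 := fun k => hb.mem_perp.mp (u k).2
  have hblock : gram b w = Matrix.fromBlocks !![0, 1; 1, 0] 0 0
      (gram (fun x y : hb.perp e f => b (x : V) (y : V)) u) := by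
    ext i j
    rcases i with i | i <;> rcases j with j | j
    · rw [gram_apply, Matrix.fromBlocks_apply₁₁]
      fin_cases i <;> fin_cases j <;> simp [h0, h1, hee, hfe, hef, hff]
    · rw [gram_apply, Matrix.fromBlocks_apply₁₂, Matrix.zero_apply, hinr]
      rw [← hb.symm]
      fin_cases i
      · simp [h0, (hue j).1]
      · simp [h1, (hue j).2]
    · rw [gram_apply, Matrix.fromBlocks_apply₂₁, Matrix.zero_apply, hinr]
      fin_cases j
      · simp [h0, (hue i).1]
      · simp [h1, (hue i).2]
    · rw [gram_apply, Matrix.fromBlocks_apply₂₂, gram_apply, hinr, hinr]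
  rw [hblock, Matrix.det_fromBlocks_zero₂₁, Matrix.det_fin_two]
  simp

end gram

section main

variable {E L : Type} [Field E] [NumberField E] [Field L] [Algebra E L] [StarRing L]
  {d : Eˣ} {θ : L}

theorem exists_isotropic_two {V : Type} [AddCommGroup V] [Module L V] {b : V → V → L}
    (hb : Herm b) (v : Module.Basis (Fin 2) L V)
    (hdisc : ∃ z : L, z ≠ 0 ∧ (-1) ^ 1 * (gram b v).det = z * star z) :
    ∃ e, e ≠ 0 ∧ b e e = 0 := by
  by_contra hcon
  push Not at hcon
  obtain ⟨z, hz0, hz⟩ := hdisc
  have hV : Module.finrank L V = 2 := by rw [Module.finrank_eq_card_basis v, Fintype.card_fin]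
  have hfin : Module.Finite L V := Module.Finite.of_basis v
  have hnt : Nontrivial V := Module.nontrivial_of_finrank_pos (R := L) (by omega)
  obtain ⟨x, hx0⟩ := exists_ne (0 : V)
  obtain ⟨y, hy0, hyx⟩ : ∃ y : V, y ≠ 0 ∧ b y x = 0 := by
    have h1 := LinearMap.finrank_range_add_finrank_ker (hb.fn x)
    have h2 : Module.finrank L (LinearMap.range (hb.fn x)) ≤ 1 := by
      have := Submodule.finrank_le (LinearMap.range (hb.fn x))
      rwa [Module.finrank_self] at this
    have h3 : Nontrivial (LinearMap.ker (hb.fn x)) :=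
      Module.nontrivial_of_finrank_pos (R := L) (by omega)
    obtain ⟨z, hz⟩ := exists_ne (0 : LinearMap.ker (hb.fn x))
    exact ⟨z, fun h0 => hz (Subtype.ext h0), z.2⟩
  have hxy : b x y = 0 := by rw [← hb.symm, hyx, star_zero]
  have hxx : star (b x x) = b x x := hb.symm _ _
  let P : Matrix (Fin 2) (Fin 2) L := fun k i => v.repr (![x, y] k) i
  have h1 := gram_change hb v ![x, y] P (fun k => (v.sum_repr _).symm)
  have h2 : (gram b ![x, y]).det = b x x * b y y := by
    rw [Matrix.det_fin_two]
    simp [gram_apply, hxy, hyx]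
  rw [h1, Matrix.det_mul, Matrix.det_mul, Matrix.det_conjTranspose] at h2
  refine hcon ((P.det * z) • x + b x x • y) ?_ ?_
  · intro h0
    have h3 : b ((P.det * z) • x + b x x • y) y = b 0 y := by rw [h0]
    rw [hb.add_left, hb.smul_left, hb.smul_left, hxy, hb.zero_left, mul_zero, zero_add] at h3
    rcases mul_eq_zero.mp h3 with h3 | h3
    · exact hcon x hx0 h3
    · exact hcon y hy0 h3
  · rw [hb.add_left, hb.add_right, hb.add_right, hb.smul_left, hb.smul_left, hb.smul_left,
      hb.smul_left, hb.smul_right, hb.smul_right, hb.smul_right, hb.smul_right, hxy, hyx, hxx,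
      star_mul']
    linear_combination (-b x x * P.det * star P.det) * hz + (-b x x) * h2

/-- Landherr: a hermitian form of even rank with trivial discriminant and signature zero at all
real places where `d` is negative has a Lagrangian subspace. -/
theorem exists_lagrangian (h : Quad d θ) : ∀ (m : ℕ) (V : Type) [AddCommGroup V] [Module L V]
    (b : V → V → L) (q : V → E) (_ : Herm b) (_ : ∀ x, algebraMap E L (q x) = b x x)
    (v : Module.Basis (Fin (2 * m)) L V)
    (_ : ∃ z : L, z ≠ 0 ∧ (-1) ^ m * (gram b v).det = z * star z)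
    (_ : ∀ φ : E →+* ℝ, φ d < 0 → ∃ P N : Submodule L V, m ≤ Module.finrank L P ∧
      m ≤ Module.finrank L N ∧ (∀ x ∈ P, x ≠ 0 → 0 < φ (q x)) ∧
      (∀ x ∈ N, x ≠ 0 → φ (q x) < 0)),
    ∃ W : Submodule L V, Module.finrank L W = m ∧ ∀ x ∈ W, ∀ y ∈ W, b x y = 0 := by
  have _hL : CharZero L := charZero_of_injective_algebraMap (algebraMap E L).injective
  intro m
  induction m with
  | zero =>
    intro V _ _ b q hb hq v _ _
    exact ⟨⊥, finrank_bot L V, fun x hx y _ => by
      rw [(Submodule.mem_bot L).mp hx, hb.zero_left]⟩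
  | succ m ih =>
    intro V _ _ b q hb hq v hdisc hsig
    have hfin : Module.Finite L V := Module.Finite.of_basis v
    have hV : Module.finrank L V = 2 * (m + 1) := by
      rw [Module.finrank_eq_card_basis v, Fintype.card_fin]
    have hnt : Nontrivial V := Module.nontrivial_of_finrank_pos (R := L) (by omega)
    have hdet : (gram b v).det ≠ 0 := by
      obtain ⟨z, hz0, hz⟩ := hdisc
      intro h0
      rw [h0, mul_zero] at hz
      exact mul_ne_zero hz0 ((star_ne_zero).mpr hz0) hz.symm
    have hnd := nondeg hb v hdet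
    -- an isotropic vector
    obtain ⟨e, he0, hee⟩ : ∃ e, e ≠ 0 ∧ b e e = 0 := by
      rcases Nat.eq_zero_or_pos m with rfl | hm
      · exact exists_isotropic_two hb v hdisc
      · obtain ⟨e, he0, he⟩ := exists_isotropic h hb hq (by omega)
          (fun φ hφ => by
            obtain ⟨P, N, hP, hN, h1, h2⟩ := hsig φ hφ
            have h3 : Nontrivial P := Module.nontrivial_of_finrank_pos (R := L) (by omega)
            obtain ⟨x, hx⟩ := exists_ne (0 : P)
            exact ⟨x, h1 x x.2 (fun h0 => hx (Subtype.ext h0))⟩)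
          (fun φ hφ => by
            obtain ⟨P, N, hP, hN, h1, h2⟩ := hsig φ hφ
            have h3 : Nontrivial N := Module.nontrivial_of_finrank_pos (R := L) (by omega)
            obtain ⟨x, hx⟩ := exists_ne (0 : N)
            exact ⟨x, h2 x x.2 (fun h0 => hx (Subtype.ext h0))⟩)
        exact ⟨e, he0, by rw [← hq, he, map_zero]⟩
    obtain ⟨f, hfe, hff⟩ := exists_dual hb two_ne_zero hnd he0 hee
    have hef : b e f = 1 := by rw [← hb.symm, hfe, star_one]
    -- the complement
    have hUrank : Module.finrank L (hb.perp e f) = 2 * m := by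
      have h1 := (hb.split hee hfe hff).finrank_eq
      rw [Module.finrank_prod, Module.finrank_fin_fun, hV] at h1
      omega
    let u : Module.Basis (Fin (2 * m)) L (hb.perp e f) := Module.finBasisOfFinrankEq L _ hUrank
    have hbU := hb.restrict (hb.perp e f)
    have hdiscU : ∃ z : L, z ≠ 0 ∧ (-1) ^ m *
        (gram (fun x y : hb.perp e f => b (x : V) (y : V)) u).det = z * star z := by
      obtain ⟨z, hz0, hz⟩ := hdisc
      have hcard : Fintype.card (Fin (2 * (m + 1))) = Fintype.card (Fin 2 ⊕ Fin (2 * m)) := by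
        simp
        ring
      obtain ⟨z', hz0', hz'⟩ := disc_change hb v
        (((Pi.basisFun L (Fin 2)).prod u).map (hb.split hee hfe hff)) (Fintype.equivOfCardEq hcard)
        hz0 hz
      refine ⟨z', hz0', ?_⟩
      rw [← hz', hb.split_basis hee hfe hff u]
      ring
    have hsub : ∀ (s : ℝ) (φ : E →+* ℝ) (P : Submodule L V),
        (∀ x ∈ P, x ≠ 0 → 0 < s * φ (q x)) → m + 1 ≤ Module.finrank L P →
        ∃ P' : Submodule L (hb.perp e f), m ≤ Module.finrank L P' ∧
          ∀ x ∈ P', x ≠ 0 → 0 < s * φ (q (x : V)) := by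
      intro s φ P hP hPm
      let T : Submodule L P := LinearMap.ker ((hb.fn e).comp P.subtype)
      have hT : m ≤ Module.finrank L T := by
        have h1 : Module.finrank L (LinearMap.range ((hb.fn e).comp P.subtype)) +
          Module.finrank L T = Module.finrank L P :=
          LinearMap.finrank_range_add_finrank_ker _
        have h2 : Module.finrank L (LinearMap.range ((hb.fn e).comp P.subtype)) ≤ 1 := by
          have := Submodule.finrank_le (LinearMap.range ((hb.fn e).comp P.subtype))
          rwa [Module.finrank_self] at this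
        omega
      let pr : T →ₗ[L] hb.perp e f :=
        ((LinearMap.snd L (Fin 2 → L) (hb.perp e f)).comp
          (hb.split hee hfe hff).symm.toLinearMap).comp (P.subtype.comp T.subtype)
      have hpr : ∀ t : T, ((pr t : hb.perp e f) : V) = ((t : P) : V) - b ((t : P) : V) f • e := by
        intro t
        change ((t : P) : V) - b ((t : P) : V) f • e - b ((t : P) : V) e • f = _
        have : b ((t : P) : V) e = 0 := t.2
        rw [this, zero_smul, sub_zero]
      have hqpr : ∀ t : T, q ((pr t : hb.perp e f) : V) = q ((t : P) : V) := by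
        intro t
        have h1 : b ((t : P) : V) e = 0 := t.2
        have h2 : b e ((t : P) : V) = 0 := by rw [← hb.symm, h1, star_zero]
        apply h.alg_inj
        rw [hq, hq, hpr, hb.sub_left, hb.sub_right, hb.sub_right, hb.smul_left, hb.smul_right,
          hb.smul_left, hb.smul_right, h1, h2, hee]
        ring
      have hinj : Function.Injective pr := by
        rw [injective_iff_map_eq_zero]
        intro t ht
        by_contra ht0
        have h1 : ((t : P) : V) ≠ 0 := fun h0 => ht0 (Subtype.ext (Subtype.ext h0))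
        have h2 := hP _ (t : P).2 h1
        rw [← hqpr, ht] at h2
        change 0 < s * φ (q (0 : V)) at h2
        rw [q_zero h hb hq, map_zero, mul_zero] at h2
        exact lt_irrefl _ h2
      refine ⟨LinearMap.range pr, ?_, ?_⟩
      · rw [LinearMap.finrank_range_of_inj hinj]
        exact hT
      · rintro x ⟨t, rfl⟩ hx
        rw [hqpr]
        refine hP _ (t : P).2 ?_
        intro h0
        apply hx
        have : t = 0 := Subtype.ext (Subtype.ext h0)
        rw [this, map_zero]
    obtain ⟨W', hW', hW'0⟩ := ih (hb.perp e f) (fun x y => b (x : V) (y : V)) (fun x => q (x : V))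
      hbU (fun x => hq x) u hdiscU (fun φ hφ => by
        obtain ⟨P, N, hP, hN, h1, h2⟩ := hsig φ hφ
        obtain ⟨P', hP', hP'1⟩ := hsub 1 φ P (fun x hx hx0 => by
          rw [one_mul]; exact h1 x hx hx0) hP
        obtain ⟨N', hN', hN'1⟩ := hsub (-1) φ N (fun x hx hx0 => by
          have := h2 x hx hx0; linarith) hN
        refine ⟨P', N', hP', hN', fun x hx hx0 => ?_, fun x hx hx0 => ?_⟩
        · have := hP'1 x hx hx0
          rwa [one_mul] at this
        · have := hN'1 x hx hx0
          linarith)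
    have hWU : ∀ x ∈ W'.map (hb.perp e f).subtype, b x e = 0 ∧ b x f = 0 := by
      rintro _ ⟨u, -, rfl⟩
      exact u.2
    refine ⟨Submodule.span L {e} ⊔ W'.map (hb.perp e f).subtype, ?_, ?_⟩
    · have h1 := Submodule.finrank_sup_add_finrank_inf_eq (Submodule.span L {e})
        (W'.map (hb.perp e f).subtype)
      have h2 : Submodule.span L {e} ⊓ W'.map (hb.perp e f).subtype = ⊥ := by
        rw [eq_bot_iff]
        rintro x ⟨hx1, hx2⟩
        obtain ⟨c, rfl⟩ := Submodule.mem_span_singleton.mp hx1
        have h3 := (hWU _ hx2).2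
        rw [hb.smul_left, hef, mul_one] at h3
        rw [h3, zero_smul]
        exact Submodule.zero_mem _
      rw [h2, finrank_bot, finrank_span_singleton he0] at h1
      have h4 : Module.finrank L (W'.map (hb.perp e f).subtype) = m := by
        rw [Submodule.finrank_map_subtype_eq, hW']
      omega
    · have hmem : ∀ x ∈ Submodule.span L {e} ⊔ W'.map (hb.perp e f).subtype,
          ∃ (c : L) (u : hb.perp e f), u ∈ W' ∧ x = c • e + (u : V) := by
        intro x hx
        obtain ⟨y, hy, z, hz, rfl⟩ := Submodule.mem_sup.mp hx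
        obtain ⟨c, rfl⟩ := Submodule.mem_span_singleton.mp hy
        obtain ⟨u, hu, rfl⟩ := hz
        exact ⟨c, u, hu, rfl⟩
      intro x hx y hy
      obtain ⟨c, u, hu, rfl⟩ := hmem x hx
      obtain ⟨c', u', hu', rfl⟩ := hmem y hy
      have h1 : b (u : V) (u' : V) = 0 := hW'0 u hu u' hu'
      have h2 : b (u : V) e = 0 := u.2.1
      have h3 : b e (u' : V) = 0 := by
        rw [← hb.symm]
        have : b (u' : V) e = 0 := u'.2.1
        rw [this, star_zero]
      rw [hb.add_left, hb.add_right, hb.add_right, hb.smul_left, hb.smul_right, hb.smul_left,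
        hb.smul_right, hee, h1, h2, h3]
      ring

end main

end Vale.Agent.P011.Arith.Lan
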