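import Vale.Agent.P011.Arith.Defs

/-!
Local algebra for the quadratic Hasse norm theorem: Newton iteration, the element defining the
unramified extension, nontriviality and symmetry of the norm residue symbol.
-/

open NumberField IsDedekindDomain

namespace Vale.Agent.P011.Arith

theorem z0_lt_iff_le_mul {x y : Z0} (hy : y ≠ 0) : x < y ↔ x ≤ y * WithZero.exp (-1 : ℤ) := by
  rw [← WithZero.lt_mul_exp_iff_le (mul_ne_zero hy WithZero.exp_ne_zero), mul_assoc,
    ← WithZero.exp_add]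
  simp

section local_

variable {F : Type} [Field F]

theorem val_two_le (w : Valuation F Z0) : w (2 : F) ≤ 1 := by
  have := w.map_add_le (x := (1 : F)) (y := 1) (g := 1) (by simp) (by simp)
  convert this using 2; norm_num

theorem val_four_eq (w : Valuation F Z0) : w (4 : F) = w 2 ^ 2 := by
  rw [← map_pow]; norm_num

theorem val_four_ne [CharZero F] (w : Valuation F Z0) : w (4 : F) ≠ 0 :=
  (Valuation.ne_zero_iff w).mpr (by norm_num)

theorem val_two_ne [CharZero F] (w : Valuation F Z0) : w (2 : F) ≠ 0 :=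
  (Valuation.ne_zero_iff w).mpr (by norm_num)

variable [CharZero F] {w : Valuation F Z0}

/-- A1 (Newton iteration) -/
theorem LS_newton {x : Fˣ} (hx : x ∈ LS w) (m : ℤ) :
    ∃ y : Fˣ, w ((x : F) / (y : F) ^ 2 - 1) < WithZero.exp m := by
  have h4 : w 4 ≤ 1 := val_four_le w
  have h40 : w (4 : F) ≠ 0 := val_four_ne w
  have key : ∀ n : ℕ, ∃ y : Fˣ,
      w ((x : F) / (y : F) ^ 2 - 1) ≤ w 4 * WithZero.exp (-(n + 1 : ℤ)) := by
    intro n
    induction n with
    | zero =>
      obtain ⟨y, hy⟩ := hx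
      refine ⟨y, ?_⟩
      rw [z0_lt_iff_le_mul h40] at hy
      simpa using hy
    | succ n ih =>
      obtain ⟨y, hy⟩ := ih
      set e : F := ((x : F) / (y : F) ^ 2 - 1) / 4 with he
      have hwe : w e ≤ WithZero.exp (-(n + 1 : ℤ)) := by
        rw [he, map_div₀]
        rw [div_le_iff₀ (zero_lt_iff.mpr h40), mul_comm]
        exact hy
      have hy0 : (y : F) ≠ 0 := y.ne_zero
      have hx4 : (x : F) / (y : F) ^ 2 = 1 + 4 * e := by
        rw [he]; field_simp; ring
      have hexp1 : WithZero.exp (-(n + 1 : ℤ)) < (1 : Z0) := by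
        rw [← WithZero.exp_zero, WithZero.exp_lt_exp]; omega
      have hwe1 : w e < 1 := lt_of_le_of_lt hwe hexp1
      have hw2e : w (2 * e) < 1 := by
        rw [map_mul]
        calc w 2 * w e ≤ 1 * w e := mul_le_mul_left (val_two_le w) _
          _ < 1 := by rwa [one_mul]
      have h1 : w (1 + 2 * e) = 1 := w.map_one_add_of_lt hw2e
      have hne : (1 + 2 * e : F) ≠ 0 := by
        intro h; rw [h, map_zero] at h1; exact zero_ne_one h1
      refine ⟨y * Units.mk0 _ hne, ?_⟩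
      have e1 : (x : F) / ((y * Units.mk0 _ hne : Fˣ) : F) ^ 2 - 1 =
          -(4 * e ^ 2 / (1 + 2 * e) ^ 2) := by
        rw [Units.val_mul, Units.val_mk0, mul_pow, ← div_div, hx4,
          div_sub_one (pow_ne_zero 2 hne), ← neg_div]
        congr 1
        ring
      rw [e1, Valuation.map_neg, map_div₀, map_mul, map_pow, map_pow, h1, one_pow, div_one]
      refine mul_le_mul_right ?_ _
      calc w e ^ 2 ≤ (WithZero.exp (-(n + 1 : ℤ))) ^ 2 := pow_le_pow_left' hwe 2
        _ = WithZero.exp (2 • (-(n + 1 : ℤ))) := by rw [WithZero.exp_nsmul]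
        _ ≤ WithZero.exp (-((n + 1 : ℕ) + 1 : ℤ)) := by
          rw [WithZero.exp_le_exp]; push_cast; simp only [nsmul_eq_mul]; push_cast; omega
  obtain ⟨y, hy⟩ := key (m.natAbs)
  refine ⟨y, lt_of_le_of_lt hy ?_⟩
  calc w 4 * WithZero.exp (-((m.natAbs : ℕ) + 1 : ℤ)) ≤
        1 * WithZero.exp (-((m.natAbs : ℕ) + 1 : ℤ)) := mul_le_mul_left h4 _
    _ < WithZero.exp m := by rw [one_mul, WithZero.exp_lt_exp]; omega

/-- Newton iteration with an arbitrary nonzero bound. -/
theorem LS_newton' {x : Fˣ} (hx : x ∈ LS w) {γ : Z0} (hγ : γ ≠ 0) :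
    ∃ y : Fˣ, w ((x : F) / (y : F) ^ 2 - 1) < γ := by
  obtain ⟨y, hy⟩ := LS_newton hx (WithZero.log γ)
  exact ⟨y, by rwa [WithZero.exp_log hγ] at hy⟩

theorem LS_of_close {x : Fˣ} (h : w ((x : F) - 1) < w 4) : x ∈ LS w :=
  ⟨1, by simpa using h⟩

theorem sq_mem_LS (x : Fˣ) : x ^ 2 ∈ LS w := by
  refine ⟨x, ?_⟩
  have hx : (x : F) ≠ 0 := x.ne_zero
  rw [Units.val_pow_eq_pow_val, div_self (pow_ne_zero 2 hx), sub_self, map_zero]
  exact zero_lt_iff.mpr (val_four_ne w)

theorem LS_even {x : Fˣ} (hx : x ∈ LS w) : ∃ y : Fˣ, w (x : F) = w (y : F) ^ 2 := by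
  obtain ⟨y, hy⟩ := hx
  refine ⟨y, ?_⟩
  have hy0 : (y : F) ≠ 0 := y.ne_zero
  have h1 : w ((x : F) / (y : F) ^ 2) = 1 := by
    have := w.map_one_add_of_lt (x := (x : F) / (y : F) ^ 2 - 1)
      (lt_of_lt_of_le hy (val_four_le w))
    rwa [add_sub_cancel] at this
  rw [map_div₀, map_pow, div_eq_one_iff_eq] at h1
  · exact h1
  · exact pow_ne_zero 2 ((Valuation.ne_zero_iff w).mpr hy0)

omit [CharZero F] in
theorem mem_sup_iff_exists {a b : Fˣ} {L : Subgroup Fˣ} :
    b ∈ NF a ⊔ L ↔ ∃ μ ∈ L, ∃ x y : F, (b : F) * μ = x ^ 2 - a * y ^ 2 := by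
  constructor
  · intro h
    obtain ⟨n, hn, m, hm, h⟩ := Subgroup.mem_sup.mp h
    obtain ⟨x, y, hxy⟩ := hn
    refine ⟨m⁻¹, L.inv_mem hm, x, y, ?_⟩
    rw [← hxy, ← Units.val_mul, ← h, mul_inv_cancel_right]
  · rintro ⟨μ, hμ, x, y, h⟩
    refine Subgroup.mem_sup.mpr ⟨b * μ, ⟨x, y, by rw [Units.val_mul, h]⟩, μ⁻¹, L.inv_mem hμ, ?_⟩
    rw [mul_inv_cancel_right]

/-- A2' : if `a` is a local square, everything is a local norm -/
theorem NF_sup_of_mem' (a : Fˣ) (ha : a ∈ LS w) :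
    NF a ⊔ LS w = ⊤ := by
  rw [eq_top_iff]
  intro b _
  by_cases hb1 : (b : F) = 1
  · have : b = 1 := Units.ext hb1
    rw [this]; exact one_mem _
  have hb0 : (b : F) ≠ 0 := b.ne_zero
  have hb1' : (b : F) - 1 ≠ 0 := sub_ne_zero.mpr hb1
  -- the correction
  have hγ : w 4 * (w 4 * w (b : F) / w ((b : F) - 1) ^ 2) ≠ 0 := by
    refine mul_ne_zero (val_four_ne w) (div_ne_zero (mul_ne_zero (val_four_ne w) ?_) (pow_ne_zero 2 ?_))
    · exact (Valuation.ne_zero_iff w).mpr hb0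
    · exact (Valuation.ne_zero_iff w).mpr hb1'
  obtain ⟨l, hl⟩ := LS_newton' ha hγ
  set δ : F := (a : F) / (l : F) ^ 2 - 1 with hδ
  have hl0 : (l : F) ≠ 0 := l.ne_zero
  have ha' : (a : F) = (l : F) ^ 2 * (1 + δ) := by rw [hδ]; field_simp; ring
  set t : F := -(δ / 4 * ((b : F) - 1) ^ 2 / b) with ht
  have hwt : w t < w 4 := by
    rw [ht, Valuation.map_neg, map_div₀, map_mul, map_div₀, map_pow]
    have h1 : w δ * w ((b : F) - 1) ^ 2 < w 4 * (w 4 * w (b : F)) := by
      have hpos : 0 < w ((b : F) - 1) ^ 2 :=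
        zero_lt_iff.mpr (pow_ne_zero 2 ((Valuation.ne_zero_iff w).mpr hb1'))
      calc w δ * w ((b : F) - 1) ^ 2 <
          (w 4 * (w 4 * w (b : F) / w ((b : F) - 1) ^ 2)) * w ((b : F) - 1) ^ 2 :=
            mul_lt_mul_of_pos_right hl hpos
        _ = w 4 * (w 4 * w (b : F)) := by
            rw [mul_assoc, div_mul_cancel₀ _ hpos.ne']
    have hbpos : 0 < w (b : F) := zero_lt_iff.mpr ((Valuation.ne_zero_iff w).mpr hb0)
    have h4pos : 0 < w (4 : F) := zero_lt_iff.mpr (val_four_ne w)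
    rw [div_lt_iff₀ hbpos, div_mul_eq_mul_div, div_lt_iff₀ h4pos]
    calc w δ * w ((b : F) - 1) ^ 2 < w 4 * (w 4 * w (b : F)) := h1
      _ = w 4 * w (b : F) * w 4 := by rw [mul_comm]
  have h1t : w (1 + t) = 1 := w.map_one_add_of_lt (lt_of_lt_of_le hwt (val_four_le w))
  have hne : (1 + t : F) ≠ 0 := by
    intro h; rw [h, map_zero] at h1t; exact zero_ne_one h1t
  rw [mem_sup_iff_exists]
  refine ⟨Units.mk0 _ hne, LS_of_close (by simpa using hwt), ((b : F) + 1) / 2,
    ((b : F) - 1) / (2 * l), ?_⟩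
  rw [Units.val_mk0, ha', ht]
  field_simp
  ring

/-- A2' : if `a` is a local square, everything is a local norm -/
theorem NF_sup_of_mem (_ : ∃ π : F, w π = WithZero.exp (-1)) (a : Fˣ) (ha : a ∈ LS w) :
    NF a ⊔ LS w = ⊤ := NF_sup_of_mem' a ha

/-- A3 symmetry of the local norm residue symbol -/
theorem mem_symm (a b : Fˣ) (h : b ∈ NF a ⊔ LS w) : a ∈ NF b ⊔ LS w := by
  rw [mem_sup_iff_exists] at h
  obtain ⟨μ, hμ, x, y, hxy⟩ := h
  have hb0 : (b : F) ≠ 0 := b.ne_zero
  have ha0 : (a : F) ≠ 0 := a.ne_zero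
  by_cases hy : y = 0
  · -- `b` is a local square
    have hx0 : x ≠ 0 := by
      rintro rfl
      rw [hy] at hxy
      simp at hxy
    have hb : b ∈ LS w := by
      have e : b = (Units.mk0 x hx0) ^ 2 * μ⁻¹ := by
        rw [eq_mul_inv_iff_mul_eq]
        ext
        rw [Units.val_mul, hxy, hy, Units.val_pow_eq_pow_val, Units.val_mk0]
        ring
      rw [e]
      exact (LS w).mul_mem (sq_mem_LS _) ((LS w).inv_mem hμ)
    rw [NF_sup_of_mem' b hb]
    exact Subgroup.mem_top _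
  · have hμ0 : (μ : F) ≠ 0 := μ.ne_zero
    set B : Z0 := w ((b : F) * μ / (a * y ^ 2)) with hB
    have hB0 : B ≠ 0 := by
      rw [hB]
      refine (Valuation.ne_zero_iff w).mpr ?_
      exact div_ne_zero (mul_ne_zero hb0 hμ0) (mul_ne_zero ha0 (pow_ne_zero 2 hy))
    have h4pos : 0 < w (4 : F) := zero_lt_iff.mpr (val_four_ne w)
    have hγ : min (w 4) (w 4 / B) ≠ 0 := by
      rw [← zero_lt_iff]
      exact lt_min h4pos (zero_lt_iff.mpr (div_ne_zero (val_four_ne w) hB0))
    obtain ⟨l, hl⟩ := LS_newton' hμ hγ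
    set δ : F := (μ : F) / (l : F) ^ 2 - 1 with hδ
    have hδ4 : w δ < w 4 := lt_of_lt_of_le hl (min_le_left _ _)
    have hδB : w δ * B < w 4 := by
      have := lt_of_lt_of_le hl (min_le_right _ _)
      rwa [lt_div_iff₀ (zero_lt_iff.mpr hB0)] at this
    have hl0 : (l : F) ≠ 0 := l.ne_zero
    have h1δ : w (1 + δ) = 1 := w.map_one_add_of_lt (lt_of_lt_of_le hδ4 (val_four_le w))
    have hδne : (1 + δ : F) ≠ 0 := by
      intro h; rw [h, map_zero] at h1δ; exact zero_ne_one h1δ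
    have hμ' : (μ : F) = (l : F) ^ 2 * (1 + δ) := by rw [hδ]; field_simp; ring
    -- t = b l^2 δ / (a y^2)
    set t : F := (b : F) * l ^ 2 * δ / (a * y ^ 2) with ht
    have hwt : w t < w 4 := by
      have e : t = ((b : F) * μ / (a * y ^ 2)) * δ / (1 + δ) := by
        rw [ht, hμ']; field_simp
      rw [e, map_div₀, h1δ, div_one, map_mul, mul_comm]
      exact hδB
    have h1t : w (1 + t) = 1 := w.map_one_add_of_lt (lt_of_lt_of_le hwt (val_four_le w))
    have hne : (1 + t : F) ≠ 0 := by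
      intro h; rw [h, map_zero] at h1t; exact zero_ne_one h1t
    rw [mem_sup_iff_exists]
    refine ⟨Units.mk0 _ hne, LS_of_close (by simpa using hwt), x / y, l / y, ?_⟩
    have e2 : (x : F) ^ 2 = b * ((l : F) ^ 2 * (1 + δ)) + a * y ^ 2 := by
      rw [← hμ', hxy]; ring
    rw [Units.val_mk0, ht, div_pow, e2]
    field_simp
    ring

/-! ### Nontriviality -/

omit [CharZero F] in
theorem AdmC.norm_eq {c : F} (hc : AdmC w c) (h2 : (2 : F) ≠ 0) (x z : F) :
    w (x ^ 2 - (1 + 4 * c) * z ^ 2) = max (w (x - z)) (w (2 * z)) ^ 2 := by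
  have h := hc.2 ((x - z) / 2) z
  have e : x ^ 2 - (1 + 4 * c) * z ^ 2 =
      2 ^ 2 * (((x - z) / 2) ^ 2 + (x - z) / 2 * z - c * z ^ 2) := by
    field_simp; ring
  have h20 : w (2 : F) ≠ 0 := (Valuation.ne_zero_iff w).mpr h2
  have hm : w 2 * max (w ((x - z) / 2)) (w z) = max (w 2 * w ((x - z) / 2)) (w 2 * w z) :=
    Monotone.map_max (f := fun t => w 2 * t) (fun a b h => mul_le_mul_right h _)
  rw [e, map_mul, h, map_pow, ← mul_pow, hm, ← map_mul, ← map_mul]
  congr 4
  field_simp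

omit [CharZero F] in
theorem AdmC.congr {c c' : F} (hc : AdmC w c) (h : w (c' - c) < 1) : AdmC w c' := by
  refine ⟨?_, fun p q => ?_⟩
  · have : c' = (c' - c) + c := by ring
    rw [this]
    exact w.map_add_le h.le hc.1
  · have e : p ^ 2 + p * q - c' * q ^ 2 = (p ^ 2 + p * q - c * q ^ 2) + -((c' - c) * q ^ 2) := by
      ring
    by_cases hq : q = 0
    · subst hq
      simp
    · rw [e]
      have hlt : w (-((c' - c) * q ^ 2)) < w (p ^ 2 + p * q - c * q ^ 2) := by
        rw [hc.2 p q, Valuation.map_neg, map_mul, map_pow]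
        have hq0 : 0 < w q := zero_lt_iff.mpr ((Valuation.ne_zero_iff w).mpr hq)
        calc w (c' - c) * w q ^ 2 < 1 * w q ^ 2 := mul_lt_mul_of_pos_right h (pow_pos hq0 2)
          _ ≤ max (w p) (w q) ^ 2 := by
            rw [one_mul]; exact pow_le_pow_left' (le_max_right _ _) 2
      rw [Valuation.map_add_eq_of_lt_left w hlt, hc.2 p q]


/-- A2 -/
theorem exists_not_norm {c : F} (hc : AdmC w c) {π : F} (hπ : w π = WithZero.exp (-1))
    (a : Fˣ) (ha : a ∉ LS w) : ∃ b : Fˣ, b ∉ NF a ⊔ LS w := by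
  have hπ0 : π ≠ 0 := by
    rintro rfl
    rw [map_zero] at hπ
    exact WithZero.exp_ne_zero hπ.symm
  have h2 : (2 : F) ≠ 0 := two_ne_zero
  have ha0 : (a : F) ≠ 0 := a.ne_zero
  -- parity of the valuation
  have odd_ne_sq : ∀ x : Z0, ∀ k : ℤ, x ^ 2 ≠ WithZero.exp (2 * k + 1) := by
    intro x k h
    have h' := congrArg WithZero.log h
    rw [WithZero.log_pow, WithZero.log_exp, nsmul_eq_mul] at h'
    push_cast at h'
    omega
  by_cases hodd : ∃ (r : F) (k : ℤ), w (a - r ^ 2) = WithZero.exp (2 * k + 1)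
  · obtain ⟨r, k, hr⟩ := hodd
    have hbig : w (4 * r ^ 2) < w (a - r ^ 2) := by
      rcases lt_trichotomy (w (a - r ^ 2)) (w (4 * r ^ 2)) with h | h | h
      · exfalso
        apply ha
        have hr0 : r ≠ 0 := by
          rintro rfl
          simp at h
        refine ⟨Units.mk0 r hr0, ?_⟩
        have hrp : 0 < w r ^ 2 := pow_pos (zero_lt_iff.mpr ((Valuation.ne_zero_iff w).mpr hr0)) 2
        rw [Units.val_mk0, div_sub_one (pow_ne_zero 2 hr0), map_div₀, map_pow, div_lt_iff₀ hrp]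
        rwa [map_mul, map_pow] at h
      · exfalso
        apply odd_ne_sq (w (2 * r)) k
        rw [← hr, h, ← map_pow]
        congr 1; ring
      · exact h
    set u : F := 1 + 4 * c with hu
    have hwu : w u = 1 := by
      have h := hc.norm_eq h2 0 1
      have e : (0 : F) ^ 2 - (1 + 4 * c) * 1 ^ 2 = -u := by rw [hu]; ring
      rw [e, Valuation.map_neg] at h
      rw [h, zero_sub, Valuation.map_neg, map_one, mul_one, max_eq_left (val_two_le w), one_pow]
    have hu0 : u ≠ 0 := by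
      intro h; rw [h, map_zero] at hwu; exact zero_ne_one hwu
    have hwb : w (a - u * r ^ 2) = w (a - r ^ 2) := by
      have e : (a : F) - u * r ^ 2 = (a - r ^ 2) + -(c * (4 * r ^ 2)) := by rw [hu]; ring
      rw [e]
      apply Valuation.map_add_eq_of_lt_left
      rw [Valuation.map_neg, map_mul]
      calc w c * w (4 * r ^ 2) ≤ 1 * w (4 * r ^ 2) := mul_le_mul_left hc.1 _
        _ < w (a - r ^ 2) := by rwa [one_mul]
    have hb0 : -(u * (a - u * r ^ 2)) ≠ 0 := by
      have : w ((a : F) - u * r ^ 2) ≠ 0 := by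
        rw [hwb, hr]; exact WithZero.exp_ne_zero
      exact neg_ne_zero.mpr (mul_ne_zero hu0 ((Valuation.ne_zero_iff w).mp this))
    refine ⟨Units.mk0 _ hb0, ?_⟩
    rw [mem_sup_iff_exists]
    rintro ⟨μ, hμ, x, y, hxy⟩
    rw [Units.val_mk0] at hxy
    obtain ⟨l, hl⟩ := hμ
    have hl0 : (l : F) ≠ 0 := l.ne_zero
    set e : F := ((μ : F) / (l : F) ^ 2 - 1) / 4 with he
    have hwe : w e < 1 := by
      rw [he, map_div₀, div_lt_iff₀ (zero_lt_iff.mpr (val_four_ne w)), one_mul]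
      exact hl
    have hμe : (μ : F) = (l : F) ^ 2 * (1 + 4 * e) := by rw [he]; field_simp; ring
    set c' : F := c + e + 4 * c * e with hc'
    have hcc : AdmC w c' := by
      refine hc.congr ?_
      have : c' - c = e * (1 + 4 * c) := by rw [hc']; ring
      rw [this, map_mul, ← hu, hwu, mul_one]
      exact hwe
    -- the identity
    have key : -(u * (a - u * r ^ 2)) * (y ^ 2 - (1 + 4 * c') * (l : F) ^ 2) =
        -(u * (x ^ 2 - (1 + 4 * c) * (r * y) ^ 2)) := by
      have e1 : (1 + 4 * c') * (l : F) ^ 2 = u * μ := by rw [hμe, hc', hu]; ring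
      rw [e1, mul_sub, mul_left_comm, hxy, hu]
      ring
    set A : Z0 := max (w (y - l)) (w (2 * l)) with hA
    have hL : w (-(u * (a - u * r ^ 2)) * (y ^ 2 - (1 + 4 * c') * (l : F) ^ 2)) =
        WithZero.exp (2 * k + 1) * A ^ 2 := by
      rw [map_mul, hcc.norm_eq h2, Valuation.map_neg, map_mul, hwu, one_mul, hwb, hr]
    have hR : w (-(u * (x ^ 2 - (1 + 4 * c) * (r * y) ^ 2))) =
        max (w (x - r * y)) (w (2 * (r * y))) ^ 2 := by
      rw [Valuation.map_neg, map_mul, hwu, one_mul, hc.norm_eq h2]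
    have hwk : WithZero.exp (2 * k + 1) * A ^ 2 = max (w (x - r * y)) (w (2 * (r * y))) ^ 2 := by
      rw [← hL, ← hR, key]
    have hA0 : A ≠ 0 := by
      rw [← zero_lt_iff, hA]
      exact lt_of_lt_of_le (zero_lt_iff.mpr ((Valuation.ne_zero_iff w).mpr (mul_ne_zero h2 hl0)))
        (le_max_right _ _)
    apply odd_ne_sq (max (w (x - r * y)) (w (2 * (r * y))) / A) k
    rw [div_pow, ← hwk, mul_div_assoc, div_self (pow_ne_zero 2 hA0), mul_one]
  · push Not at hodd
    refine ⟨Units.mk0 π hπ0, ?_⟩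
    rw [mem_sup_iff_exists]
    rintro ⟨μ, hμ, x, y, hxy⟩
    rw [Units.val_mk0] at hxy
    obtain ⟨l, hl⟩ := LS_even hμ
    have hl0 : w (l : F) ≠ 0 := (Valuation.ne_zero_iff w).mpr l.ne_zero
    have hw : w (x ^ 2 - a * y ^ 2) = WithZero.exp (-1) * w (l : F) ^ 2 := by
      rw [← hxy, map_mul, hπ, hl]
    by_cases hy : y = 0
    · apply odd_ne_sq (w x / w (l : F)) (-1)
      rw [hy] at hw
      simp only [ne_eq, OfNat.ofNat_ne_zero, not_false_eq_true, zero_pow, mul_zero, sub_zero,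
        map_pow] at hw
      rw [div_pow, hw, mul_div_assoc, div_self (pow_ne_zero 2 hl0), mul_one]
      norm_num
    · have hy0 : w y ≠ 0 := (Valuation.ne_zero_iff w).mpr hy
      have e : w (a - (x / y) ^ 2) = WithZero.exp (-1) * (w (l : F) / w y) ^ 2 := by
        have e1 : (a : F) - (x / y) ^ 2 = -((x ^ 2 - a * y ^ 2) / y ^ 2) := by
          field_simp; ring
        rw [e1, Valuation.map_neg, map_div₀, hw, map_pow, div_pow, mul_div_assoc]
      have hq : w (l : F) / w y ≠ 0 := div_ne_zero hl0 hy0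
      apply hodd (x / y) (WithZero.log (w (l : F) / w y) - 1)
      rw [e, ← WithZero.exp_log hq, ← WithZero.exp_nsmul, ← WithZero.exp_add, WithZero.log_exp]
      congr 1
      simp only [nsmul_eq_mul]
      push_cast
      ring

end local_

end Vale.Agent.P011.Arith
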