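import Vale.Agent.P011.Arith.LocalB

/-!
The index of the local squares.
-/

open NumberField IsDedekindDomain

namespace Vale.Agent.P011.Arith

/-- The cokernel and the kernel of squaring have the same order. -/
theorem card_quot_sq (A : Type) [CommGroup A] [Finite A] :
    Nat.card (A ⧸ (powMonoidHom 2 : A →* A).range) =
      Nat.card (powMonoidHom 2 : A →* A).ker := by
  have h1 := Subgroup.card_eq_card_quotient_mul_card_subgroup (powMonoidHom 2 : A →* A).range
  have h2 := Subgroup.card_eq_card_quotient_mul_card_subgroup (powMonoidHom 2 : A →* A).ker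
  have h3 : Nat.card (A ⧸ (powMonoidHom 2 : A →* A).ker) =
      Nat.card (powMonoidHom 2 : A →* A).range :=
    Nat.card_congr (QuotientGroup.quotientKerEquivRange _).toEquiv
  rw [h3] at h2
  have h4 : 0 < Nat.card (powMonoidHom 2 : A →* A).range := Nat.card_pos
  rw [h1, mul_comm] at h2
  exact Nat.eq_of_mul_eq_mul_left h4 h2

variable {F : Type} [Field F] [NumberField F]

theorem finite_quot_pow (v : HeightOneSpectrum (𝓞 F)) (n : ℕ) :
    Finite (𝓞 F ⧸ v.asIdeal ^ n) :=
  Ideal.finiteQuotientOfFreeOfNeBot _ (pow_ne_zero n v.ne_bot)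

theorem card_quot_pow (v : HeightOneSpectrum (𝓞 F)) (n : ℕ) :
    Nat.card (𝓞 F ⧸ v.asIdeal ^ n) = (Ideal.absNorm v.asIdeal) ^ n := by
  rw [← map_pow, Ideal.absNorm_apply, Submodule.cardQuot_apply]

theorem absNorm_pos' (v : HeightOneSpectrum (𝓞 F)) : 0 < Ideal.absNorm v.asIdeal := by
  rw [Nat.pos_iff_ne_zero, Ne, Ideal.absNorm_eq_zero_iff]
  exact v.ne_bot

/-- The kernel of reduction from `𝓞 / v ^ (2 * e + 1)` to `𝓞 / v ^ (e + 1)`. -/
theorem card_ker_factor (v : HeightOneSpectrum (𝓞 F)) (e : ℕ) :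
    Nat.card (RingHom.ker (Ideal.Quotient.factor (S := v.asIdeal ^ (2 * e + 1))
      (T := v.asIdeal ^ (e + 1)) (Ideal.pow_le_pow_right (by omega)))) =
      Ideal.absNorm v.asIdeal ^ e := by
  set f := Ideal.Quotient.factor (S := v.asIdeal ^ (2 * e + 1))
      (T := v.asIdeal ^ (e + 1)) (Ideal.pow_le_pow_right (by omega)) with hf
  have hfs : Function.Surjective f := Ideal.Quotient.factor_surjective _
  have h1 := AddSubgroup.card_eq_card_quotient_mul_card_addSubgroup f.toAddMonoidHom.ker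
  have h2 : Nat.card ((𝓞 F ⧸ v.asIdeal ^ (2 * e + 1)) ⧸ f.toAddMonoidHom.ker) =
      Nat.card (𝓞 F ⧸ v.asIdeal ^ (e + 1)) :=
    Nat.card_congr (QuotientAddGroup.quotientKerEquivOfSurjective f.toAddMonoidHom hfs).toEquiv
  have h3 : Nat.card f.toAddMonoidHom.ker = Nat.card (RingHom.ker f) := rfl
  rw [h2, h3, card_quot_pow, card_quot_pow] at h1
  have h4 : 0 < Ideal.absNorm v.asIdeal ^ (e + 1) := pow_pos (absNorm_pos' v) _
  have h5 : Ideal.absNorm v.asIdeal ^ (2 * e + 1) =
      Ideal.absNorm v.asIdeal ^ (e + 1) * Ideal.absNorm v.asIdeal ^ e := by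
    rw [← pow_add]; congr 1; omega
  rw [h5] at h1
  exact (Nat.eq_of_mul_eq_mul_left h4 h1).symm

/-- The two-torsion of the units of `𝓞 / v ^ (2 * e + 1)`. -/
theorem card_two_torsion_le (v : HeightOneSpectrum (𝓞 F)) (e : ℕ) :
    Nat.card (powMonoidHom 2 : (𝓞 F ⧸ v.asIdeal ^ (2 * e + 1))ˣ →* _).ker ≤
      2 * Ideal.absNorm v.asIdeal ^ e := by
  have : Finite (𝓞 F ⧸ v.asIdeal ^ (2 * e + 1)) := finite_quot_pow v _
  rw [← card_ker_factor v e]
  set f := Ideal.Quotient.factor (S := v.asIdeal ^ (2 * e + 1))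
      (T := v.asIdeal ^ (e + 1)) (Ideal.pow_le_pow_right (by omega)) with hf
  have key : ∀ x : (powMonoidHom 2 : (𝓞 F ⧸ v.asIdeal ^ (2 * e + 1))ˣ →* _).ker,
      ∃ p : Bool × RingHom.ker f,
        (((x : (𝓞 F ⧸ v.asIdeal ^ (2 * e + 1))ˣ) : 𝓞 F ⧸ v.asIdeal ^ (2 * e + 1))) =
          (if p.1 then 1 else -1) + (p.2 : 𝓞 F ⧸ v.asIdeal ^ (2 * e + 1)) := by
    rintro ⟨x, hx⟩
    rw [MonoidHom.mem_ker, powMonoidHom_apply] at hx
    obtain ⟨s, hs⟩ := Ideal.Quotient.mk_surjective (x : 𝓞 F ⧸ v.asIdeal ^ (2 * e + 1))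
    have hs2 : (s - 1) * (s + 1) ∈ v.asIdeal ^ (2 * e + 1) := by
      rw [← Ideal.Quotient.eq_zero_iff_mem, map_mul, map_sub, map_add, map_one, hs]
      have := congrArg Units.val hx
      rw [Units.val_pow_eq_pow_val, Units.val_one] at this
      linear_combination this
    rw [← HeightOneSpectrum.intValuation_le_pow_iff_mem, map_mul] at hs2
    have hor : s - 1 ∈ v.asIdeal ^ (e + 1) ∨ s + 1 ∈ v.asIdeal ^ (e + 1) := by
      by_contra hcon
      push Not at hcon
      rw [← HeightOneSpectrum.intValuation_le_pow_iff_mem, not_le,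
        ← HeightOneSpectrum.intValuation_le_pow_iff_mem, not_le] at hcon
      obtain ⟨hc1, hc2⟩ := hcon
      have g1 : WithZero.exp (-(e : ℤ)) ≤ v.intValuation (s - 1) := by
        by_contra hlt
        rw [not_le, z0_lt_iff_le_mul WithZero.exp_ne_zero, ← WithZero.exp_add] at hlt
        apply absurd hlt
        rw [not_le]
        convert hc1 using 2
        push_cast; ring
      have g2 : WithZero.exp (-(e : ℤ)) ≤ v.intValuation (s + 1) := by
        by_contra hlt
        rw [not_le, z0_lt_iff_le_mul WithZero.exp_ne_zero, ← WithZero.exp_add] at hlt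
        apply absurd hlt
        rw [not_le]
        convert hc2 using 2
        push_cast; ring
      have g3 := mul_le_mul' g1 g2
      have g4 := le_trans g3 hs2
      rw [← WithZero.exp_add, WithZero.exp_le_exp] at g4
      push_cast at g4
      omega
    rcases hor with h | h
    · refine ⟨(true, ⟨Ideal.Quotient.mk _ (s - 1), ?_⟩), ?_⟩
      · rw [RingHom.mem_ker, hf, Ideal.Quotient.factor_mk, Ideal.Quotient.eq_zero_iff_mem]
        exact h
      · simp only [if_true]
        rw [map_sub, map_one, hs]; ring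
    · refine ⟨(false, ⟨Ideal.Quotient.mk _ (s + 1), ?_⟩), ?_⟩
      · rw [RingHom.mem_ker, hf, Ideal.Quotient.factor_mk, Ideal.Quotient.eq_zero_iff_mem]
        exact h
      · simp only [Bool.false_eq_true, if_false]
        rw [map_add, map_one, hs]; ring
  choose φ hφ using key
  have hinj : Function.Injective φ := by
    intro x y hxy
    have h1 := hφ x
    rw [hxy, ← hφ y] at h1
    exact Subtype.ext (Units.ext h1)
  have h2 := Nat.card_le_card_of_injective φ hinj
  have h3 : Nat.card Bool = 2 := by rw [Nat.card_eq_fintype_card, Fintype.card_bool]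
  rwa [Nat.card_prod, h3] at h2

end Vale.Agent.P011.Arith
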