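import Vale.Agent.P011.Arith.LocalC

/-!
Representatives modulo the local squares and the bound for the index.
-/

open NumberField IsDedekindDomain

namespace Vale.Agent.P011.Arith

variable {F : Type} [Field F] [NumberField F]

theorem exists_unit_lift (v : HeightOneSpectrum (𝓞 F)) (n : ℕ)
    (x : (𝓞 F ⧸ v.asIdeal ^ (n + 1))ˣ) :
    ∃ s : 𝓞 F, Ideal.Quotient.mk _ s = (x : 𝓞 F ⧸ v.asIdeal ^ (n + 1)) ∧ s ∉ v.asIdeal := by
  have : v.asIdeal.IsMaximal := v.isMaximal
  obtain ⟨s, hs⟩ := Ideal.Quotient.mk_surjective (x : 𝓞 F ⧸ v.asIdeal ^ (n + 1))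
  refine ⟨s, hs, ?_⟩
  have h := Ideal.Quotient.isUnit_mk_pow_iff_notMem v.asIdeal (n := n + 1) (by omega) (x := s)
  rw [← h, hs]
  exact x.isUnit

theorem exists_two_exp (v : HeightOneSpectrum (𝓞 F)) :
    ∃ e : ℕ, v.valuation F 2 = WithZero.exp (-(e : ℤ)) := by
  have h0 : v.valuation F 2 ≠ 0 := val_two_ne _
  have h1 := val_two_le (v.valuation F)
  refine ⟨(-(WithZero.log (v.valuation F 2))).toNat, ?_⟩
  have h2 : WithZero.log (v.valuation F 2) ≤ 0 := by
    rw [WithZero.log_le_iff_le_exp h0, WithZero.exp_zero]; exact h1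
  rw [Int.toNat_of_nonneg (by omega), neg_neg, WithZero.exp_log h0]

omit [NumberField F] in
theorem alg_ne_zero (v : HeightOneSpectrum (𝓞 F)) {r : 𝓞 F} (hr : r ∉ v.asIdeal) :
    algebraMap (𝓞 F) F r ≠ 0 := by
  intro h0
  have h : r = 0 := by
    have := (FaithfulSMul.algebraMap_injective (𝓞 F) F) (a₁ := r) (a₂ := 0)
    exact this (by rw [h0, map_zero])
  rw [h] at hr
  exact hr (Ideal.zero_mem _)

theorem val_eq_one (v : HeightOneSpectrum (𝓞 F)) {r : 𝓞 F} (hr : r ∉ v.asIdeal) :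
    v.valuation F (algebraMap (𝓞 F) F r) = 1 := by
  rw [HeightOneSpectrum.valuation_of_algebraMap, HeightOneSpectrum.intValuation_eq_one_iff]
  exact hr

/-- An integer prime to `v` as a unit of the field. -/
noncomputable def emb (v : HeightOneSpectrum (𝓞 F)) (r : 𝓞 F) (hr : r ∉ v.asIdeal) : Fˣ :=
  Units.mk0 (algebraMap (𝓞 F) F r) (alg_ne_zero v hr)

omit [NumberField F] in
theorem emb_val (v : HeightOneSpectrum (𝓞 F)) (r : 𝓞 F) (hr : r ∉ v.asIdeal) :
    (emb v r hr : F) = algebraMap (𝓞 F) F r := rfl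

/-- Congruent integers differ by a local square. -/
theorem emb_cong (v : HeightOneSpectrum (𝓞 F)) (e : ℕ)
    (he : v.valuation F 2 = WithZero.exp (-(e : ℤ))) (s s' t : 𝓞 F) (hs : s ∉ v.asIdeal)
    (hs' : s' ∉ v.asIdeal) (ht : t ∉ v.asIdeal)
    (h : s - s' * t ^ 2 ∈ v.asIdeal ^ (2 * e + 1)) :
    emb v s hs * (emb v s' hs')⁻¹ ∈ LS (v.valuation F) := by
  rw [← HeightOneSpectrum.intValuation_le_pow_iff_mem,
    ← HeightOneSpectrum.valuation_of_algebraMap (K := F)] at h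
  have hw4 : v.valuation F 4 = WithZero.exp (-(2 * e : ℤ)) := by
    rw [val_four_eq, he, ← WithZero.exp_nsmul]
    congr 1
    simp only [nsmul_eq_mul]
    push_cast; ring
  have hs'0 := alg_ne_zero v hs'
  have ht0 := alg_ne_zero v ht
  refine ⟨emb v t ht, ?_⟩
  have e1 : ((emb v s hs * (emb v s' hs')⁻¹ : Fˣ) : F) / (emb v t ht : F) ^ 2 - 1 =
      algebraMap (𝓞 F) F (s - s' * t ^ 2) / (algebraMap (𝓞 F) F s' *
        algebraMap (𝓞 F) F t ^ 2) := by
    rw [Units.val_mul, Units.val_inv_eq_inv_val, emb_val, emb_val, emb_val, map_sub, map_mul,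
      map_pow]
    field_simp
  rw [e1, map_div₀, map_mul, map_pow, val_eq_one v hs', val_eq_one v ht, one_pow, one_mul,
    div_one, hw4]
  refine lt_of_le_of_lt h ?_
  rw [WithZero.exp_lt_exp]
  push_cast
  omega

/-- The representative of a class modulo local squares. -/
noncomputable def piPow (p : Fˣ) (b : Bool) : Fˣ := if b then p else 1

theorem exists_rep (v : HeightOneSpectrum (𝓞 F)) (p : Fˣ)
    (hp : v.valuation F (p : F) = WithZero.exp (-1)) (x : Fˣ) :
    ∃ (b : Bool) (r : 𝓞 F) (hr : r ∉ v.asIdeal),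
      x * (piPow p b * emb v r hr)⁻¹ ∈ LS (v.valuation F) := by
  have hprime : v.asIdeal.IsPrime := v.isPrime
  have hx0 : v.valuation F (x : F) ≠ 0 := (Valuation.ne_zero_iff _).mpr x.ne_zero
  set k : ℤ := WithZero.log (v.valuation F (x : F)) with hk
  obtain ⟨j, b, hjb⟩ : ∃ (j : ℤ) (b : Bool), k = 2 * j - (if b then 1 else 0) := by
    rcases Int.even_or_odd k with ⟨m, hm⟩ | ⟨m, hm⟩
    · exact ⟨m, false, by simp; omega⟩
    · exact ⟨m + 1, true, by simp; omega⟩
  set u : Fˣ := x * (p ^ j) ^ 2 * (piPow p b)⁻¹ with hu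
  have hwu : v.valuation F (u : F) = 1 := by
    have hw1 : v.valuation F ((p ^ j : Fˣ) : F) = WithZero.exp (-j) := by
      rw [Units.val_zpow_eq_zpow_val, map_zpow₀, hp, ← WithZero.exp_zsmul]
      congr 1
      simp
    have hw2 : v.valuation F (((piPow p b)⁻¹ : Fˣ) : F) =
        WithZero.exp (if b then 1 else 0 : ℤ) := by
      cases b
      · simp [piPow]
      · simp only [piPow, if_true]
        rw [Units.val_inv_eq_inv_val, map_inv₀, hp, ← WithZero.exp_neg, neg_neg]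
    rw [hu, Units.val_mul, Units.val_mul, Units.val_pow_eq_pow_val, map_mul, map_mul, map_pow,
      hw1, hw2, ← WithZero.exp_log hx0, ← hk, hjb, ← WithZero.exp_nsmul, ← WithZero.exp_add,
      ← WithZero.exp_add, WithZero.exp_eq_one]
    simp only [nsmul_eq_mul]
    push_cast
    ring
  obtain ⟨n, ⟨d, hd⟩, hnd⟩ :=
    HeightOneSpectrum.exists_primeCompl_mul_eq_of_integer v (u : F) hwu.le
  have hd' : d ∉ v.asIdeal := hd
  have hnd1 : (u : F) * algebraMap (𝓞 F) F d = algebraMap (𝓞 F) F n := hnd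
  have hn' : n ∉ v.asIdeal := by
    intro hn
    rw [← HeightOneSpectrum.valuation_lt_one_iff_mem (K := F)] at hn
    have hn2 : v.valuation F (algebraMap (𝓞 F) F n) = 1 := by
      rw [← hnd1, map_mul, hwu, val_eq_one v hd', one_mul]
    exact absurd hn2 hn.ne
  have hnd' : n * d ∉ v.asIdeal := fun h => (hprime.mem_or_mem h).elim hn' hd'
  refine ⟨b, n * d, hnd', ?_⟩
  have e0 : emb v (n * d) hnd' = u * emb v d hd' ^ 2 := by
    ext
    rw [Units.val_mul, Units.val_pow_eq_pow_val, emb_val, emb_val, map_mul, ← hnd1]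
    ring
  have e1 : x * (piPow p b * emb v (n * d) hnd')⁻¹ = ((p ^ j * emb v d hd') ^ 2)⁻¹ := by
    rw [e0, hu]
    generalize p ^ j = J
    generalize piPow p b = P
    generalize emb v d hd' = D
    ext
    have h1 : (x : F) ≠ 0 := x.ne_zero
    have h2 : (J : F) ≠ 0 := J.ne_zero
    have h3 : (P : F) ≠ 0 := P.ne_zero
    have h4 : (D : F) ≠ 0 := D.ne_zero
    simp only [Units.val_mul, Units.val_inv_eq_inv_val, Units.val_pow_eq_pow_val]
    field_simp
  rw [e1]
  exact (LS _).inv_mem (sq_mem_LS _)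

/-- The index of the local squares is at most twice the order of the cokernel of squaring on the
units of `𝓞 / v ^ (2 * e + 1)`. -/
theorem exists_surj (v : HeightOneSpectrum (𝓞 F)) (e : ℕ)
    (he : v.valuation F 2 = WithZero.exp (-(e : ℤ))) :
    ∃ f : Bool × ((𝓞 F ⧸ v.asIdeal ^ (2 * e + 1))ˣ ⧸
      (powMonoidHom 2 : (𝓞 F ⧸ v.asIdeal ^ (2 * e + 1))ˣ →* _).range) →
        Fˣ ⧸ LS (v.valuation F), Function.Surjective f := by
  have hmax : v.asIdeal.IsMaximal := v.isMaximal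
  have hprime : v.asIdeal.IsPrime := v.isPrime
  obtain ⟨π, hπ⟩ := v.valuation_exists_uniformizer F
  have hπ0 : π ≠ 0 := by
    rintro rfl
    rw [map_zero] at hπ
    exact WithZero.exp_ne_zero hπ.symm
  obtain ⟨p, hwp⟩ : ∃ p : Fˣ, v.valuation F (p : F) = WithZero.exp (-1) :=
    ⟨Units.mk0 π hπ0, hπ⟩
  choose s hs hs' using exists_unit_lift v (2 * e)
  refine ⟨fun q => QuotientGroup.mk (piPow p q.1 * emb v (s q.2.out) (hs' q.2.out)), ?_⟩
  intro X
  obtain ⟨x, rfl⟩ := QuotientGroup.mk_surjective X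
  obtain ⟨b, r, hr, hx⟩ := exists_rep v p hwp x
  have hunit : IsUnit (Ideal.Quotient.mk (v.asIdeal ^ (2 * e + 1)) r) :=
    Ideal.Quotient.isUnit_mk_pow_of_notMem v.asIdeal hr
  refine ⟨(b, QuotientGroup.mk hunit.unit), ?_⟩
  obtain ⟨⟨h, τ, hτ⟩, hout⟩ := QuotientGroup.mk_out_eq_mul
    ((powMonoidHom 2 : (𝓞 F ⧸ v.asIdeal ^ (2 * e + 1))ˣ →* _).range) hunit.unit
  dsimp only
  generalize (QuotientGroup.mk hunit.unit : (𝓞 F ⧸ v.asIdeal ^ (2 * e + 1))ˣ ⧸
      (powMonoidHom 2 : (𝓞 F ⧸ v.asIdeal ^ (2 * e + 1))ˣ →* _).range).out = σ at hout ⊢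
  obtain ⟨t, ht, ht'⟩ := exists_unit_lift v (2 * e) τ
  have hcong : s σ - r * t ^ 2 ∈ v.asIdeal ^ (2 * e + 1) := by
    rw [← Ideal.Quotient.eq_zero_iff_mem, map_sub, hs σ, map_mul, map_pow, ht, hout,
      Units.val_mul]
    simp only
    rw [← hτ, powMonoidHom_apply, Units.val_pow_eq_pow_val, IsUnit.unit_spec, sub_self]
  have hmem := emb_cong v e he (s σ) r t (hs' σ) hr ht' hcong
  rw [QuotientGroup.eq]
  have e2 : (piPow p b * emb v (s σ) (hs' σ))⁻¹ * x =
      (emb v (s σ) (hs' σ) * (emb v r hr)⁻¹)⁻¹ * (x * (piPow p b * emb v r hr)⁻¹) := by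
    generalize emb v (s σ) (hs' σ) = S
    generalize piPow p b = P
    generalize emb v r hr = R
    ext
    have h2 : (S : F) ≠ 0 := S.ne_zero
    have h3 : (P : F) ≠ 0 := P.ne_zero
    have h4 : (R : F) ≠ 0 := R.ne_zero
    simp only [Units.val_mul, Units.val_inv_eq_inv_val]
    field_simp
  rw [e2]
  exact (LS _).mul_mem ((LS _).inv_mem hmem) hx

theorem LS_index_le (v : HeightOneSpectrum (𝓞 F)) (e : ℕ)
    (he : v.valuation F 2 = WithZero.exp (-(e : ℤ))) :
    (LS (v.valuation F)).index ≠ 0 ∧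
      (LS (v.valuation F)).index ≤ 4 * Ideal.absNorm v.asIdeal ^ e := by
  have : Finite (𝓞 F ⧸ v.asIdeal ^ (2 * e + 1)) := finite_quot_pow v _
  obtain ⟨f, hf⟩ := exists_surj v e he
  have hfin : Finite (Fˣ ⧸ LS (v.valuation F)) := Finite.of_surjective f hf
  refine ⟨?_, ?_⟩
  · rw [Subgroup.index]
    exact Nat.card_pos.ne'
  · have h1 := Nat.card_le_card_of_surjective f hf
    have h3 : Nat.card Bool = 2 := by rw [Nat.card_eq_fintype_card, Fintype.card_bool]
    rw [Nat.card_prod, h3, card_quot_sq] at h1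
    have h2 := card_two_torsion_le v e
    rw [Subgroup.index]
    linarith [Nat.mul_le_mul_left 2 h2]

/-- A7 -/
theorem LS_finiteIndex (v : HeightOneSpectrum (𝓞 F)) : (LS (v.valuation F)).index ≠ 0 := by
  obtain ⟨e, he⟩ := exists_two_exp v
  exact (LS_index_le v e he).1

/-- A8: `4` at a nondyadic place, `4 * |O/2|` at a dyadic place -/
theorem prod_LS_index_le (S : Finset (HeightOneSpectrum (𝓞 F)))
    (_ : ∀ v : HeightOneSpectrum (𝓞 F), v.valuation F 2 ≠ 1 → v ∈ S) :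
    ∏ v ∈ S, (LS (v.valuation F)).index ≤ 4 ^ S.card * 2 ^ (Module.finrank ℚ F) := by
  classical
  choose e he using (exists_two_exp (F := F))
  have h1 : ∏ v ∈ S, (LS (v.valuation F)).index ≤
      ∏ v ∈ S, (4 * Ideal.absNorm v.asIdeal ^ e v) :=
    Finset.prod_le_prod (fun _ _ => Nat.zero_le _) (fun v _ => (LS_index_le v (e v) (he v)).2)
  refine h1.trans ?_
  rw [Finset.prod_mul_distrib, Finset.prod_const]
  refine Nat.mul_le_mul_left _ ?_
  have h2 : ∏ v ∈ S, Ideal.absNorm v.asIdeal ^ e v =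
      Ideal.absNorm (∏ v ∈ S, v.asIdeal ^ e v) := by
    rw [map_prod]; simp only [map_pow]
  rw [h2]
  have hdvd : ∏ v ∈ S, v.asIdeal ^ e v ∣ Ideal.span {(2 : 𝓞 F)} := by
    refine Finset.prod_dvd_of_coprime ?_ ?_
    · intro v _ v' _ hne
      refine IsCoprime.pow ?_
      rw [Ideal.isCoprime_iff_sup_eq]
      exact v.isMaximal.coprime_of_ne v'.isMaximal (fun h => hne (HeightOneSpectrum.ext h))
    · intro v _
      have h5 : v.valuation F (algebraMap (𝓞 F) F 2) = WithZero.exp (-(e v : ℤ)) := by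
        rw [map_ofNat]; exact he v
      rw [← HeightOneSpectrum.intValuation_le_pow_iff_dvd,
        ← HeightOneSpectrum.valuation_of_algebraMap (K := F)]
      exact h5.le
  have h3 : Ideal.absNorm (Ideal.span {(2 : 𝓞 F)}) = 2 ^ Module.finrank ℚ F := by
    have := Ideal.absNorm_span_natCast (S := 𝓞 F) 2
    rw [RingOfIntegers.rank] at this
    exact_mod_cast this
  rw [← h3]
  refine Nat.le_of_dvd ?_ (map_dvd _ hdvd)
  rw [h3]
  positivity

end Vale.Agent.P011.Arith
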