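import Vale.Agent.P011.Arith.Hasse4

open NumberField IsDedekindDomain

/-!
Norms of quaternion algebras over number fields (Hasse-Schilling) and ternary hermitian forms,
deduced from the Hasse norm theorem for quadratic extensions.
-/

namespace Vale.Agent.P011.Arith.Sch


section field
variable {F : Type} [Field F]

theorem sq_mem_NF (a y : Fˣ) : y ^ 2 ∈ NF a := ⟨(y : F), 0, by simp⟩

theorem neg_mem_NF (a : Fˣ) : -a ∈ NF a := ⟨0, 1, by simp⟩

theorem exp_of_ne_zero {x : Z0} (hx : x ≠ 0) : ∃ n : ℤ, x = WithZero.exp n := by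
  refine ⟨WithZero.log x, ?_⟩
  exact (WithZero.exp_log hx).symm

end field

variable {F : Type} [Field F] [NumberField F]

omit [NumberField F] in
theorem LS_of_near [CharZero F] {w : Valuation F Z0} {x y : Fˣ} (hy : y ∈ LS w)
    (h : w ((x : F) - y) < w 4 * w y) : x ∈ LS w := by
  have h0 : w (y : F) ≠ 0 := (Valuation.ne_zero_iff _).mpr y.ne_zero
  have h1 : x / y ∈ LS w := by
    refine ⟨1, ?_⟩
    have e : ((x / y : Fˣ) : F) / ((1 : Fˣ) : F) ^ 2 - 1 = ((x : F) - y) / y := by
      rw [Units.val_div_eq_div_val, Units.val_one, one_pow, div_one]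
      have := y.ne_zero
      field_simp
    rw [e, map_div₀, div_lt_iff₀ (zero_lt_iff.mpr h0)]
    exact h
  have := mul_mem h1 hy
  rwa [div_mul_cancel] at this

theorem not_mem_LS_of_odd (v : HeightOneSpectrum (𝓞 F)) (π : Fˣ)
    (hπ : v.valuation F (π : F) = WithZero.exp (-1)) : π ∉ LS (v.valuation F) := by
  rintro ⟨y, hy⟩
  have hy0 : v.valuation F (y : F) ≠ 0 := (Valuation.ne_zero_iff _).mpr y.ne_zero
  obtain ⟨n, hn⟩ := exp_of_ne_zero hy0
  have h1 : v.valuation F ((π : F) / (y : F) ^ 2) = 1 := by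
    have := (v.valuation F).map_one_add_of_lt (x := (π : F) / (y : F) ^ 2 - 1)
      (lt_of_lt_of_le hy (val_four_le _))
    rwa [add_sub_cancel] at this
  rw [map_div₀, map_pow, hπ, hn, div_eq_one_iff_eq (pow_ne_zero _ WithZero.exp_ne_zero),
    ← WithZero.exp_nsmul, WithZero.exp_inj] at h1
  simp at h1
  omega

/-- For every place some `x ^ 2 - c` is not a local square. -/
theorem exists_sub_notMem (v : HeightOneSpectrum (𝓞 F)) (c : Fˣ) :
    ∃ (x : F) (e : Fˣ), (e : F) = x ^ 2 - c ∧ e ∉ LS (v.valuation F) := by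
  by_contra hcon
  push Not at hcon
  set w := v.valuation F with hw
  have hd : -c ∈ LS w := hcon 0 (-c) (by simp)
  have hadd : ∀ s ∈ LS w, ∀ t ∈ LS w, ∀ u : Fˣ, (u : F) = s + t → u ∈ LS w := by
    intro s hs t ht u hu
    have hσ : s * (-c) / t ∈ LS w := div_mem (mul_mem hs hd) ht
    set σ := s * (-c) / t with hσd
    have hτ : ((u * (-c) / t : Fˣ) : F) = σ + ((-c : Fˣ) : F) := by
      rw [hσd, Units.val_div_eq_div_val, Units.val_div_eq_div_val, Units.val_mul, Units.val_mul, hu]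
      have := t.ne_zero
      field_simp
    set τ := u * (-c) / t with hτd
    have hσ0 : w (σ : F) ≠ 0 := (Valuation.ne_zero_iff _).mpr σ.ne_zero
    have hτ0 : w (τ : F) ≠ 0 := (Valuation.ne_zero_iff _).mpr τ.ne_zero
    have h40 : w (4 : F) ≠ 0 := (Valuation.ne_zero_iff _).mpr (by norm_num)
    obtain ⟨m, hm⟩ := exp_of_ne_zero (x := w 4 * w (τ : F) / w (σ : F))
      (div_ne_zero (mul_ne_zero h40 hτ0) hσ0)
    obtain ⟨y, hy⟩ := LS_newton hσ (min m (-1))
    have hy1 : w ((σ : F) / (y : F) ^ 2 - 1) < w 4 * w (τ : F) / w (σ : F) := by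
      rw [hm]
      exact lt_of_lt_of_le hy (WithZero.exp_le_exp.mpr (min_le_left _ _))
    have hy2 : w ((σ : F) / (y : F) ^ 2 - 1) < 1 := by
      refine lt_of_lt_of_le hy ?_
      rw [← WithZero.exp_zero]
      exact WithZero.exp_le_exp.mpr (le_trans (min_le_right _ _) (by norm_num))
    have hy3 : w (σ : F) = w ((y : F) ^ 2) := by
      have h1 := w.map_one_add_of_lt hy2
      rw [add_sub_cancel, map_div₀, div_eq_one_iff_eq
        ((Valuation.ne_zero_iff _).mpr (pow_ne_zero _ y.ne_zero))] at h1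
      exact h1
    have hdiff : w ((σ : F) - (y : F) ^ 2) < w 4 * w (τ : F) := by
      have e1 : (σ : F) - (y : F) ^ 2 = ((σ : F) / (y : F) ^ 2 - 1) * (y : F) ^ 2 := by
        have := y.ne_zero
        field_simp
      rw [e1, map_mul, ← hy3]
      exact (lt_div_iff₀ (zero_lt_iff.mpr hσ0)).mp hy1
    have hlt : w ((σ : F) - (y : F) ^ 2) < w (τ : F) :=
      lt_of_lt_of_le hdiff (by
        calc w 4 * w (τ : F) ≤ 1 * w (τ : F) := mul_le_mul_left (val_four_le w) _
          _ = _ := one_mul _)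
    have hne : (y : F) ^ 2 - c ≠ 0 := by
      intro h0
      have h2 : (σ : F) - (y : F) ^ 2 = (τ : F) := by
        rw [hτ, sub_eq_zero.mp h0]
        push_cast
        ring
      rw [h2] at hlt
      exact lt_irrefl _ hlt
    have hmem := hcon y (Units.mk0 _ hne) rfl
    have hτmem : τ ∈ LS w := by
      refine LS_of_near hmem ?_
      have e2 : (τ : F) - ((Units.mk0 _ hne : Fˣ) : F) = (σ : F) - (y : F) ^ 2 := by
        rw [hτ, Units.val_mk0]
        push_cast
        ring
      have e3 : w ((Units.mk0 _ hne : Fˣ) : F) = w (τ : F) := by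
        have : ((Units.mk0 _ hne : Fˣ) : F) = (τ : F) - ((σ : F) - (y : F) ^ 2) := by
          rw [← e2]; ring
        rw [this]
        exact Valuation.map_sub_eq_of_lt_left _ hlt
      rw [e2, e3]
      exact hdiff
    have hfin : u = τ * t / (-c) := by
      rw [hτd, div_mul_cancel, mul_div_cancel_right]
    rw [hfin]
    exact div_mem (mul_mem hτmem ht) hd
  have hnat : ∀ n : ℕ, ∀ u : Fˣ, (u : F) = ((n + 1 : ℕ) : F) → u ∈ LS w := by
    intro n
    induction n with
    | zero =>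
      intro u hu
      have : u = 1 := Units.ext (by simpa using hu)
      rw [this]
      exact one_mem _
    | succ n ih =>
      intro u hu
      have h0 : ((n + 1 : ℕ) : F) ≠ 0 := Nat.cast_ne_zero.mpr (Nat.succ_ne_zero n)
      refine hadd (Units.mk0 _ h0) (ih _ rfl) 1 (one_mem _) u ?_
      rw [hu]
      push_cast
      simp
  -- `-1` is a local square
  have hneg : (-1 : Fˣ) ∈ LS w := by
    set p : ℕ := Ideal.absNorm v.asIdeal with hp
    have hp0 : p ≠ 0 := by
      rw [hp, Ne, Ideal.absNorm_eq_zero_iff]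
      exact v.ne_bot
    have hpv : w (p : F) < 1 := by
      have h1 : ((p : ℕ) : 𝓞 F) ∈ v.asIdeal := Ideal.absNorm_mem v.asIdeal
      have h2 : w (algebraMap (𝓞 F) F ((p : ℕ) : 𝓞 F)) < 1 := by
        rw [hw, HeightOneSpectrum.valuation_of_algebraMap]
        exact (v.intValuation_lt_one_iff_mem _).mpr h1
      rwa [map_natCast] at h2
    have hpF : (p : F) ≠ 0 := Nat.cast_ne_zero.mpr hp0
    obtain ⟨n, hn⟩ := exp_of_ne_zero (x := w (p : F)) ((Valuation.ne_zero_iff _).mpr hpF)
    obtain ⟨m, hm⟩ := exp_of_ne_zero (x := w (4 : F)) ((Valuation.ne_zero_iff _).mpr (by norm_num))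
    have hn1 : n ≤ -1 := by
      rw [hn, ← WithZero.exp_zero, WithZero.exp_lt_exp] at hpv
      omega
    obtain ⟨k, hk, hk1⟩ : ∃ k : ℕ, w ((p : F) ^ k) < w 4 ∧ 1 ≤ k := by
      refine ⟨m.natAbs + 1, ?_, by omega⟩
      rw [map_pow, hn, hm, ← WithZero.exp_nsmul, WithZero.exp_lt_exp]
      simp only [nsmul_eq_mul]
      push_cast
      have h1 : -(|m|) ≤ m := neg_abs_le m
      nlinarith [abs_nonneg m]
    have hp2 : 2 ≤ p := by
      by_contra h
      have : p = 1 := by omega
      rw [this, Nat.cast_one, map_one] at hpv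
      exact lt_irrefl _ hpv
    have hpk : 2 ≤ p ^ k := le_trans hp2 (Nat.le_self_pow (by omega) p)
    have hne1 : ((p : F) ^ k - 1) ≠ 0 := by
      have : ((p ^ k - 1 : ℕ) : F) ≠ 0 := Nat.cast_ne_zero.mpr (by omega)
      rw [Nat.cast_sub (by omega)] at this
      simpa using this
    have h1 : Units.mk0 _ hne1 ∈ LS w := by
      refine hnat (p ^ k - 2) _ ?_
      rw [Units.val_mk0]
      have : p ^ k - 2 + 1 = p ^ k - 1 := by omega
      rw [this, Nat.cast_sub (by omega)]
      push_cast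
      ring
    have h2 : -(Units.mk0 _ hne1) ∈ LS w := by
      refine LS_of_near (y := 1) (one_mem _) ?_
      rw [Units.val_neg, Units.val_mk0, Units.val_one, map_one, mul_one]
      have : -((p : F) ^ k - 1) - 1 = -((p : F) ^ k) := by ring
      rw [this, Valuation.map_neg]
      exact hk
    have h3 := div_mem h2 h1
    have h4 : -(Units.mk0 _ hne1) / Units.mk0 _ hne1 = -1 := by
      rw [neg_div, div_self']
    rwa [h4] at h3
  have htop : ∀ a : Fˣ, a ∈ LS w := by
    intro a
    have hsq : ∀ z : F, ∀ hz : z ^ 2 ≠ 0, Units.mk0 (z ^ 2) hz ∈ LS w := by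
      intro z hz
      have hz0 : z ≠ 0 := fun h => hz (by rw [h]; simp)
      refine ⟨Units.mk0 z hz0, ?_⟩
      rw [Units.val_mk0, Units.val_mk0, div_self hz, sub_self, map_zero]
      exact zero_lt_iff.mpr ((Valuation.ne_zero_iff _).mpr (by norm_num))
    by_cases h1 : ((a : F) + 1) / 2 = 0
    · have : a = -1 := by
        apply Units.ext
        rw [Units.val_neg, Units.val_one]
        have h3 : (a : F) + 1 = 0 := by
          rcases div_eq_zero_iff.mp h1 with h | h
          · exact h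
          · exact absurd h two_ne_zero
        linear_combination h3
      rw [this]
      exact hneg
    · by_cases h2 : ((a : F) - 1) / 2 = 0
      · have : a = 1 := by
          apply Units.ext
          rw [Units.val_one]
          have h3 : (a : F) - 1 = 0 := by
            rcases div_eq_zero_iff.mp h2 with h | h
            · exact h
            · exact absurd h two_ne_zero
          linear_combination h3
        rw [this]
        exact one_mem _
      · refine hadd (Units.mk0 _ (pow_ne_zero 2 h1)) (hsq _ _)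
          (-(Units.mk0 _ (pow_ne_zero 2 h2))) ?_ a ?_
        · have h3 := mul_mem hneg (hsq _ (pow_ne_zero 2 h2))
          rwa [neg_one_mul] at h3
        · rw [Units.val_neg, Units.val_mk0, Units.val_mk0]
          field_simp
          ring
  obtain ⟨π, hπ⟩ := v.valuation_exists_uniformizer F
  have hπ0 : π ≠ 0 := by
    rintro rfl
    rw [map_zero] at hπ
    exact WithZero.exp_ne_zero hπ.symm
  exact not_mem_LS_of_odd v (Units.mk0 π hπ0) hπ (htop _)


/-- A locally nonsplit quaternion algebra represents every nonsquare `e`. -/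
theorem local_split (v : HeightOneSpectrum (𝓞 F)) (a b e : Fˣ) (he : e ∉ LS (v.valuation F)) :
    b ∈ NF a ⊔ LS (v.valuation F) ∨
      ∃ (x : F) (n l : Fˣ), n ∈ NF a ∧ l ∈ LS (v.valuation F) ∧ (e : F) - a * x ^ 2 = b * n * l := by
  by_cases hb : b ∈ NF a ⊔ LS (v.valuation F)
  · exact Or.inl hb
  right
  have hπ : ∃ π : F, v.valuation F π = WithZero.exp (-1) := by
    obtain ⟨π, hπ⟩ := v.valuation_exists_uniformizer F
    exact ⟨π, hπ⟩
  have ha : a ∉ LS (v.valuation F) := by
    intro h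
    rw [NF_sup_of_mem hπ a h] at hb
    exact hb (Subgroup.mem_top _)
  have hidx := local_index_two v a ha
  -- it suffices to find `x` with `e - a x ^ 2` not a local norm
  suffices hx : ∃ (x : F) (u : Fˣ), (u : F) = e - a * x ^ 2 ∧ u ∉ NF a ⊔ LS (v.valuation F) by
    obtain ⟨x, u, hu, hun⟩ := hx
    have h1 : u / b ∈ NF a ⊔ LS (v.valuation F) := by
      have h2 : u * b ∈ NF a ⊔ LS (v.valuation F) := by
        rw [Subgroup.mul_mem_iff_of_index_two hidx]
        exact ⟨fun h => absurd h hun, fun h => absurd h hb⟩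
      have h3 : (b ^ 2)⁻¹ ∈ NF a ⊔ LS (v.valuation F) :=
        inv_mem (Subgroup.mem_sup_left (sq_mem_NF a b))
      have h4 : u / b = u * b * (b ^ 2)⁻¹ := by
        rw [div_eq_mul_inv, pow_two, mul_inv, mul_assoc, ← mul_assoc b, mul_inv_cancel, one_mul]
      rw [h4]
      exact mul_mem h2 h3
    obtain ⟨n, hn, l, hl, hnl⟩ := Subgroup.mem_sup.mp h1
    refine ⟨x, n, l, hn, hl, ?_⟩
    rw [← hu, mul_assoc, ← Units.val_mul, hnl, ← Units.val_mul, mul_div_cancel]
  by_contra hcon
  push Not at hcon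
  set g : Fˣ := e / a with hg
  have hle : NF g ⊔ LS (v.valuation F) ≤ NF a ⊔ LS (v.valuation F) := by
    refine sup_le ?_ le_sup_right
    rintro t ⟨x, y, ht⟩
    by_cases hy : y = 0
    · have hx : x ≠ 0 := by
        rintro rfl
        rw [hy] at ht
        exact t.ne_zero (by rw [ht]; simp)
      have : t = (Units.mk0 x hx) ^ 2 := Units.ext (by rw [ht, hy]; simp)
      rw [this]
      exact Subgroup.mem_sup_left (sq_mem_NF a _)
    · have hu : ((t * (-a) / (Units.mk0 y hy) ^ 2 : Fˣ) : F) = e - a * (x / y) ^ 2 := by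
        rw [Units.val_div_eq_div_val, Units.val_mul, Units.val_neg, Units.val_pow_eq_pow_val,
          Units.val_mk0, ht, hg, Units.val_div_eq_div_val]
        have := a.ne_zero
        field_simp
        ring
      have h1 := hcon (x / y) _ hu
      have h2 : t = (t * (-a) / (Units.mk0 y hy) ^ 2) * (Units.mk0 y hy) ^ 2 / (-a) := by
        rw [div_mul_cancel, mul_div_cancel_right]
      rw [h2]
      exact div_mem (mul_mem h1 (Subgroup.mem_sup_left (sq_mem_NF a _)))
        (Subgroup.mem_sup_left (neg_mem_NF a))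
  have hgLS : g ∉ LS (v.valuation F) := by
    intro h
    rw [NF_sup_of_mem hπ g h] at hle
    exact hb (hle (Subgroup.mem_top _))
  have hidxg := local_index_two v g hgLS
  have heq : NF g ⊔ LS (v.valuation F) = NF a ⊔ LS (v.valuation F) := by
    have h1 := Subgroup.relIndex_mul_index hle
    rw [hidx, hidxg] at h1
    have h2 : (NF g ⊔ LS (v.valuation F)).relIndex (NF a ⊔ LS (v.valuation F)) = 1 := by omega
    exact le_antisymm hle (Subgroup.relIndex_eq_one.mp h2)
  have hall : ∀ t : Fˣ, e ∈ NF t ⊔ LS (v.valuation F) := by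
    intro t
    have hag : e = a * g := by rw [hg, mul_div_cancel]
    have hiff : a ∈ NF t ⊔ LS (v.valuation F) ↔ g ∈ NF t ⊔ LS (v.valuation F) := by
      constructor
      · intro h
        have h1 := mem_symm t a h
        rw [← heq] at h1
        exact mem_symm g t h1
      · intro h
        have h1 := mem_symm t g h
        rw [heq] at h1
        exact mem_symm a t h1
    by_cases ht : t ∈ LS (v.valuation F)
    · rw [NF_sup_of_mem hπ t ht]
      exact Subgroup.mem_top _
    · rw [hag, Subgroup.mul_mem_iff_of_index_two (local_index_two v t ht)]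
      exact hiff
  have hidxe := local_index_two v e he
  have htop : NF e ⊔ LS (v.valuation F) = ⊤ := by
    rw [eq_top_iff]
    intro t _
    exact mem_symm t e (hall t)
  rw [htop, Subgroup.index_top] at hidxe
  norm_num at hidxe


section ext

variable {E : Type} [Field E] [NumberField E] [Algebra F E]

theorem NF_map {a b : Fˣ} (h : b ∈ NF a) :
    Units.map (algebraMap F E : F →* E) b ∈ NF (Units.map (algebraMap F E : F →* E) a) := by
  obtain ⟨x, y, hxy⟩ := h
  refine ⟨algebraMap F E x, algebraMap F E y, ?_⟩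
  change algebraMap F E b = _
  rw [hxy]
  simp

theorem sup_map {v : HeightOneSpectrum (𝓞 F)} {w : HeightOneSpectrum (𝓞 E)}
    (h : w.asIdeal.comap (algebraMap (𝓞 F) (𝓞 E)) = v.asIdeal) {a b : Fˣ}
    (hb : b ∈ NF a ⊔ LS (v.valuation F)) :
    Units.map (algebraMap F E : F →* E) b ∈
      NF (Units.map (algebraMap F E : F →* E) a) ⊔ LS (w.valuation E) := by
  obtain ⟨n, hn, l, hl, rfl⟩ := Subgroup.mem_sup.mp hb
  rw [map_mul]
  exact Subgroup.mul_mem_sup (NF_map hn) (LS_map h hl)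

omit [NumberField F] [NumberField E] in
theorem exists_below [NumberField F] [NumberField E] (w : HeightOneSpectrum (𝓞 E)) :
    ∃ v : HeightOneSpectrum (𝓞 F), w.asIdeal.comap (algebraMap (𝓞 F) (𝓞 E)) = v.asIdeal :=
  ⟨w.under (𝓞 F), rfl⟩

theorem valuation_one_map {v : HeightOneSpectrum (𝓞 F)} {w : HeightOneSpectrum (𝓞 E)}
    (h : w.asIdeal.comap (algebraMap (𝓞 F) (𝓞 E)) = v.asIdeal) {x : F}
    (hx : v.valuation F x = 1) : w.valuation E (algebraMap F E x) = 1 := by
  have _hl : w.asIdeal.LiesOver v.asIdeal := ⟨h.symm⟩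
  rw [← HeightOneSpectrum.valuation_liesOver E v w x, hx, one_pow]

theorem exists_coords {θ : E} (hE : Module.finrank F E = 2)
    (hθ' : ∀ x : F, algebraMap F E x ≠ θ) (X : E) :
    ∃ p q : F, X = algebraMap F E p + algebraMap F E q * θ := by
  have hli : LinearIndependent F ![(1 : E), θ] := by
    rw [LinearIndependent.pair_iff]
    intro s t hst
    by_cases ht : t = 0
    · subst ht
      rw [zero_smul, add_zero, Algebra.smul_def, mul_one] at hst
      exact ⟨(map_eq_zero _).mp hst, rfl⟩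
    · exfalso
      apply hθ' (-(s / t))
      have h1 : algebraMap F E t ≠ 0 := (map_ne_zero _).mpr ht
      rw [Algebra.smul_def, Algebra.smul_def, mul_one] at hst
      rw [map_neg, map_div₀]
      field_simp
      linear_combination -hst
  have hspan : Submodule.span F (Set.range ![(1 : E), θ]) = ⊤ :=
    hli.span_eq_top_of_card_eq_finrank' (by simp [hE])
  have hX : X ∈ Submodule.span F (Set.range ![(1 : E), θ]) := hspan ▸ Submodule.mem_top
  rw [Matrix.range_cons, Matrix.range_cons, Matrix.range_empty, Set.union_empty,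
    Set.singleton_union, Submodule.mem_span_pair] at hX
  obtain ⟨p, q, hpq⟩ := hX
  refine ⟨p, q, ?_⟩
  rw [← hpq, Algebra.smul_def, Algebra.smul_def, mul_one]

theorem coords_unique {θ : E} (hθ' : ∀ x : F, algebraMap F E x ≠ θ) {p q : F}
    (h : algebraMap F E p + algebraMap F E q * θ = 0) : p = 0 ∧ q = 0 := by
  have hq : q = 0 := by
    by_contra hq
    apply hθ' (-(p / q))
    have h1 : algebraMap F E q ≠ 0 := (map_ne_zero _).mpr hq
    rw [map_neg, map_div₀]
    field_simp
    linear_combination -h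
  subst hq
  rw [map_zero, zero_mul, add_zero] at h
  exact ⟨(map_eq_zero _).mp h, rfl⟩

/-- Reduction of the quaternion norm problem to a norm equation over a quadratic extension. -/
theorem descend {a b e : F} {θ : E} (hθ : θ ^ 2 = algebraMap F E e) (hE : Module.finrank F E = 2)
    (hθ' : ∀ x : F, algebraMap F E x ≠ θ) {X Y : E}
    (h : algebraMap F E b = X ^ 2 - algebraMap F E a * Y ^ 2) :
    ∃ x1 x2 y1 y2 : F, b = (x1 ^ 2 - a * y1 ^ 2) + e * (x2 ^ 2 - a * y2 ^ 2) ∧
      x1 * x2 = a * y1 * y2 := by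
  obtain ⟨x1, x2, rfl⟩ := exists_coords hE hθ' X
  obtain ⟨y1, y2, rfl⟩ := exists_coords hE hθ' Y
  have h1 : algebraMap F E ((x1 ^ 2 - a * y1 ^ 2) + e * (x2 ^ 2 - a * y2 ^ 2) - b) +
      algebraMap F E (2 * (x1 * x2 - a * y1 * y2)) * θ = 0 := by
    simp only [map_add, map_sub, map_mul, map_pow, map_ofNat]
    linear_combination -h - (algebraMap F E x2 ^ 2 - algebraMap F E a * algebraMap F E y2 ^ 2) * hθ
  obtain ⟨h2, h3⟩ := coords_unique hθ' h1
  refine ⟨x1, x2, y1, y2, (sub_eq_zero.mp h2).symm, ?_⟩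
  have h4 : x1 * x2 - a * y1 * y2 = 0 := by
    rcases mul_eq_zero.mp h3 with h | h
    · exact absurd h two_ne_zero
    · exact h
  exact sub_eq_zero.mp h4

end ext

theorem quaternion_norm_of_isotropic (a b c : F) (hb : b ≠ 0)
    (h : ∃ r s : F, b = r ^ 2 - a * s ^ 2) :
    ∃ x y z t : F, c = x ^ 2 - a * y ^ 2 - b * z ^ 2 + a * b * t ^ 2 := by
  obtain ⟨r, s, hrs⟩ := h
  refine ⟨(c + 1) / 2, 0, (c - 1) / 2 * r / b, -((c - 1) / 2 * s / b), ?_⟩
  have h1 : b * ((c - 1) / 2 * r / b) ^ 2 - a * b * (-((c - 1) / 2 * s / b)) ^ 2 =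
      ((c - 1) / 2) ^ 2 := by
    have : b * ((c - 1) / 2 * r / b) ^ 2 - a * b * (-((c - 1) / 2 * s / b)) ^ 2 =
      ((c - 1) / 2) ^ 2 * (r ^ 2 - a * s ^ 2) / b := by
      field_simp
    rw [this, ← hrs]
    field_simp
  linear_combination h1

theorem quaternion_norm_of_square (a b c : F) (ha : a ≠ 0) (h : IsSquare a) :
    ∃ x y z t : F, c = x ^ 2 - a * y ^ 2 - b * z ^ 2 + a * b * t ^ 2 := by
  obtain ⟨r, rfl⟩ := h
  have hr : r ≠ 0 := fun h => ha (by rw [h, mul_zero])
  refine ⟨(c + 1) / 2, (c - 1) / (2 * r), 0, 0, ?_⟩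
  field_simp
  ring

theorem quaternion_norm_of_descend (a b c e x x1 x2 y1 y2 : F) (ha : a ≠ 0) (hb : b ≠ 0)
    (hc : c = x ^ 2 - e)
    (h1 : b = (x1 ^ 2 - a * y1 ^ 2) + e * (x2 ^ 2 - a * y2 ^ 2)) (h2 : x1 * x2 = a * y1 * y2) :
    ∃ x y z t : F, c = x ^ 2 - a * y ^ 2 - b * z ^ 2 + a * b * t ^ 2 := by
  by_cases hn : x2 ^ 2 - a * y2 ^ 2 = 0
  · by_cases hy2 : y2 = 0
    · subst hy2
      have hx2 : x2 = 0 := by simpa using hn
      subst hx2
      exact quaternion_norm_of_isotropic a b c hb ⟨x1, y1, by rw [h1]; ring⟩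
    · refine quaternion_norm_of_square a b c ha ⟨x2 / y2, ?_⟩
      field_simp
      linear_combination -hn
  · refine ⟨x, (x1 * y2 - x2 * y1) / (x2 ^ 2 - a * y2 ^ 2), x2 / (x2 ^ 2 - a * y2 ^ 2),
      y2 / (x2 ^ 2 - a * y2 ^ 2), ?_⟩
    rw [hc]
    have key : e * (x2 ^ 2 - a * y2 ^ 2) ^ 2 =
        a * (x1 * y2 - x2 * y1) ^ 2 + b * (x2 ^ 2 - a * y2 ^ 2) := by
      rw [h1]
      linear_combination (-(x1 * x2 - a * y1 * y2)) * h2
    have hee : e = (a * (x1 * y2 - x2 * y1) ^ 2 + b * (x2 ^ 2 - a * y2 ^ 2)) /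
        (x2 ^ 2 - a * y2 ^ 2) ^ 2 := by
      rw [eq_div_iff (pow_ne_zero 2 hn), key]
    rw [hee]
    field_simp
    ring

theorem plAbv_near (p : Pl F) (x₀ : F) {M : ℝ} (hM : 0 < M) :
    ∃ δ : ℝ, 0 < δ ∧ ∀ x : F, plAbv p (x - x₀) < δ → plAbv p (x ^ 2 - x₀ ^ 2) < M := by
  have h0 : 0 < 1 + 2 * plAbv p x₀ := by
    have := (plAbv p).nonneg x₀
    linarith
  refine ⟨min 1 (M / (1 + 2 * plAbv p x₀)), lt_min one_pos (div_pos hM h0), fun x hx => ?_⟩
  have h1 : plAbv p (x - x₀) < 1 := lt_of_lt_of_le hx (min_le_left _ _)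
  have h2 : plAbv p (x - x₀) < M / (1 + 2 * plAbv p x₀) := lt_of_lt_of_le hx (min_le_right _ _)
  have e1 : x ^ 2 - x₀ ^ 2 = (x - x₀) * ((x - x₀) + x₀ + x₀) := by ring
  rw [e1, map_mul]
  have h3 : plAbv p ((x - x₀) + x₀ + x₀) ≤ 1 + 2 * plAbv p x₀ := by
    have h4 := (plAbv p).add_le ((x - x₀) + x₀) x₀
    have h5 := (plAbv p).add_le (x - x₀) x₀
    linarith
  calc plAbv p (x - x₀) * plAbv p ((x - x₀) + x₀ + x₀)
      ≤ plAbv p (x - x₀) * (1 + 2 * plAbv p x₀) :=
        mul_le_mul_of_nonneg_left h3 ((plAbv p).nonneg _)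
    _ < M := (lt_div_iff₀ h0).mp h2

/-- The auxiliary element `x ^ 2 - c`. -/
theorem exists_aux (S : Set (HeightOneSpectrum (𝓞 F))) (hS : S.Finite) (c : Fˣ)
    (R : Set (F →+* ℝ)) (hR : ∀ φ ∈ R, 0 < φ c) :
    ∃ x : F, (∀ φ ∈ R, φ x ^ 2 < φ c) ∧ ∀ v ∈ S, ∀ e : Fˣ, (e : F) = x ^ 2 - c →
      e ∉ LS (v.valuation F) := by
  choose x₀ e₀ he₀ hn₀ using fun v : HeightOneSpectrum (𝓞 F) => exists_sub_notMem v c
  choose δ₀ hδ₀ hδ₁ using fun v : HeightOneSpectrum (𝓞 F) => plAbv_near (Sum.inl v) (x₀ v)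
    (M := plAbv (Sum.inl v) (4 * (e₀ v : F)))
    ((plAbv (Sum.inl v)).pos (mul_ne_zero (by norm_num) (e₀ v).ne_zero))
  choose δ₂ hδ₂ hδ₃ using fun φ : F →+* ℝ => plAbv_near (Sum.inr φ) (0 : F)
    (M := |φ c|) (abs_pos.mpr ((map_ne_zero φ).mpr c.ne_zero))
  let T : Set (Pl F) := (Sum.inl '' S) ∪ Set.range Sum.inr
  have hT : T.Finite := (hS.image _).union (Set.finite_range _)
  let z : Pl F → F := Sum.elim x₀ (fun _ => 0)
  let δ : Pl F → ℝ := Sum.elim δ₀ δ₂
  have hδ : ∀ p, 0 < δ p := by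
    rintro (v | φ)
    · exact hδ₀ v
    · exact hδ₂ φ
  obtain ⟨x, hx⟩ := approx T hT z δ hδ
  refine ⟨x, fun φ hφ => ?_, fun v hv e he hmem => ?_⟩
  · have h1 := hδ₃ φ x (hx (Sum.inr φ) (Or.inr ⟨φ, rfl⟩))
    rw [plAbv_inr, abs_of_pos (hR φ hφ)] at h1
    have h2 := (abs_lt.mp h1).2
    simpa using h2
  · have h1 := hδ₁ v x (hx (Sum.inl v) (Or.inl ⟨v, hv, rfl⟩))
    rw [plAbv_lt, map_mul] at h1
    have h2 : x ^ 2 - x₀ v ^ 2 = (e : F) - e₀ v := by
      rw [he, he₀]; ring
    rw [h2] at h1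
    have h3 : (v.valuation F) ((e : F) - e₀ v) < (v.valuation F) (e₀ v : F) :=
      lt_of_lt_of_le h1 (by
        calc (v.valuation F) 4 * (v.valuation F) (e₀ v : F) ≤ 1 * (v.valuation F) (e₀ v : F) :=
            mul_le_mul_left (val_four_le _) _
          _ = _ := one_mul _)
    have h4 : (v.valuation F) (e : F) = (v.valuation F) (e₀ v : F) := by
      have : (e : F) = e₀ v + ((e : F) - e₀ v) := by ring
      rw [this]
      exact Valuation.map_add_eq_of_lt_left _ h3
    apply hn₀ v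
    refine LS_of_near hmem ?_
    rw [h4, Valuation.map_sub_swap]
    exact h1

/-- E1 Hasse-Schilling for quaternion algebras -/
theorem quaternion_norm (a b c : Fˣ)
    (h : ∀ φ : F →+* ℝ, φ a < 0 → φ b < 0 → 0 < φ c) :
    ∃ x y z t : F, (c : F) = x ^ 2 - a * y ^ 2 - b * z ^ 2 + a * b * t ^ 2 := by
  by_cases hsq : IsSquare (a : F)
  · exact quaternion_norm_of_square _ _ _ a.ne_zero hsq
  obtain ⟨v0⟩ := nonempty_prime (F := F)
  set S : Set (HeightOneSpectrum (𝓞 F)) := {v0} ∪ {v | v.valuation F 2 ≠ 1} ∪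
    {v | v.valuation F (a : F) ≠ 1} ∪ {v | v.valuation F (b : F) ≠ 1} with hSdef
  have hS : S.Finite := (((Set.finite_singleton v0).union
    (finite_valuation_ne_one 2 two_ne_zero)).union (finite_valuation_ne_one _ a.ne_zero)).union
      (finite_valuation_ne_one _ b.ne_zero)
  obtain ⟨x, hxR, hxS⟩ := exists_aux S hS c {φ | φ a < 0 ∧ φ b < 0} (fun φ hφ => h φ hφ.1 hφ.2)
  by_cases he0 : x ^ 2 - (c : F) = 0
  · exact ⟨x, 0, 0, 0, by linear_combination -he0⟩
  set e : Fˣ := Units.mk0 _ he0 with he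
  have heS : ∀ v ∈ S, e ∉ LS (v.valuation F) := fun v hv => hxS v hv e rfl
  have hensq : ¬ IsSquare (e : F) := by
    rintro ⟨r, hr⟩
    have hr0 : r ≠ 0 := by
      rintro rfl
      exact e.ne_zero (by rw [hr, mul_zero])
    apply heS v0 (Or.inl (Or.inl (Or.inl rfl)))
    refine ⟨Units.mk0 r hr0, ?_⟩
    have : (e : F) / ((Units.mk0 r hr0 : Fˣ) : F) ^ 2 - 1 = 0 := by
      rw [hr, Units.val_mk0]
      field_simp
      ring
    rw [this, map_zero]
    exact zero_lt_iff.mpr ((Valuation.ne_zero_iff _).mpr (by norm_num))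
  obtain ⟨E, _, _, _, hE, θ, hθ⟩ := exists_quad e hensq
  have hθ' : ∀ x : F, algebraMap F E x ≠ θ := by
    rintro r rfl
    apply hensq
    refine ⟨r, (algebraMap F E).injective ?_⟩
    rw [← hθ, map_mul, pow_two]
  set ι : Fˣ →* Eˣ := Units.map (algebraMap F E : F →* E) with hι
  have hιv : ∀ u : Fˣ, ((ι u : Eˣ) : E) = algebraMap F E u := fun _ => rfl
  have key : ι b ∈ NF (ι a) := by
    refine hasse_norm (ι a) (ι b) ?_
    rintro (w | ψ)
    · change ι b ∈ NF (ι a) ⊔ LS (w.valuation E)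
      obtain ⟨v, hv⟩ := exists_below (F := F) w
      by_cases hvS : v ∈ S
      · rcases local_split v a b e (heS v hvS) with h1 | ⟨y, n, l, hn, hl, h1⟩
        · exact sup_map hv h1
        · have h2 : ι (b * n * l) ∈ NF (ι a) := by
            refine ⟨θ, algebraMap F E y, ?_⟩
            rw [hιv, hθ, hιv]
            have h3 : ((b * n * l : Fˣ) : F) = (e : F) - a * y ^ 2 := by
              rw [h1]; push_cast; ring
            rw [h3]
            simp
          have h3 : ι b = ι (b * n * l) * (ι n)⁻¹ * (ι l)⁻¹ := by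
            rw [map_mul, map_mul, mul_right_comm (ι b * ι n) (ι l) (ι n)⁻¹,
              mul_inv_cancel_right, mul_inv_cancel_right]
          rw [h3]
          exact mul_mem (mul_mem (Subgroup.mem_sup_left h2)
            (inv_mem (Subgroup.mem_sup_left (NF_map hn))))
            (inv_mem (Subgroup.mem_sup_right (LS_map hv hl)))
      · simp only [hSdef, Set.mem_union, Set.mem_ofPred_eq, not_or, not_not] at hvS
        refine unit_norm w ?_ _ _ ?_ ?_
        · have := valuation_one_map hv hvS.1.1.2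
          rwa [map_ofNat] at this
        · exact valuation_one_map hv hvS.1.2
        · exact valuation_one_map hv hvS.2
    · change ι b ∈ NF (ι a) ⊔ LSR ψ
      set φ : F →+* ℝ := ψ.comp (algebraMap F E) with hφ
      have hval : ∀ u : Fˣ, ψ (ι u) = φ u := fun _ => rfl
      have heφ : 0 ≤ φ e := by
        have : φ e = ψ θ ^ 2 := by
          rw [← map_pow, hθ]
          rfl
        rw [this]
        positivity
      by_cases hb : 0 < φ b
      · exact Subgroup.mem_sup_right (by rw [mem_LSR, hval]; exact hb)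
      · have hb' : φ b < 0 := lt_of_le_of_ne (not_lt.mp hb) ((map_ne_zero φ).mpr b.ne_zero)
        have ha' : 0 < φ a := by
          by_contra ha
          have ha' : φ a < 0 := lt_of_le_of_ne (not_lt.mp ha) ((map_ne_zero φ).mpr a.ne_zero)
          have h1 := hxR φ ⟨ha', hb'⟩
          have h2 : φ e = φ x ^ 2 - φ c := by
            rw [he, Units.val_mk0, map_sub, map_pow]
          linarith
        have h1 : ι b / (-ι a) ∈ LSR ψ := by
          rw [mem_LSR, Units.val_div_eq_div_val, map_div₀, Units.val_neg, map_neg, hval, hval]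
          exact div_pos_of_neg_of_neg hb' (by linarith)
        have h2 : ι b = -ι a * (ι b / (-ι a)) := by
          rw [mul_div_cancel]
        rw [h2]
        exact Subgroup.mul_mem_sup (neg_mem_NF _) h1
  obtain ⟨X, Y, hXY⟩ := key
  obtain ⟨x1, x2, y1, y2, h1, h2⟩ := descend (a := (a : F)) (b := (b : F)) hθ hE hθ' hXY
  refine quaternion_norm_of_descend _ _ _ (e : F) x x1 x2 y1 y2 a.ne_zero b.ne_zero ?_ h1 h2
  rw [he, Units.val_mk0]
  ring

/-- E2 ternary hermitian forms over `F(√d)` -/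
theorem ternary_isotropic (d a b c : Fˣ)
    (h : ∀ φ : F →+* ℝ, φ d < 0 → ¬ (0 < φ a ∧ 0 < φ b ∧ 0 < φ c) ∧
      ¬ (φ a < 0 ∧ φ b < 0 ∧ φ c < 0)) :
    ∃ x y z t u v : F, (x, y, z, t, u, v) ≠ (0, 0, 0, 0, 0, 0) ∧
      (a : F) * (x ^ 2 - d * y ^ 2) + b * (z ^ 2 - d * t ^ 2) + c * (u ^ 2 - d * v ^ 2) = 0 := by
  have h' : ∀ φ : F →+* ℝ, φ d < 0 → φ ((-(a * b) : Fˣ) : F) < 0 → 0 < φ ((-(a * c) : Fˣ) : F) := by
    intro φ hd hab
    obtain ⟨h1, h2⟩ := h φ hd
    have ha0 : φ a ≠ 0 := (map_ne_zero φ).mpr a.ne_zero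
    have hb0 : φ b ≠ 0 := (map_ne_zero φ).mpr b.ne_zero
    have hc0 : φ c ≠ 0 := (map_ne_zero φ).mpr c.ne_zero
    push_cast at hab ⊢
    rw [map_neg, map_mul] at hab ⊢
    by_contra hcon
    have hac : 0 < φ a * φ c := by
      rcases lt_or_gt_of_ne (mul_ne_zero ha0 hc0) with h3 | h3
      · exact absurd (by linarith) hcon
      · exact h3
    have hab' : 0 < φ a * φ b := by linarith
    rcases lt_or_gt_of_ne ha0 with h3 | h3
    · exact h2 ⟨h3, by nlinarith, by nlinarith⟩
    · exact h1 ⟨h3, by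
        by_contra h4
        nlinarith [lt_of_le_of_ne (not_lt.mp h4) hb0], by
        by_contra h4
        nlinarith [lt_of_le_of_ne (not_lt.mp h4) hc0]⟩
  obtain ⟨x, y, z, t, hxy⟩ := quaternion_norm d (-(a * b)) (-(a * c)) h'
  refine ⟨x / a, y / a, z, t, 1, 0, ?_, ?_⟩
  · intro h0
    simp at h0
  · push_cast at hxy
    have ha0 := a.ne_zero
    field_simp
    linear_combination -hxy

end Vale.Agent.P011.Arith.Sch
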